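import Vale.Agent.P283R.Hz.St

/-!
# P283R, block HZ: the log discrepancy of the places of the Rees ring
-/

open Set MvPolynomial

noncomputable section

namespace Vale.Agent.P283R.Hz

open Vale.Agent.P287D Vale.Agent.P283M Vale.Agent.P283R.Cx Vale.Agent.P283R.Cy

namespace Dsc

variable {F E : Type} [Field F] [Algebra ℂ F] [Field E] [Algebra ℂ E] [Algebra F E]
  [IsScalarTower ℂ F E] {N : ℕ} {u v : Fin N → ℕ} {z : Fin N → F} {τ : E} {W : Pl E} {R : Pl F}

omit [IsScalarTower ℂ F E] [Algebra ℂ F] in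
theorem tau_ne (h : Wp u z τ v W) : τ ≠ 0 := fun e => by simpa [e] using h.pos

omit [IsScalarTower ℂ F E] [Algebra ℂ F] in
theorem tau_mem (h : Wp u z τ v W) : τ ∈ W.ring := Cb.mem_ord h.pos.le

omit [IsScalarTower ℂ F E] in
theorem z_eq (h : Wp u z τ v W) (j : Fin N) :
    algebraMap F E (z j) = xs z τ v j * τ ^ v j := by
  rw [xs, div_mul_cancel₀ _ (pow_ne_zero _ (tau_ne h))]

omit [IsScalarTower ℂ F E] in
theorem z_mem (h : Wp u z τ v W) (j : Fin N) : algebraMap F E (z j) ∈ W.ring := by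
  rw [z_eq h]
  exact mul_mem (h.mem j) (pow_mem (tau_mem h) _)

omit [IsScalarTower ℂ F E] in
theorem z_rd (h : Wp u z τ v W) {j : Fin N} (hj : 0 < v j) :
    W.rd (algebraMap F E (z j)) = 0 := by
  obtain ⟨n, e⟩ := Nat.exists_eq_succ_of_ne_zero hj.ne'
  rw [z_eq h, e, pow_succ, ← mul_assoc,
    Cb.rd_mul (mul_mem (h.mem j) (pow_mem (tau_mem h) _)) (tau_mem h),
    (Bm.rd_zero_iff W (tau_mem h)).2 (Or.inr h.pos), mul_zero]

omit [IsScalarTower ℂ F E] in
theorem rd_iff (l : Lies (algebraMap F E) W R) {f : F} (hf : f ∈ R.ring) :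
    R.rd f = 0 ↔ W.rd (algebraMap F E f) = 0 := by
  rw [Bm.rd_zero_iff R hf, Bm.rd_zero_iff W ((l f).1 hf), l.ord_pos_iff, map_eq_zero]

theorem map_ev (x : Fin N → F) (S : MvPolynomial (Fin N) ℂ) :
    algebraMap F E (aeval x S) = aeval (fun j => algebraMap F E (x j)) S :=
  (aeval_algebraMap_apply E x S).symm

/-- the place under `W` passes through the vertex -/
theorem th (h : Wp u z τ v W) (hv : ∀ j, 0 < v j ↔ u j = 0) (l : Lies (algebraMap F E) W R) :
    Th u z R := by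
  have zR : ∀ j, z j ∈ R.ring := fun j => (l _).2 (z_mem h j)
  refine ⟨zR, fun S hS => ?_⟩
  have km : ∀ j, algebraMap F E (kl u z j) ∈ kJ E u z := fun j =>
    IntermediateField.subset_adjoin _ _ ⟨j, rfl⟩
  have mS : aeval z S ∈ R.ring := Cb.adj_mem (S := range z) (by rintro _ ⟨i, rfl⟩; exact zR i)
    (by rw [Algebra.adjoin_range_eq_range_aeval]; exact ⟨S, rfl⟩)
  have xm : algebraMap F E (aeval (kl u z) S) ∈ kJ E u z := by
    rw [map_ev]
    refine IntermediateField.algebra_adjoin_le_adjoin ℂ _ ?_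
    rw [Algebra.adjoin_range_eq_range_aeval]
    exact ⟨S, rfl⟩
  have e : W.rd (algebraMap F E (aeval z S)) = W.rd (algebraMap F E (aeval (kl u z) S)) := by
    rw [map_ev, map_ev, Cb.rd_aeval (z_mem h), Cb.rd_aeval fun j => h.trv _ (km j)]
    congr 2
    funext j
    by_cases c : u j = 0
    · rw [z_rd h ((hv j).2 c), kl, if_pos c, map_zero,
        (Bm.rd_zero_iff W (zero_mem _)).2 (Or.inl rfl)]
    · rw [kl, if_neg c]
  have x0 : algebraMap F E (aeval (kl u z) S) ≠ 0 := (map_ne_zero _).2 hS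
  rw [Ne, rd_iff l mS, e]
  intro k
  have := Cb.rd_mul (h.trv _ xm) (h.trv _ (inv_mem xm))
  rw [mul_inv_cancel₀ x0, k, zero_mul, Bm.rd_one] at this
  exact one_ne_zero this

/-- the place under `W` -/
theorem lies {n m : ℕ} (hF : FF F n) (hE : FF E m) (h : Wp u z τ v W) {j : Fin N} (hj : 0 < v j)
    (z0 : z j ≠ 0) : ∃ R, Lies (algebraMap F E) W R := by
  refine (pb_lies n m F E _ hF hE (fun c => (IsScalarTower.algebraMap_apply ℂ F E c).symm)
    W).resolve_left fun k => ?_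
  have := Cb.rd_mul (k (z j)) (k (z j)⁻¹)
  rw [← map_mul, mul_inv_cancel₀ z0, map_one, z_rd h hj, zero_mul, Bm.rd_one] at this
  exact one_ne_zero this

end Dsc

theorem dsc_of (frm : FRM) (kpw : KPW) (jc : JAC) (can : CAN) (off : OFF) : DSC := by
  intro K F _ _ _ _ _ _ d k N q ε y t T D s a u l h₀ g e₀ b Q dz E _ _ _ _ τ ex c D' f v ν W hN lg
    D0 hv hν wp
  obtain ⟨e, he⟩ := frm N c (d + k) W.κ (fun j => W.rd (xs (zz t s a) τ v j))
    (Gm.ff_κ W ex.ff') hN wp.alg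
  obtain ⟨ind, kp⟩ := kpw (d + k) F E τ ex (fun i => zz t s a (e (.inr i)))
    (fun i => v (e (.inr i))) W wp.pos (fun i => wp.mem _) he
  obtain ⟨m0, cn⟩ := can K F d k N q ε y t T D s a u l h₀ g e₀ b Q dz c f e lg ind
  obtain ⟨ρ, ρ0, dv, jb⟩ := jc (d + k) F E τ ex N c D' (zz t s a) v f ν e W D0 wp.pos wp.mem he
    lg.van hν m0
  obtain ⟨j, hj⟩ := off K F d k N q ε y t T D s a u l h₀ g e₀ b Q dz
  have z0 : zz t s a j ≠ 0 := by
    refine mul_ne_zero ((map_ne_zero _).2 (dz.cox.ne j)) ?_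
    exact Finset.prod_ne_zero_iff.2 fun i _ => zpow_ne_zero _ (dz.ext.ind.ne_zero i)
  obtain ⟨R, lR⟩ := Dsc.lies ex.ff ex.ff' wp ((hv j).2 hj) z0
  refine ⟨R, ρ, lR, ρ0, dv, ?_⟩
  have k1 := kp R lR
  have k2 : (W.ord (algebraMap F E (mnr (zz t s a) f e)) : ℝ) =
      W.ord (algebraMap F E R.t) * R.ord (mnr (zz t s a) f e) := by exact_mod_cast lR.ord _
  have k3 : (W.ord τ : ℝ) * (∑ i, (ν i : ℝ) - ∑ i, (v (e (.inl i)) : ℝ) + D') - ρ ≤
      W.ord (algebraMap F E (mnr (zz t s a) f e)) := by exact_mod_cast jb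
  have k4 : ∑ j, (v j : ℝ) = ∑ i, (v (e (.inl i)) : ℝ) + ∑ i, (v (e (.inr i)) : ℝ) := by
    rw [← e.sum_comp, Fintype.sum_sum_type]
  rw [cn R (Dsc.th wp hv lR), k4, mul_sub, ← k2]
  linarith

end Vale.Agent.P283R.Hz
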