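import Vale.Agent.P283R.Hz.St
import Vale.Agent.P283R.Cy.Mkf

/-!
# P283R, block HZ, row TRV: for a small vector the places of the Rees ring are trivial on `K`
-/

open Set MvPolynomial
open Vale.Agent.P297Z

noncomputable section

namespace Vale.Agent.P283R.Hz

open Vale.Agent.P287D Vale.Agent.P283M Vale.Agent.P283R.Cx Vale.Agent.P283R.Cy

namespace Tv

variable {K F E : Type} [Field K] [Algebra ℂ K] [Field F] [Algebra ℂ F] [Algebra K F] [Field E]
  [Algebra ℂ E] [Algebra F E] {k N D : ℕ} {η : ℝ} {t : Fin k → F} {s : Fin N → K}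
  {a : Fin N → Fin k → ℤ} {u v : Fin N → ℕ} {τ : E}

theorem dvd (S : Sv η a u D v) {m m' : Fin N → ℕ} (h : dg a m = dg a m') :
    ∃ r : ℤ, ((∑ j, v j * m j : ℕ) : ℤ) = (∑ j, v j * m' j : ℕ) + D * r := by
  obtain ⟨r, hr⟩ := S.dvd (fun j => (m j : ℤ) - m' j) (funext fun i => by
    have := congrFun h i
    simp only [dg] at this
    simp [Finset.sum_apply, sub_mul, Finset.sum_sub_distrib, this])
  refine ⟨r, ?_⟩
  rw [← hr]
  push_cast
  rw [← Finset.sum_add_distrib]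
  exact Finset.sum_congr rfl fun j _ => by ring

omit [Algebra ℂ F] [Algebra ℂ E] in
theorem xs_mul (τ0 : τ ≠ 0) (z : Fin N → F) (j : Fin N) :
    algebraMap F E (z j) = xs z τ v j * τ ^ v j := (div_mul_cancel₀ _ (pow_ne_zero _ τ0)).symm

omit [Algebra ℂ K] [Algebra ℂ F] [Algebra ℂ E] in
theorem mon_eq (t0 : ∀ i, t i ≠ 0) (τ0 : τ ≠ 0) (m : Fin N → ℕ) :
    algebraMap F E (hm t (∏ j, s j ^ m j) (dg a m)) =
      (∏ j, xs (zz t s a) τ v j ^ m j) * τ ^ ∑ j, v j * m j := by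
  rw [hm_prod t0, map_prod, ← Finset.prod_pow_eq_pow_sum, ← Finset.prod_mul_distrib]
  refine Finset.prod_congr rfl fun j _ => ?_
  rw [map_pow, pow_mul, ← mul_pow, ← xs_mul τ0]
  rfl

variable [IsScalarTower ℂ K F] [IsScalarTower ℂ F E]

/-- the field `K` is contained in the field of `τ ^ D` and the generators -/
theorem mem {T : Set (Pl K)} {D' : Pl K → Fin k → ℤ} (x : Cox T D' s a) (t0 : ∀ i, t i ≠ 0)
    (τ0 : τ ≠ 0) (S : Sv η a u D v) (φ : K) : algebraMap F E (algebraMap K F φ) ∈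
      IntermediateField.adjoin ℂ (insert (τ ^ D) (range (xs (zz t s a) τ v))) := by
  set A := IntermediateField.adjoin ℂ (insert (τ ^ D) (range (xs (zz t s a) τ v)))
  have pr : ∀ m : Fin N → ℕ, ∏ j, xs (zz t s a) τ v j ^ m j ∈ A := fun m =>
    prod_mem fun j _ => pow_mem (IntermediateField.subset_adjoin _ _ (.inr ⟨j, rfl⟩)) _
  have sp : ∀ m₀, ∀ b ∈ Sp s a (dg a m₀),
      algebraMap F E (hm t b (dg a m₀)) / τ ^ ∑ j, v j * m₀ j ∈ A := fun m₀ b hb => by
    induction hb using Submodule.span_induction with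
    | mem b hb =>
      obtain ⟨m, hm, rfl⟩ := hb
      obtain ⟨r, hr⟩ := dvd S hm
      have : τ ^ ∑ j, v j * m j = τ ^ (∑ j, v j * m₀ j) * (τ ^ D) ^ r := by
        rw [← zpow_natCast, hr, zpow_add₀ τ0, zpow_mul, zpow_natCast, zpow_natCast]
      rw [← show dg a m = dg a m₀ from hm, mon_eq (v := v) t0 τ0, this, mul_left_comm,
        mul_div_cancel_left₀ _ (pow_ne_zero _ τ0)]
      exact mul_mem (pr m) (zpow_mem (IntermediateField.subset_adjoin _ _ (.inl rfl)) _)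
    | zero => rw [hm_zero, map_zero, zero_div]; exact zero_mem _
    | add b c _ _ hb hc => rw [hm_add, map_add, add_div]; exact add_mem hb hc
    | smul r b _ hb =>
      rw [hm_smul, Algebra.smul_def, map_mul, ← IsScalarTower.algebraMap_apply, mul_div_assoc]
      exact mul_mem (A.algebraMap_mem r) hb
  obtain ⟨e, b, hb, c, hc, c0, rfl⟩ := x.fr0 φ
  obtain ⟨m₀, rfl⟩ : ∃ m₀, dg a m₀ = e := by
    by_contra ne
    have : {c | dg a c = e} = ∅ := eq_empty_of_forall_notMem fun c hc => ne ⟨c, hc⟩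
    rw [Sp, this, image_empty, Submodule.span_empty] at hc
    exact c0 hc
  have := div_mem (sp m₀ b hb) (sp m₀ c hc)
  rwa [div_div_div_cancel_right₀ (pow_ne_zero _ τ0), ← map_div₀, hm, hm,
    mul_div_mul_right _ _ (To.mon_ne t0 _), ← map_div₀] at this

end Tv

open Tv in
/-- **TRV** -/
theorem trv_of (dsc : DSC) : TRV := by
  intro K F _ _ _ _ _ _ d k N q ε y t T D' s a u l h₀ g e₀ b Q X E _ _ _ _ τ x c D f β v W hN P hβ
    S lt' w
  have t0 := X.ext.ind.ne_zero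
  have τ0 : τ ≠ 0 := x.ind.ne_zero 0
  have h0 := X.can.1
  obtain ⟨R, ρ, L, ρ0, dv, le⟩ := dsc K F d k N q ε y t T D' s a u l h₀ g e₀ b Q X E τ x c D f v
    (fun i => ∑ j, v j * β i j) W hN P.lg S.D0 S.pos (fun i m hm => by
      obtain ⟨r, hr⟩ := dvd S (P.hom i m hm _ (hβ i))
      have h1 := lt' i
      have r0 : 0 ≤ r := by
        by_contra n
        have : (D : ℤ) * r ≤ D * (-1) := mul_le_mul_of_nonneg_left (by omega) (Nat.cast_nonneg _)
        omega
      lift r to ℕ using r0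
      exact ⟨r, by exact_mod_cast hr⟩) w
  have w0 : (0 : ℝ) < W.ord τ := by exact_mod_cast w.pos
  have e0 : (0 : ℝ) < W.ord (algebraMap F E R.t) := by exact_mod_cast L.e_pos
  have ρ1 : (ρ : ℝ) ≤ D * W.ord τ := by
    have := dv _ (IntermediateField.subset_adjoin _ _ (.inl rfl)) (pow_ne_zero _ τ0)
    rw [Pl.ord_pow] at this
    exact_mod_cast Int.le_of_dvd (mul_pos (Nat.cast_pos.2 S.D0) w.pos) this
  have n0 : (0 : ℝ) ≤ ∑ i, ∑ j, (v j : ℝ) * β i j := by positivity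
  push_cast at le
  obtain ⟨tr, p⟩ | ⟨Q', l', p⟩ := dwn K F d k y t X.ext X.fr R
  · have o : ∀ (φ : K) e, φ ≠ 0 → (W.ord (algebraMap F E (hm t φ e)) : ℝ) = W.ord τ *
        pa e fun i => W.ord (algebraMap F E R.t) * (R.ord (t i) : ℝ) / W.ord τ := fun φ e φ0 => by
      rw [L.ord, Int.cast_mul, Mp.ord_hor t0 tr φ0, pa, pa, Finset.mul_sum, Finset.mul_sum]
      exact Finset.sum_congr rfl fun i _ => by field_simp
    refine ⟨_, o, le_of_mul_le_mul_left ?_ w0⟩
    have := o h₀ e₀ h0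
    rw [L.ord, Int.cast_mul] at this
    nlinarith [mul_nonneg e0.le p]
  · exfalso
    have gn : ∀ z ∈ Rg s a t, z ∈ R.ring := Tz.rg_le fun j => by
      have : algebraMap F E (zz t s a j) ∈ W.ring := by
        rw [xs_mul (v := v) τ0]
        exact mul_mem (w.mem j) (pow_mem ((Pl.ord_nonneg_iff _ τ0).1 w.pos.le) _)
      exact Pl.ord_nonneg_of_mem _ ((L _).2 this)
    have b1 := Md.hw_ver t0 X.cox.ne (mul_ne_zero (pow_ne_zero _ h0) X.g0) X.hw l'
      (fun j => Pl.ord_nonneg_of_mem _ (gn _ (gen_mem s a t j))) p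
    have q0 : (0 : ℝ) < q := Nat.cast_pos.2 X.q0
    have b2 : (0 : ℝ) ≤ (R.ord (hm t g b) : ℝ) / q := div_nonneg (by
      exact_mod_cast Pl.ord_nonneg_of_mem _ (gn _ (mem_Rg t0 X.gs))) q0.le
    rw [hm_mul t0, hm_pow t0, Pl.ord_mul _ (pow_ne_zero _ (hm_ne t0 h0 _)) (hm_ne t0 X.g0 _),
      Pl.ord_pow] at b1
    push_cast at b1
    rw [add_div, mul_div_cancel_left₀ _ q0.ne'] at b1
    have ρ2 : (ρ : ℝ) ≤ W.ord (algebraMap F E R.t) * R.ord (algebraMap K F Q'.t) := by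
      have := dv _ (mem X.cox t0 τ0 S Q'.t) ((map_ne_zero _).2 ((map_ne_zero _).2 Q'.t_ne))
      rw [L.ord] at this
      exact_mod_cast Int.le_of_dvd (mul_pos L.e_pos l'.e_pos) this
    have ρ3 : (0 : ℝ) < ρ := by exact_mod_cast ρ0
    have k1 := mul_le_mul_of_nonneg_left b1 e0.le
    have k2 := mul_le_mul_of_nonneg_left ρ2 X.ε0.le
    have k3 := mul_lt_mul_of_pos_left S.lt w0
    have k4 := mul_le_mul_of_nonneg_right (min_le_left ε 1) ρ3.le
    have k5 := mul_nonneg (sub_nonneg.2 (min_le_right ε 1)) (sub_nonneg.2 ρ1)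
    nlinarith [mul_nonneg e0.le b2, mul_nonneg w0.le n0]

end Vale.Agent.P283R.Hz
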