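import Vale.Agent.P283R.Hz.Gk
import Vale.Agent.P283R.Cy.Lpd
import Vale.Agent.P283R.Cx.Lci
import Vale.Agent.P283R.Cx.Ext

/-!
# P283R, block HZ: the assembly
-/

open Finset MvPolynomial

noncomputable section

namespace Vale.Agent.P283R.Hz

open Vale.Agent.P287D Vale.Agent.P283M Vale.Agent.P283R.Cx Vale.Agent.P283R.Cy
open Vale.Agent.P283R.To (mon mon_ne ord_mon)

theorem ord_pw {K : Type} [Field K] [Algebra ℂ K] {N : ℕ} {s : Fin N → K} (hs : ∀ j, s j ≠ 0)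
    (Q : Pl K) (m : Fin N → ℕ) : Q.ord (∏ j, s j ^ m j) = ∑ j, m j * Q.ord (s j) := by
  rw [← mon_nat, ord_mon Q hs]

theorem od_sum {N c : ℕ} {u : Fin N → ℕ} (β : Fin c → Fin N →₀ ℕ) {j : Fin N} (hj : u j = 0) :
    ∑ i, β i j ≤ ∑ i, od u (β i) := sum_le_sum fun i _ => le_od (β i) hj

theorem hze_of (cmb : CMB) (elm : ELM) (deg : DEG) (bnd : BND) (hmr : HMR) : HZE := by
  intro d k q ε hq hε
  have n0 : (0 : ℝ) < 2 * (d + k) + 1 := by positivity
  obtain ⟨M, M0, H⟩ := cmb (2 * (d + k)) (q + q * (2 * (d + k)))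
    (min (min ε 1) (1 / (2 * (d + k) + 1))) (lt_min (lt_min hε one_pos) (by positivity))
  refine ⟨M, M0, fun c K _ _ y T D s a f h₀ g e₀ b can X Q hQ => ?_⟩
  obtain ⟨F, _, _, _, _, t, x⟩ := Cx.ext K d k X.ff
  obtain ⟨u, l, gt⟩ := exists_gt a
  have Z : Dz q ε y t T D s a u l h₀ g e₀ b Q :=
    ⟨hq, hε, x, X.fr, X.cox, can, X.g0, X.gs, X.hw, X.lw, gt, hQ⟩
  have ke := (Lc.ker_eq x.ind.ne_zero (grd K F d k y t x X.fr).1 s a).trans X.ci
  have lg : Lg (zz t s a) u f :=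
    ⟨fun i => (RingHom.mem_ker (f := aeval (zz t s a))).1 (ke.ge (Ideal.subset_span ⟨i, rfl⟩)),
      fun P hP => ⟨1, by simp, by rw [one_mul]; exact ke.le hP⟩⟩
  obtain ⟨T', s', a', u', f', Z', pv, back⟩ :=
    elm K F d k _ q ε y t T D s a u l h₀ g e₀ b Q Z c f lg
  have hN : d + k + c = c + (d + k) := add_comm _ _
  obtain ⟨b1, β, γ, b2, b3, b4⟩ := bnd K F d k _ q ε y t T' D s' a' u' l h₀ g e₀ b Q Z' c f' hN pv
  obtain ⟨κ, k1, k2⟩ := deg K F d k _ q ε y t T' D s' a' u' l h₀ g e₀ b Q Z' c f' β hN pv b2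
  have b5 : ∑ i, od u' (β i) ≤ 2 * (d + k) :=
    (Nat.le_of_mul_le_mul_left ((Nat.le_add_right _ _).trans b4) hq).trans b1
  obtain ⟨r, m, r0, m1, m2⟩ := hw_mon hε hq Z'.hw Z'.lw Q
  obtain ⟨m', e1, e2⟩ := H _ k a' u' l (fun j => Q.ord (s' j)) _ (fun j => q * κ j - γ j) _ r m
    Z'.gt b1 (fun j hj => by
      have h1 := od_sum β hj
      have h2 := le_od γ hj
      have h3 : q * ∑ i, β i j + γ j ≤ q * (2 * (d + k)) :=
        (add_le_add (Nat.mul_le_mul_left q h1) h2).trans (b4.trans (Nat.mul_le_mul_left q b1))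
      have h4 : ((q * ∑ i, β i j + γ j : ℕ) : ℤ) ≤ (q * (2 * (d + k)) : ℕ) := by exact_mod_cast h3
      have h5 : (0 : ℤ) ≤ (q * ∑ i, β i j + γ j : ℕ) := Int.natCast_nonneg _
      have h6 : (0 : ℤ) ≤ (q * (2 * (d + k)) : ℕ) := Int.natCast_nonneg _
      have h7 : (0 : ℤ) ≤ q := Int.natCast_nonneg _
      rw [k1 j hj, abs_le]
      push_cast at h4 h5 h6 ⊢
      constructor <;> linarith)
    (by
      have e : ∑ j, (γ j : ℤ) • a' j = b := by
        rw [← b3]; funext i; simp [dg]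
      simp only [sub_smul, mul_smul, sum_sub_distrib, ← smul_sum, k2, e, smul_neg]
      abel)
    (fun m hm => by
      rw [← ord_pw Z'.cox.ne]
      exact Z'.hq _ (hm ▸ mon_mem s' a' m) (prod_ne_zero_iff.2 fun j _ => pow_ne_zero _ (Z'.cox.ne j)))
    (fun ξ h => (Z'.lw ξ h).1) r0 m1 m2
    (hmr K F d k _ q ε y t T' D s' a' u' l h₀ g e₀ b Q Z' c f' β γ _ _ hN pv b2 b3
      (fun j hj => by rw [k1 j hj]) (min_le_left _ _) fun i => by
        have h1 : (od u' (β i) : ℝ) ≤ 2 * (d + k) + 1 := by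
          have := (single_le_sum (f := fun i => od u' (β i)) (fun _ _ => Nat.zero_le _)
            (mem_univ i)).trans b5
          exact_mod_cast this.trans (Nat.le_succ _)
        refine (mul_le_mul (min_le_right _ _) h1 (Nat.cast_nonneg _) (by positivity)).trans_eq ?_
        field_simp)
  obtain ⟨m₀, f1, f2⟩ := back m'
  refine ⟨m₀, f1.trans e1, ?_⟩
  rw [Hl.ld_iff hq M0 X.h0 (prod_ne_zero_iff.2 fun j _ => pow_ne_zero _ (X.cox.ne j)), f2,
    ord_pw Z'.cox.ne]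
  rwa [sub_zero] at e2

end Vale.Agent.P283R.Hz
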