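import Vale.Agent.P283R.Hz.St
import Vale.Agent.P283R.Cy.Mkf
import Vale.Agent.P283R.Cx.Aff

/-!
# P283R, block HZ, row BND: the bounds
-/

open Set MvPolynomial
open Vale.Agent.P297Z

noncomputable section

namespace Vale.Agent.P283R.Hz

open Vale.Agent.P287D Vale.Agent.P283M Vale.Agent.P283R.Cx Vale.Agent.P283R.Cy

namespace Bn

variable {K F E : Type} [Field K] [Algebra ℂ K] [Field F] [Algebra ℂ F] [Algebra K F]
  [IsScalarTower ℂ K F] [Field E] [Algebra ℂ E] [Algebra F E] [IsScalarTower ℂ F E] {d k N q : ℕ}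
  {ε : ℝ} {y : Fin d → K} {t : Fin k → F} {T : Set (Pl K)} {D : Pl K → Fin k → ℤ} {s : Fin N → K}
  {a : Fin N → Fin k → ℤ} {u : Fin N → ℕ} {l : Fin k → ℤ} {h₀ g : K} {e₀ b : Fin k → ℤ} {Q : Pl K}

/-- the pair upstairs is lc -/
theorem lc (X : Dz q ε y t T D s a u l h₀ g e₀ b Q) (V : Pl F) (hV : ∀ j, zz t s a j ∈ V.ring) :
    (V.ord (hm t g b) : ℝ) ≤ q * (lt y t V - V.ord (hm t h₀ e₀)) := by
  have t0 := X.ext.ind.ne_zero
  have q0 : (0 : ℝ) < q := Nat.cast_pos.2 X.q0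
  have gn := fun j => Pl.ord_nonneg_of_mem _ (hV j)
  have h0 : h₀ ^ q * g ≠ 0 := mul_ne_zero (pow_ne_zero _ X.can.1) X.g0
  have k : 0 ≤ lt y t V - (V.ord (hm t (h₀ ^ q * g) ((q : ℤ) • e₀ + b)) : ℝ) / q := by
    obtain ⟨tr, w⟩ | ⟨P, p, w⟩ := dwn K F d k y t X.ext X.fr V
    · obtain ⟨k1, -⟩ := X.lw (fun i => (V.ord (t i) : ℝ)) fun j => by
        rw [← Mp.ord_hor t0 tr (X.cox.ne j)]
        exact_mod_cast gn j
      rw [Mp.ord_hor t0 tr h0]
      linarith [div_nonpos_of_nonpos_of_nonneg k1 q0.le]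
    · have p0 : (0 : ℝ) < V.ord (algebraMap K F P.t) := by exact_mod_cast p.e_pos
      exact (mul_pos X.ε0 p0).le.trans (Md.hw_ver t0 X.cox.ne h0 X.hw p gn w)
  rw [hm_mul t0, hm_pow t0, Pl.ord_mul _ (pow_ne_zero _ (hm_ne t0 X.can.1 _)) (hm_ne t0 X.g0 _),
    Pl.ord_pow, sub_nonneg, div_le_iff₀ q0] at k
  push_cast at k
  linarith

omit [Algebra ℂ F] [Algebra ℂ E] [IsScalarTower ℂ F E] in
/-- the monomials in terms of the generators of the Rees ring -/
theorem mon_eq (z : Fin N → F) {τ : E} (τ0 : τ ≠ 0) (v m : Fin N → ℕ) :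
    algebraMap F E (∏ j, z j ^ m j) = (∏ j, xs z τ v j ^ m j) * τ ^ ∑ j, v j * m j := by
  rw [map_prod, ← Finset.prod_pow_eq_pow_sum, ← Finset.prod_mul_distrib]
  refine Finset.prod_congr rfl fun j _ => ?_
  rw [pow_mul, ← mul_pow, xs, div_mul_cancel₀ _ (pow_ne_zero _ τ0), map_pow]

/-- the order of a section is at least the least weight of a monomial -/
theorem sec_mem (t0 : ∀ i, t i ≠ 0) {τ : E} (τ0 : τ ≠ 0) {v : Fin N → ℕ} {W : Pl E}
    (hx : ∀ j, xs (zz t s a) τ v j ∈ W.ring) (hτ : τ ∈ W.ring) {n : ℕ}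
    (hn : ∀ m, dg a m = b → n ≤ ∑ j, v j * m j) {φ : K} (h : φ ∈ Sp s a b) :
    algebraMap F E (hm t φ b) / τ ^ n ∈ W.ring := by
  induction h using Submodule.span_induction with
  | mem x hx' =>
    obtain ⟨m, e, rfl⟩ := hx'
    obtain ⟨r, hr⟩ := Nat.exists_eq_add_of_le (hn m e)
    have := mon_eq (zz t s a) τ0 v m
    rw [← show dg a m = b from e, hm_prod t0]
    simp only [zz] at this hx
    rw [this, hr, pow_add, mul_left_comm, mul_div_cancel_left₀ _ (pow_ne_zero _ τ0)]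
    exact mul_mem (prod_mem fun j _ => pow_mem (hx j) _) (pow_mem hτ _)
  | zero => simp [hm_zero]
  | add x y _ _ hx hy => rw [hm_add, map_add, add_div]; exact add_mem hx hy
  | smul c x _ hx =>
    rw [hm_smul, Algebra.smul_def, map_mul, ← IsScalarTower.algebraMap_apply, mul_div_assoc]
    exact mul_mem (W.con c) hx

/-- invariant monomials involve only the units -/
theorem inv_zero (G : Gt a u l) {m : Fin N → ℕ} (h : dg a m = 0) {j : Fin N} (hj : u j = 0) :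
    m j = 0 := by
  have e : ∑ j, (m j : ℤ) * (a j ⬝ᵥ l) = 0 := by
    have : dg a m ⬝ᵥ l = 0 := by rw [h, zero_dotProduct]
    rw [← this]
    simp only [dotProduct, dg, Finset.sum_mul, Finset.mul_sum, mul_assoc]
    exact Finset.sum_comm
  have := (Finset.sum_eq_zero_iff_of_nonneg fun j _ =>
    mul_nonneg (Int.natCast_nonneg _) (G.pos j)).1 e j (Finset.mem_univ j)
  refine Int.natCast_eq_zero.1 ((mul_eq_zero.1 this).resolve_right fun c => ?_)
  have := (G.iff j).2 c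
  omega

theorem od_eq (u m : Fin N → ℕ) : ∑ j, (if u j = 0 then 1 else 0) * m j = od u m :=
  Finset.sum_congr rfl fun j _ => by split_ifs <;> simp

end Bn

open Bn in
/-- **BND** -/
theorem bnd_of (frm : FRM) (can : CAN) (cnt : CNT) (dsc : DSC) (itg : ITG) (cmp : CMP) : BND := by
  intro K F _ _ _ _ _ _ d k N q ε y t T D s a u l h₀ g e₀ b Q X c f hN P
  classical
  have t0 := X.ext.ind.ne_zero
  obtain ⟨E, _, _, _, _, τ', x⟩ := Cx.ext F (d + k) 1 X.ext.ff'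
  obtain ⟨τ, rfl⟩ : ∃ τ, τ' = fun _ => τ := ⟨τ' 0, funext fun i => congrArg τ' (Fin.eq_zero i)⟩
  have τ0 : τ ≠ 0 := x.ind.ne_zero 0
  let v : Fin N → ℕ := fun j => if u j = 0 then 1 else 0
  have v0 : ∀ j, 0 < u j → v j = 0 := fun j h => if_neg h.ne'
  obtain ⟨W, w⟩ : ∃ W, Wp u (zz t s a) τ v W := by
    by_contra n
    obtain ⟨r, m, r0, m0, h, -⟩ := cmp K F d k N q ε y t T D s a u l h₀ g e₀ b Q X E τ x v 1 0 1
      one_ne_zero v0 (itg K F d k N q ε y t T D s a u l h₀ g e₀ b Q X E τ x v _ 1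
        (hm_one (K := K) t ▸ one_mem _) v0 fun W h => (n ⟨W, h⟩).elim)
    rw [Finset.sum_eq_zero fun j _ => ?_] at h
    · omega
    · by_cases c : u j = 0
      · rw [inv_zero X.gt (m0.trans (smul_zero _)) c, Nat.cast_zero, mul_zero]
      · rw [v0 j (Nat.pos_of_ne_zero c), Nat.cast_zero, zero_mul]
  obtain ⟨e, he⟩ := frm N c (d + k) F (zz t s a) X.ext.ff' hN ⟨fun z => by
    obtain ⟨p, p', rfl⟩ := (aff K F d k y t X.ext X.fr N T D s a X.cox).fr z
    have m := fun p : Rg s a t => IntermediateField.algebra_adjoin_le_adjoin ℂ _ p.2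
    exact isAlgebraic_algebraMap (⟨_, div_mem (m p) (m p')⟩ :
      IntermediateField.adjoin ℂ (range (zz t s a)))⟩
  obtain ⟨f0, hc⟩ := cnt N c (d + k) F _ u f e
    (can K F d k N q ε y t T D s a u l h₀ g e₀ b Q X c f e P.lg he).1
  choose β β1 β2 using fun i => (f i).support.exists_min_image (fun m => od u m)
    (support_nonempty.2 (f0 i))
  obtain ⟨R, ρ, p, ρ0, ρ1, ρ2⟩ := dsc K F d k N q ε y t T D s a u l h₀ g e₀ b Q X E τ x c 1 f v
    (fun i => od u (β i)) W hN P.lg one_pos (fun j => by by_cases c : u j = 0 <;> simp [v, c])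
    (fun i m hm => by
      rw [od_eq]
      simpa using Nat.exists_eq_add_of_le (β2 i m hm)) w
  have hτ : τ ∈ W.ring := Cb.mem_ord w.pos.le
  have ρ3 : (ρ : ℝ) ≤ W.ord τ := by
    exact_mod_cast Int.le_of_dvd w.pos (ρ1 τ (IntermediateField.subset_adjoin _ _
      (by rw [pow_one]; exact mem_insert _ _)) τ0)
  have ex : ∃ n, ∃ m, dg a m = b ∧ od u m = n := by
    by_contra n
    have : Sp s a b = ⊥ := Submodule.span_eq_bot.2 (by
      rintro _ ⟨m, hm, -⟩
      exact (n ⟨_, m, hm, rfl⟩).elim)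
    exact X.g0 ((Submodule.mem_bot ℂ).1 (this ▸ X.gs))
  obtain ⟨γ, γ1, γ2⟩ := Nat.find_spec ex
  have g0 := hm_ne t0 X.g0 b
  have b1 := Pl.ord_nonneg_of_mem _ (sec_mem t0 τ0 w.mem hτ (fun m hm => by
    rw [od_eq]
    exact Nat.find_min' ex ⟨m, hm, rfl⟩) X.gs)
  rw [Pl.ord_div _ ((map_ne_zero _).2 g0) (pow_ne_zero _ τ0), Pl.ord_pow, p.ord, ← γ2] at b1
  have b2 := mul_le_mul_of_nonneg_left (lc X R fun j => (p _).2 (by
    rw [← div_mul_cancel₀ (algebraMap F E _) (pow_ne_zero (v j) τ0)]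
    exact mul_mem (w.mem j) (pow_mem hτ _))) (Int.cast_nonneg (R := ℝ) p.e_pos.le)
  have b3 : ∑ j, (v j : ℝ) = od u 1 := by
    rw [← od_eq]
    simp [v]
  have b4 : q * ∑ i, od u (β i) + od u γ ≤ q * od u 1 := by
    have w0 : (0 : ℝ) < W.ord τ := by exact_mod_cast w.pos
    have b1' : (od u γ : ℝ) * W.ord τ ≤ W.ord (algebraMap F E R.t) * R.ord (hm t g b) := by
      exact_mod_cast sub_nonneg.1 b1
    have q0 : (0 : ℝ) ≤ q := Nat.cast_nonneg _
    have b5 := mul_le_mul_of_nonneg_left ρ2 q0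
    have b6 := mul_le_mul_of_nonneg_left ρ3 q0
    rw [b3] at b5
    rw [← Nat.cast_le (α := ℝ)]
    refine le_of_mul_le_mul_left ?_ w0
    push_cast at b5 ⊢
    linarith
  refine ⟨?_, β, γ, β1, γ1, b4⟩
  let A : Finset (Fin c) := Finset.univ.filter fun i => ∀ m ∈ (f i).support, od u m = 0
  have c1 := hc A fun i hi => (Finset.mem_filter.1 hi).2
  have c2 : ∑ i, od u (β i) ≤ od u 1 :=
    Nat.le_of_mul_le_mul_left (le_of_add_le_left b4) X.q0
  have c3 : Aᶜ.card • 2 ≤ ∑ i, od u (β i) :=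
    (Finset.card_nsmul_le_sum _ _ _ fun i hi => ((P.min i).resolve_left fun h =>
      Finset.mem_compl.1 hi (Finset.mem_filter.2 ⟨Finset.mem_univ _, h⟩)) _ (β1 i)).trans
      (Finset.sum_le_univ_sum_of_nonneg fun _ => Nat.zero_le _)
  have c4 := A.card_add_card_compl
  rw [Fintype.card_fin] at c4
  rw [smul_eq_mul] at c3
  omega

end Vale.Agent.P283R.Hz
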