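import Vale.Agent.P283R.Hz.St
import Vale.Agent.P283R.Cx.Lar
import Vale.Agent.P283R.Cx.Bas
import Vale.Agent.P283R.Tp.Kap
import Vale.Agent.P283R.Et.Pl

/-!
# P283R, block HZ: adjunction; the fibre has positive dimension
-/

set_option linter.all false

open Set MvPolynomial

noncomputable section

namespace Vale.Agent.P283R.Hz

open Vale.Agent.P287D Vale.Agent.P297Z Vale.Agent.P283R.Cx

section

variable {F : Type} [Field F] [Algebra ℂ F] {N : ℕ} {z : Fin N → F} {u : Fin N → ℕ} {R : Pl F}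

theorem Cn.ring (h : ∀ j, z j ∈ R.ring) (S : MvPolynomial (Fin N) ℂ) : aeval z S ∈ R.ring := by
  have : aeval z S ∈ Algebra.adjoin ℂ (range z) := by
    rw [Algebra.adjoin_range_eq_range_aeval]
    exact ⟨S, rfl⟩
  exact (Algebra.adjoin_le (S := { R.ring.toSubring with algebraMap_mem' := R.con })
    (range_subset_iff.2 h)) this

theorem Th.unit (h : Th u z R) {S : MvPolynomial (Fin N) ℂ} (hS : aeval (kl u z) S ≠ 0) :
    aeval z S ≠ 0 ∧ R.ord (aeval z S) = 0 :=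
  Et.ord_of_rd (Cn.ring h.1 S) (h.2 S hS)

end

theorem can_of (hU : UNT) : CAN := by
  intro K F _ _ _ _ _ _ d k N q ε y t T D s a u l h₀ g e₀ b Q H c f e hf ind
  obtain ⟨D', hD'⟩ := Cb.fr_of H.ext.ff' ind
  obtain ⟨m0, A, B, hA, hB, E⟩ := hU K F d k N q ε y t T D s a u l h₀ g e₀ b Q H c f e D' hf hD'
  refine ⟨m0, fun R hR => ?_⟩
  obtain ⟨D'', hD''⟩ := zt_frm H.ext H.fr
  obtain ⟨J0, kJ, -⟩ := kap' _ F _ _ D' D'' hD' hD''
  obtain ⟨a0, a1⟩ := hR.unit hA
  obtain ⟨b0, b1⟩ := hR.unit hB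
  have ht := H.ext.ind.ne_zero
  have t0 : ∏ i, t i ≠ 0 := Finset.prod_ne_zero_iff.2 fun i _ => ht i
  have h0 := hm_ne ht H.can.1 e₀
  have o := congrArg R.ord E
  rw [Pl.ord_mul _ (mul_ne_zero J0 m0) b0, Pl.ord_mul _ J0 m0, Pl.ord_mul _ (mul_ne_zero t0 h0) a0,
    Pl.ord_mul _ t0 h0, a1, b1, To.ord_prod R ht] at o
  have o' := congrArg (Int.cast : ℤ → ℝ) o
  push_cast at o'
  rw [lt, kJ R]
  linarith

theorem off : OFF := by
  intro K F _ _ _ _ _ _ d k N q ε y t T D s a u l h₀ g e₀ b Q H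
  by_contra z
  simp only [not_exists] at z
  obtain ⟨e, b', hb, c', hc, c0, E⟩ := H.cox.fr0 Q.t
  obtain ⟨m, hm⟩ : ∃ m, dg a m = e := by
    by_contra n
    simp only [not_exists] at n
    rw [Sp, show {c | dg a c = e} = ∅ from eq_empty_of_forall_notMem n, image_empty,
      Submodule.span_empty, Submodule.mem_bot] at hc
    exact c0 hc
  let M := ∑ j, m j
  have le : ∀ j, m j ≤ M * u j := fun j =>
    (Finset.single_le_sum (f := m) (fun _ _ => Nat.zero_le _) (Finset.mem_univ j)).trans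
      (Nat.le_mul_of_pos_right _ (Nat.pos_of_ne_zero (z j)))
  have dz : e + dg a (fun j => M * u j - m j) = 0 := by
    funext i
    have := congrFun H.gt.inv i
    simp only [dg, Pi.zero_apply] at this
    simp only [← hm, dg, Pi.add_apply, Pi.zero_apply, ← Finset.sum_add_distrib, Nat.cast_sub (le _),
      Nat.cast_mul]
    rw [← mul_zero (M : ℤ), ← this, Finset.mul_sum]
    exact Finset.sum_congr rfl fun j _ => by ring
  have x0 : ∏ j, s j ^ (M * u j - m j) ≠ 0 :=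
    Finset.prod_ne_zero_iff.2 fun j _ => pow_ne_zero _ (H.cox.ne j)
  have b0 : b' ≠ 0 := fun n => Q.t_ne (by rw [E, n, zero_div])
  have k1 := H.hq _ (dz ▸ sp_mul hb (mon_mem s a _)) (mul_ne_zero b0 x0)
  have k2 := H.hq _ (dz ▸ sp_mul hc (mon_mem s a _)) (mul_ne_zero c0 x0)
  have k3 := Q.ord_t
  rw [Pl.ord_mul _ b0 x0] at k1
  rw [Pl.ord_mul _ c0 x0] at k2
  rw [E, Pl.ord_div _ b0 c0] at k3
  omega

end Vale.Agent.P283R.Hz
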