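import Vale.Agent.P283R.Lp.B
import Vale.Agent.P283R.To.Lin

/-!
# P283R, block HZ: the lattice dichotomy for pointed lattices

For a pointed sublattice `M` of `ℤ^ι` and a bounded vector `κ`, either a small positive vector of
the dual lattice pairs negatively with `κ`, or finitely many small positive dual vectors carry the
dual linear program of the polyhedron `{c ≥ 0, c - m κ ∈ M}`, with `m` independent of `M`.
-/

namespace Vale.Agent.P283R.Hz.Lat

open Filter Finset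
open Vale.Agent.P283.H647 (limLat)

variable {ι : Type} [Fintype ι]

/-- `ζ` is a small positive rational vector of the lattice dual to `M` -/
def Sm (η : ℝ) (M : AddSubgroup (ι → ℤ)) (ζ : ι → ℝ) : Prop :=
  (∀ j, 0 < ζ j) ∧ (∀ u ∈ M, ∃ k : ℤ, ∑ j, ζ j * u j = k) ∧ ∑ j, ζ j < η ∧
    ∃ (r : ℕ) (a : ι → ℕ), 0 < r ∧ ∀ j, ζ j = a j / r

theorem Sm.sum {η : ℝ} {M : AddSubgroup (ι → ℤ)} {T : Type} [Fintype T] [Nonempty T]
    {Z : T → ι → ℝ} (h : ∀ t, Sm (η / Fintype.card T) M (Z t)) :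
    Sm η M fun j => ∑ t, Z t j := by
  classical
  have hc : (0 : ℝ) < Fintype.card T := by exact_mod_cast Fintype.card_pos
  refine ⟨fun j => sum_pos (fun t _ => (h t).1 j) univ_nonempty, fun u hu => ?_, ?_, ?_⟩
  · choose k hk using fun t => (h t).2.1 u hu
    refine ⟨∑ t, k t, ?_⟩
    simp only [sum_mul]
    rw [sum_comm]
    push_cast
    exact sum_congr rfl fun t _ => hk t
  · rw [sum_comm]
    calc ∑ t, ∑ j, Z t j < ∑ _t : T, η / Fintype.card T :=
          sum_lt_sum_of_nonempty univ_nonempty fun t _ => (h t).2.2.1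
      _ = η := by
          rw [sum_const, card_univ, nsmul_eq_mul]
          field_simp
  · choose r a hr ha using fun t => (h t).2.2.2
    refine ⟨∏ t, r t, fun j => ∑ t, a t j * ∏ s ∈ univ.erase t, r s,
      prod_pos fun t _ => hr t, fun j => ?_⟩
    push_cast
    rw [sum_div]
    refine sum_congr rfl fun t _ => ?_
    have h1 : (0 : ℝ) < r t := by exact_mod_cast hr t
    have h2 : (0 : ℝ) < ∏ s ∈ univ.erase t, (r s : ℝ) :=
      prod_pos fun s _ => by exact_mod_cast hr s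
    rw [ha t j, ← mul_prod_erase univ (fun s => (r s : ℝ)) (mem_univ t)]
    field_simp

theorem Sm.mono {η η' : ℝ} {M : AddSubgroup (ι → ℤ)} {ζ : ι → ℝ} (h : Sm η M ζ) (e : η ≤ η') :
    Sm η' M ζ := ⟨h.1, h.2.1, h.2.2.1.trans_le e, h.2.2.2⟩

/-- approximation of a small positive vector of the annihilator of the limit lattice -/
theorem appr (U : Ultrafilter ℕ) (M : ℕ → AddSubgroup (ι → ℤ)) (z : ι → ℝ)
    (hz : ∀ u ∈ limLat U M, ∑ j, z j * u j = 0) (hp : ∀ j, 0 < z j) {η ε : ℝ}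
    (hs : ∑ j, z j < η) (hε : 0 < ε) :
    ∀ᶠ i in U, ∃ y : ι → ℝ, Sm η (M i) y ∧ (∀ u ∈ limLat U M, ∑ j, y j * u j = 0) ∧
      ∀ j, |y j - z j| < ε := by
  classical
  obtain ⟨θ, hθ, h1, h2, h3⟩ : ∃ θ : ℝ, 0 < θ ∧ θ ≤ ε ∧ (∀ j, θ ≤ z j) ∧
      ∑ j, z j + Fintype.card ι * θ ≤ η := by
    have e1 : ∀ᶠ θ in nhdsWithin (0 : ℝ) (Set.Ioi 0), ∀ j, θ ≤ z j :=
      eventually_all.2 fun j => nhdsWithin_le_nhds (eventually_le_nhds (hp j))
    have e2 : ∀ᶠ θ in nhdsWithin (0 : ℝ) (Set.Ioi 0), θ ≤ ε :=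
      nhdsWithin_le_nhds (eventually_le_nhds hε)
    have e3 : ∀ᶠ θ in nhdsWithin (0 : ℝ) (Set.Ioi 0),
        θ ≤ (η - ∑ j, z j) / (Fintype.card ι + 1) :=
      nhdsWithin_le_nhds (eventually_le_nhds (div_pos (by linarith) (by positivity)))
    obtain ⟨θ, ⟨⟨a1, a2⟩, a3⟩, a4⟩ := (((e1.and e2).and e3).and self_mem_nhdsWithin).exists
    refine ⟨θ, a4, a2, a1, ?_⟩
    have a5 : (0 : ℝ) < θ := a4
    have a6 := (le_div_iff₀ (by positivity)).1 a3
    nlinarith
  filter_upwards [Lp.densq U M z hz hθ] with i hi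
  obtain ⟨r, a, hr, a1, a2, a3⟩ := hi
  have hr' : (0 : ℝ) < r := by exact_mod_cast hr
  have hpos : ∀ j, (0 : ℝ) < a j / r := fun j => by
    have := (abs_lt.1 (a3 j)).1
    linarith [h2 j]
  have e : ∀ u : ι → ℤ, ∑ j, (a j / r : ℝ) * u j = ((∑ j, a j * u j : ℤ) : ℝ) / r := fun u => by
    push_cast
    rw [sum_div]
    exact sum_congr rfl fun j _ => by ring
  refine ⟨fun j => a j / r, ⟨hpos, fun u hu => ?_, ?_, r, fun j => (a j).toNat, hr, fun j => ?_⟩,
    fun u hu => ?_, fun j => (a3 j).trans_le h1⟩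
  · obtain ⟨k, hk⟩ := a1 u hu
    refine ⟨k, ?_⟩
    rw [e, hk]
    push_cast
    field_simp
  · rcases isEmpty_or_nonempty ι with hι | hι
    · simpa using hs
    · calc ∑ j, (a j / r : ℝ) < ∑ j, (z j + θ) := sum_lt_sum_of_nonempty univ_nonempty fun j _ => by
            have := (abs_lt.1 (a3 j)).2
            linarith
        _ ≤ η := by
            rw [sum_add_distrib, sum_const, card_univ, nsmul_eq_mul]
            exact h3
  · have h4 : (0 : ℝ) < a j := by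
      have := mul_pos (hpos j) hr'
      rwa [div_mul_cancel₀ _ hr'.ne'] at this
    have h5 : 0 ≤ a j := by exact_mod_cast h4.le
    have h6 : (((a j).toNat : ℕ) : ℝ) = a j := by exact_mod_cast Int.toNat_of_nonneg h5
    show (a j / r : ℝ) = ((a j).toNat : ℕ) / r
    rw [h6]
  · show ∑ j, (a j / r : ℝ) * u j = 0
    rw [e, a2 u hu]
    simp

/-- a positive vector orthogonal to a pointed lattice -/
theorem pos (L : AddSubgroup (ι → ℤ)) (hL : ∀ u ∈ L, (∀ j, 0 ≤ u j) → u = 0) :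
    ∃ w : ι → ℝ, (∀ j, 0 < w j) ∧ ∀ u ∈ L, ∑ j, w j * u j = 0 := by
  obtain ⟨D, w, u₀, -, h1, h2, h3⟩ := To.gt L 0 fun u _ => le_rfl
  have h4 := hL _ h2 fun j => Int.natCast_nonneg _
  refine ⟨fun j => w j, fun j => ?_, fun u hu => ?_⟩
  · have h5 : (u₀ j : ℤ) = 0 := congrFun h4 j
    have h6 : w j ≠ 0 := fun h => by
      have := (h3 j).2 h
      omega
    exact Nat.cast_pos.2 (Nat.pos_of_ne_zero h6)
  · have h5 : ∑ j, u j * w j = 0 := by simpa using h1 ⟨u, hu⟩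
    have h6 : ((∑ j, u j * w j : ℤ) : ℝ) = 0 := by rw [h5]; simp
    push_cast at h6
    rw [← h6]
    exact sum_congr rfl fun j _ => mul_comm _ _

/-- small positive dual vectors which span the annihilator of the limit lattice -/
theorem span (U : Ultrafilter ℕ) (M : ℕ → AddSubgroup (ι → ℤ)) (w : ι → ℝ) (hw : ∀ j, 0 < w j)
    (hw' : ∀ u ∈ limLat U M, ∑ j, w j * u j = 0) {η : ℝ} (hη : 0 < η) :
    ∀ᶠ i in U, ∃ Z : Option ι → ι → ℝ, (∀ t, Sm η (M i) (Z t)) ∧
      (∀ t, ∀ u ∈ limLat U M, ∑ j, Z t j * u j = 0) ∧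
      ∀ x : ι → ℝ, (∀ t, ∑ j, Z t j * x j = 0) → ∀ ξ : ι → ℝ,
        (∀ u ∈ limLat U M, ∑ j, ξ j * u j = 0) → ∑ j, ξ j * x j = 0 := by
  classical
  let H : Submodule ℝ (ι → ℝ) :=
    { carrier := {a | ∀ m ∈ limLat U M, ∑ j, a j * m j = 0}
      zero_mem' := fun m _ => by simp
      add_mem' := fun {a b} ha hb m hm => by
        simp only [Pi.add_apply, add_mul, sum_add_distrib, ha m hm, hb m hm, add_zero]
      smul_mem' := fun c a ha m hm => by
        simp only [Pi.smul_apply, smul_eq_mul, mul_assoc, ← mul_sum, ha m hm, mul_zero] }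
  obtain ⟨π, hπ⟩ : ∃ π : (ι → ℝ) →ₗ[ℝ] H, ∀ x : H, π x = x := by
    obtain ⟨C, hC⟩ := H.exists_isCompl
    exact ⟨H.projectionOnto C hC, fun x => Submodule.projectionOnto_apply_left hC x⟩
  let b : ι → ι → ℝ := fun k => (π (Pi.single k 1)).1
  have hb : ∀ k, b k ∈ H := fun k => (π _).2
  have hrep : ∀ x ∈ H, ∀ j, x j = ∑ k, x k * b k j := fun x hx j => by
    have h1 : x = ∑ k, x k • (Pi.single k (1 : ℝ) : ι → ℝ) := by
      ext i
      simp [Finset.sum_apply, Pi.single_apply]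
    have h2 : (π x).1 = x := congrArg Subtype.val (hπ ⟨x, hx⟩)
    have h3 : π x = ∑ k, x k • π (Pi.single k 1) := by
      conv_lhs => rw [h1]
      simp only [map_sum, map_smul]
    have h4 := congrFun h2 j
    rw [h3] at h4
    rw [← h4]
    simp only [b, AddSubmonoidClass.coe_finsetSum, Finset.sum_apply, SetLike.val_smul,
      Pi.smul_apply, smul_eq_mul]
  have hlin : ∀ x ∈ H, ∀ m : ι → ℝ, ∑ j, x j * m j = ∑ k, x k * ∑ j, b k j * m j :=
    fun x hx m => by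
      simp only [mul_sum]
      rw [sum_comm]
      refine sum_congr rfl fun j _ => ?_
      conv_lhs => rw [hrep x hx j]
      rw [sum_mul]
      exact sum_congr rfl fun k _ => by ring
  let b' : Option ι → ι → ℝ := fun t => t.elim 0 b
  have hb' : ∀ t, b' t ∈ H := fun t => by
    cases t
    · exact H.zero_mem
    · exact hb _
  obtain ⟨θ, hθ, h1⟩ : ∃ θ : ℝ, 0 < θ ∧ ∀ t j, 0 < w j + θ * b' t j := by
    have e1 : ∀ᶠ θ in nhdsWithin (0 : ℝ) (Set.Ioi 0), ∀ t j, 0 < w j + θ * b' t j :=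
      eventually_all.2 fun t => eventually_all.2 fun j => nhdsWithin_le_nhds
        ((show ContinuousAt (fun θ : ℝ => w j + θ * b' t j) 0 by fun_prop).eventually
          (lt_mem_nhds (by simpa using hw j)))
    obtain ⟨θ, a1, a2⟩ := (e1.and self_mem_nhdsWithin).exists
    exact ⟨θ, a2, a1⟩
  obtain ⟨δ, hδ, h2⟩ : ∃ δ : ℝ, 0 < δ ∧ ∀ t, ∑ j, δ * (w j + θ * b' t j) < η := by
    have e1 : ∀ᶠ δ in nhdsWithin (0 : ℝ) (Set.Ioi 0), ∀ t, ∑ j, δ * (w j + θ * b' t j) < η :=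
      eventually_all.2 fun t => nhdsWithin_le_nhds
        ((show ContinuousAt (fun δ : ℝ => ∑ j, δ * (w j + θ * b' t j)) 0 by fun_prop).eventually
          (gt_mem_nhds (by simpa using hη)))
    obtain ⟨δ, a1, a2⟩ := (e1.and self_mem_nhdsWithin).exists
    exact ⟨δ, a2, a1⟩
  set c : ℝ := (Fintype.card ι : ℝ) with hc
  have hc0 : 0 ≤ c := by positivity
  set ε : ℝ := δ * θ / (2 * c + 1) with hε
  have hεp : 0 < ε := by positivity
  have hz : ∀ t, (fun j => δ * (w j + θ * b' t j)) ∈ H := fun t =>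
    H.smul_mem δ (H.add_mem (show w ∈ H from hw') (H.smul_mem θ (hb' t)))
  have hd := eventually_all.2 fun t => appr U M (fun j => δ * (w j + θ * b' t j)) (hz t)
    (fun j => mul_pos hδ (h1 t j)) (h2 t) hεp
  filter_upwards [hd] with i hi
  choose Z z1 z2 z3 using hi
  refine ⟨Z, z1, z2, fun x hx ξ hξ => ?_⟩
  rcases isEmpty_or_nonempty ι with hι | hι
  · simp
  let l : ι → ℝ := fun k => |∑ j, b k j * x j|
  obtain ⟨k, hk⟩ := Finite.exists_max l
  have hl0 : l k ≤ 0 := by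
    have hx' : (fun j => Z (some k) j - Z none j - δ * θ * b k j) ∈ H :=
      H.sub_mem (H.sub_mem (show Z (some k) ∈ H from z2 _) (show Z none ∈ H from z2 _))
        (H.smul_mem (δ * θ) (hb k))
    have h3 := hlin _ hx' x
    have h4 : ∑ j, (Z (some k) j - Z none j - δ * θ * b k j) * x j =
        -(δ * θ * ∑ j, b k j * x j) := by
      simp only [sub_mul, sum_sub_distrib, hx, mul_assoc, ← mul_sum, zero_sub, sub_zero]
    have h5 : |∑ k', (Z (some k) k' - Z none k' - δ * θ * b k k') * ∑ j, b k' j * x j| ≤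
        c * (2 * ε * l k) := by
      refine (abs_sum_le_sum_abs _ _).trans ?_
      rw [hc, ← card_univ, ← nsmul_eq_mul, ← sum_const]
      refine sum_le_sum fun k' _ => ?_
      rw [abs_mul]
      refine mul_le_mul ?_ (hk k') (abs_nonneg _) (by positivity)
      have a1 := abs_lt.1 (z3 (some k) k')
      have a2 := abs_lt.1 (z3 none k')
      simp only [b', Option.elim, Pi.zero_apply, mul_zero, add_zero] at a1 a2
      rw [abs_le]
      constructor <;> nlinarith [a1.1, a1.2, a2.1, a2.2]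
    rw [← h3, h4, abs_neg, abs_mul, abs_of_pos (mul_pos hδ hθ)] at h5
    have h6 : ε * (2 * c + 1) = δ * θ := by rw [hε]; field_simp
    change δ * θ * l k ≤ _ at h5
    rw [← h6] at h5
    by_contra h7
    have h8 := mul_pos hεp (not_le.1 h7)
    nlinarith
  rw [hlin ξ hξ x]
  refine sum_eq_zero fun k' _ => ?_
  have h3 : l k' ≤ 0 := (hk k').trans hl0
  rw [abs_nonpos_iff.1 h3, mul_zero]

/-- **the dichotomy** -/
theorem hz2 (ι : Type) [Fintype ι] (C : ℕ) {η : ℝ} (hη : 0 < η) : ∃ m : ℕ, 0 < m ∧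
    ∀ (M : AddSubgroup (ι → ℤ)) (κ : ι → ℤ), (∀ u ∈ M, (∀ j, 0 ≤ u j) → u = 0) →
      (∀ j, |κ j| ≤ C) →
      (∃ ζ, Sm η M ζ ∧ ∑ j, ζ j * κ j < 0) ∨
      ∃ (Z : Option ι → ι → ℝ) (V : Finset (ι → ℕ)), (∀ t, Sm η M (Z t)) ∧
        Sm η M (fun j => ∑ t, Z t j) ∧ V.Nonempty ∧
        (∀ c ∈ V, (fun j => (c j : ℤ) - m * κ j) ∈ M ∧
          ∀ t, ∑ j, Z t j * c j = m * ∑ j, Z t j * κ j) ∧
        ∀ (w : ι → ℝ) (s : ℝ), (∀ j, 0 ≤ w j) → (∀ c ∈ V, m * s ≤ ∑ j, c j * w j) →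
          ∃ ξ : ι → ℝ, (∀ x : ι → ℝ, (∀ t, ∑ j, Z t j * x j = 0) → ∑ j, ξ j * x j = 0) ∧
            (∀ j, 0 ≤ w j + ξ j) ∧ s ≤ -∑ j, ξ j * κ j := by
  classical
  by_contra hcon
  have h0 : ∀ i : ℕ, _ := fun i => not_forall.1 (not_and.1 (not_exists.1 hcon i.factorial)
    i.factorial_pos)
  choose M h1 using h0
  choose κ h2 using fun i => not_forall.1 (h1 i)
  have hpt := fun i => (Classical.not_imp.1 (h2 i)).1
  have hbd := fun i => (Classical.not_imp.1 (Classical.not_imp.1 (h2 i)).2).1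
  have hno := fun i => not_or.1 (Classical.not_imp.1 (Classical.not_imp.1 (h2 i)).2).2
  clear h1 h2 hcon
  let U : Ultrafilter ℕ := hyperfilter ℕ
  obtain ⟨κ₀, hκ⟩ : ∃ κ₀, ∀ᶠ i in U, κ i = κ₀ := by
    have hF : (Set.pi Set.univ fun _ : ι => Set.Icc (-(C : ℤ)) C).Finite :=
      Set.Finite.pi fun _ => Set.finite_Icc _ _
    obtain ⟨κ₀, -, h⟩ := (Ultrafilter.eventually_exists_mem_iff (f := U) hF
      (P := fun x i => κ i = x)).1 (Eventually.of_forall fun i =>
        ⟨κ i, fun j _ => abs_le.1 (hbd i j), rfl⟩)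
    exact ⟨κ₀, h⟩
  obtain ⟨w, hw, hw'⟩ := pos (limLat U M) fun u hu h => by
    obtain ⟨i, hi⟩ := (show ∀ᶠ i in U, u ∈ M i from hu).exists
    exact hpt i u hi h
  obtain ⟨n, V, hn, hV, hD⟩ := Lp.vert (limLat U M) κ₀
  have hne : V.Nonempty := by
    by_contra hV0
    rw [not_nonempty_iff_eq_empty] at hV0
    obtain ⟨ζ, z1, z2, z3⟩ := hD 0 1 (fun _ => le_rfl) (by simp [hV0])
    simp only [Pi.zero_apply, zero_add] at z2
    obtain ⟨θ, hθ, a1⟩ : ∃ θ : ℝ, 0 < θ ∧ ∑ j, (ζ j + θ * w j) * κ₀ j < 0 := by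
      have e1 : ∀ᶠ θ in nhdsWithin (0 : ℝ) (Set.Ioi 0), ∑ j, (ζ j + θ * w j) * κ₀ j < 0 :=
        nhdsWithin_le_nhds
          ((show ContinuousAt (fun θ : ℝ => ∑ j, (ζ j + θ * w j) * κ₀ j) 0 by fun_prop).eventually
            (gt_mem_nhds (by simp only [zero_mul, add_zero]; linarith)))
      obtain ⟨θ, a1, a2⟩ := (e1.and self_mem_nhdsWithin).exists
      exact ⟨θ, a2, a1⟩
    obtain ⟨δ, hδ, a2⟩ : ∃ δ : ℝ, 0 < δ ∧ ∑ j, δ * (ζ j + θ * w j) < η := by
      have e1 : ∀ᶠ δ in nhdsWithin (0 : ℝ) (Set.Ioi 0), ∑ j, δ * (ζ j + θ * w j) < η :=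
        nhdsWithin_le_nhds
          ((show ContinuousAt (fun δ : ℝ => ∑ j, δ * (ζ j + θ * w j)) 0 by fun_prop).eventually
            (gt_mem_nhds (by simpa using hη)))
      obtain ⟨δ, a1, a2⟩ := (e1.and self_mem_nhdsWithin).exists
      exact ⟨δ, a2, a1⟩
    set g : ℝ := ∑ j, δ * (ζ j + θ * w j) * κ₀ j with hg
    have hg0 : g < 0 := by
      have : g = δ * ∑ j, (ζ j + θ * w j) * κ₀ j := by
        rw [hg, mul_sum]
        exact sum_congr rfl fun j _ => by ring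
      rw [this]
      exact mul_neg_of_pos_of_neg hδ a1
    set B : ℝ := ∑ j, |(κ₀ j : ℝ)| with hB
    have hB0 : 0 ≤ B := sum_nonneg fun _ _ => abs_nonneg _
    have hε : 0 < -g / (B + 1) := div_pos (by linarith) (by linarith)
    have hd := appr U M (fun j => δ * (ζ j + θ * w j)) (fun u hu => by
      simp only [mul_assoc, ← mul_sum, add_mul, sum_add_distrib, z1 u hu, hw' u hu, mul_zero,
        add_zero]) (fun j => mul_pos hδ (by linarith [z2 j, mul_pos hθ (hw j)])) a2 hε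
    obtain ⟨i, ⟨y, y1, -, y3⟩, hi⟩ := (hd.and hκ).exists
    refine (hno i).1 ⟨y, y1, ?_⟩
    rw [hi]
    have a3 : ∑ j, y j * κ₀ j - g ≤ -g / (B + 1) * B := by
      rw [hg, ← sum_sub_distrib, hB, mul_sum]
      refine sum_le_sum fun j _ => ?_
      rw [← sub_mul]
      refine (le_abs_self _).trans ?_
      rw [abs_mul]
      exact mul_le_mul_of_nonneg_right (y3 j).le (abs_nonneg _)
    have a4 : -g / (B + 1) * (B + 1) = -g := by field_simp
    nlinarith
  have hc : (0 : ℝ) < Fintype.card (Option ι) := by exact_mod_cast Fintype.card_pos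
  have hc1 : η / Fintype.card (Option ι) ≤ η :=
    div_le_self hη.le (by exact_mod_cast Fintype.card_pos)
  have e1 := span U M w hw hw' (div_pos hη hc)
  have e2 : ∀ᶠ i in U, ∀ c ∈ V, (fun j => (c j : ℤ) - n * κ₀ j) ∈ M i :=
    (eventually_all_finset V).2 fun c hc => hV c hc
  have e3 : ∀ᶠ i in U, n ≤ i := Nat.hyperfilter_le_atTop (eventually_ge_atTop n)
  obtain ⟨i, ⟨⟨⟨Z, z1, z2, z3⟩, a2⟩, a3⟩, a4⟩ := (((e1.and e2).and e3).and hκ).exists
  obtain ⟨k, hk⟩ := Nat.dvd_factorial hn a3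
  have hk0 : 0 < k := Nat.pos_of_ne_zero fun h => i.factorial_ne_zero (by rw [hk, h, mul_zero])
  have hk' : (0 : ℝ) < k := by exact_mod_cast hk0
  refine (hno i).2 ⟨Z, V.image fun c j => k * c j, fun t => (z1 t).mono hc1, Sm.sum z1,
    hne.image _, fun c hc => ?_, fun x s hx hs => ?_⟩
  · obtain ⟨c, hc', rfl⟩ := mem_image.1 hc
    rw [a4, hk]
    refine ⟨Lp.mem_of_eq ((M i).zsmul_mem (a2 c hc') k) fun j => ?_, fun t => ?_⟩
    · simp only [Pi.smul_apply, smul_eq_mul]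
      push_cast
      ring
    · have b1 := z2 t _ (hV c hc')
      push_cast at b1 ⊢
      have b2 : ∑ j, Z t j * (k * c j : ℝ) - n * k * ∑ j, Z t j * κ₀ j =
          k * ∑ j, Z t j * (c j - n * κ₀ j) := by
        rw [mul_sum, mul_sum, ← sum_sub_distrib]
        exact sum_congr rfl fun j _ => by ring
      rw [b1, mul_zero] at b2
      linarith
  · obtain ⟨ξ, x1, x2, x3⟩ := hD x s hx fun c hc => by
      have b1 := hs _ (mem_image_of_mem _ hc)
      rw [hk] at b1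
      push_cast at b1
      have b2 : ∑ j, (k * c j : ℝ) * x j = k * ∑ j, c j * x j := by
        rw [mul_sum]
        exact sum_congr rfl fun j _ => by ring
      rw [b2] at b1
      exact le_of_mul_le_mul_left (by linarith) hk'
    exact ⟨ξ, fun y hy => z3 y hy ξ x1, x2, a4 ▸ x3⟩

end Vale.Agent.P283R.Hz.Lat
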