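import Vale.Agent.P283R.Hz.Gk
import Vale.Agent.P283R.Hz.Lat43
import Vale.Agent.P283R.Cy.Tpb

/-!
# P283R, block HZ: the combinatorial end
-/

open Finset

namespace Vale.Agent.P283R.Hz

open Vale.Agent.P283R.Cx Vale.Agent.P283R.Cy Tpb

namespace Cm

variable {N k n : ℕ} {a : Fin N → Fin k → ℤ} {u : Fin N → ℕ} {l : Fin k → ℤ}
  {g : Fin n → Fin N}

/-- `g` enumerates the variables which vanish at the vertex -/
structure En (u : Fin N → ℕ) (g : Fin n → Fin N) : Prop where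
  inj : Function.Injective g
  iff : ∀ j, u j = 0 ↔ ∃ i, g i = j

theorem exists_en (u : Fin N → ℕ) : ∃ g : Fin (od u 1) → Fin N, En u g := by
  have cd : Fintype.card {j // u j = 0} = od u 1 := by
    rw [Fintype.card_subtype, card_filter]; rfl
  let e := (Fintype.equivFinOfCardEq cd).symm
  exact ⟨fun i => (e i).1, Subtype.val_injective.comp e.injective, fun j =>
    ⟨fun h => ⟨e.symm ⟨j, h⟩, by simp⟩, by rintro ⟨i, rfl⟩; exact (e i).2⟩⟩

theorem En.sum (h : En u g) {R : Type} [AddCommMonoid R] (x : Fin N → R)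
    (hx : ∀ j, 0 < u j → x j = 0) : ∑ j, x j = ∑ i, x (g i) := by
  classical
  rw [← sum_image (s := univ) (g := g) fun _ _ _ _ e => h.inj e]
  refine (sum_subset (subset_univ _) fun j _ hj => hx j (Nat.pos_of_ne_zero fun z => hj ?_)).symm
  simpa using (h.iff j).1 z

/-- the lattice -/
def lat (a : Fin N → Fin k → ℤ) (g : Fin n → Fin N) : AddSubgroup (Fin n → ℤ) where
  carrier := {x | ∃ m : Fin N → ℤ, ∑ j, m j • a j = 0 ∧ ∀ i, m (g i) = x i}
  add_mem' := fun ⟨m, h1, h2⟩ ⟨m', h3, h4⟩ => ⟨m + m', by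
    simp only [Pi.add_apply, add_smul, sum_add_distrib, h1, h3, add_zero], fun i => by
    simp only [Pi.add_apply, h2, h4]⟩
  zero_mem' := ⟨0, by simp, fun _ => rfl⟩
  neg_mem' := fun ⟨m, h1, h2⟩ => ⟨-m, by
    simp only [Pi.neg_apply, neg_smul, sum_neg_distrib, h1, neg_zero], fun i => by
    simp only [Pi.neg_apply, h2]⟩

theorem pointed (gt : Gt a u l) (h : En u g) : ∀ x ∈ lat a g, (∀ i, 0 ≤ x i) → x = 0 := by
  rintro x ⟨m, h1, h2⟩ x0
  have e := congrArg (· ⬝ᵥ l) h1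
  simp only [sum_dotProduct, smul_dotProduct, zero_dotProduct, smul_eq_mul] at e
  rw [h.sum _ fun j hj => by rw [(gt.iff j).1 hj, mul_zero]] at e
  simp only [h2] at e
  funext i
  have := (sum_eq_zero_iff_of_nonneg fun i _ => mul_nonneg (x0 i) (gt.pos _)).1 e i (mem_univ _)
  have z := (h.iff _).2 ⟨i, rfl⟩
  exact (mul_eq_zero.1 this).resolve_right (mt (gt.iff _).2 (by omega))

theorem sv (h : En u g) {η : ℝ} {ζ : Fin n → ℝ} (s : Lat.Sm η (lat a g) ζ) :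
    ∃ D v, Sv η a u D v ∧ ∀ x : Fin N → ℝ, ∑ j, (v j : ℝ) * x j = D * ∑ i, ζ i * x (g i) := by
  obtain ⟨s1, s2, s3, D, A, D0, e⟩ := s
  have D1 : (0 : ℝ) < D := Nat.cast_pos.2 D0
  have v1 : ∀ i, Function.extend g A 0 (g i) = A i := fun i => h.inj.extend_apply _ _ i
  have v2 : ∀ j, 0 < u j → Function.extend g A 0 j = 0 := fun j hj =>
    Function.extend_apply' _ _ _ fun z => hj.ne' ((h.iff j).2 z)
  have v3 : ∀ x : Fin N → ℝ, ∑ j, ((Function.extend g A 0 j : ℕ) : ℝ) * x j =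
      D * ∑ i, ζ i * x (g i) := fun x => by
    rw [h.sum _ fun j hj => by rw [v2 j hj, Nat.cast_zero, zero_mul], mul_sum]
    refine sum_congr rfl fun i _ => ?_
    rw [v1, e]
    field_simp
  refine ⟨D, Function.extend g A 0, ⟨D0, fun j => ⟨fun p => ?_, fun z => ?_⟩, fun m hm => ?_, ?_⟩,
    v3⟩
  · by_contra z
    exact p.ne' (v2 j (Nat.pos_of_ne_zero z))
  · obtain ⟨i, rfl⟩ := (h.iff j).1 z
    have := s1 i
    rw [e] at this
    rw [v1]
    exact_mod_cast (div_pos_iff_of_pos_right D1).1 this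
  · obtain ⟨r, hr⟩ := s2 (fun i => m (g i)) ⟨m, hm, fun _ => rfl⟩
    have := v3 fun j => m j
    rw [hr] at this
    exact ⟨r, by exact_mod_cast this⟩
  · have := v3 1
    simp only [Pi.one_apply, mul_one] at this
    rw [this, mul_comm]
    exact mul_lt_mul_of_pos_right s3 D1

theorem dg_eq (a : Fin N → Fin k → ℤ) (m : Fin N → ℕ) : dg a m = ∑ j, (m j : ℤ) • a j := by
  funext i; simp [dg]

/-- the repair by an invariant monomial -/
theorem rep (gt : Gt a u l) (h : En u g) {y : Fin N → ℤ} {c : Fin n → ℕ}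
    (hc : ∀ i, y (g i) = c i) : ∃ m : Fin N → ℕ, dg a m = ∑ j, y j • a j ∧ ∀ i, m (g i) = c i := by
  let L : ℕ := ∑ j, (y j).natAbs
  have p : ∀ j, 0 ≤ y j + L * u j := fun j => by
    by_cases z : u j = 0
    · obtain ⟨i, rfl⟩ := (h.iff j).1 z
      rw [hc]
      positivity
    · have k1 : (y j).natAbs ≤ L :=
        single_le_sum (f := fun j => (y j).natAbs) (fun _ _ => Nat.zero_le _) (mem_univ j)
      have k2 : (L : ℤ) * 1 ≤ L * u j :=
        mul_le_mul_of_nonneg_left (by omega) (Int.natCast_nonneg _)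
      omega
  refine ⟨fun j => (y j + L * u j).toNat, ?_, fun i => ?_⟩
  · have := gt.inv
    rw [dg_eq] at this ⊢
    simp only [Int.toNat_of_nonneg (p _), add_smul, mul_smul, sum_add_distrib, ← smul_sum, this,
      smul_zero, add_zero]
  · simp [(h.iff _).2 ⟨i, rfl⟩, hc]

theorem pa_ns (r : ℕ) (δ : Fin k → ℤ) (ξ : Fin k → ℝ) : pa (-((r : ℤ) • δ)) ξ = r * -pa δ ξ := by
  simp [pa, mul_sum, mul_assoc]

end Cm

open Cm in
theorem cmb : CMB := by
  intro n C η hη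
  choose M M0 H using fun n' : ℕ => Lat.hz2 (Fin n') C hη
  refine ⟨∏ i ∈ range (n + 1), M i, prod_pos fun i _ => M0 i, ?_⟩
  intro N k a u l p δ κ B r m gt hn hκ eκ hp lw r0 e1 e2 hm
  obtain ⟨g, en⟩ := exists_en u
  obtain ⟨ρ, hρ⟩ := dvd_prod_of_mem M (mem_range.2 (Nat.lt_succ_of_le hn))
  have ρ0 : 0 < ρ := Nat.pos_of_mul_pos_left (hρ ▸ prod_pos fun i _ => M0 i)
  generalize od u 1 = n' at g en hρ
  suffices k : ∃ m' : Fin N → ℕ, dg a m' = -((M n' : ℤ) • δ) ∧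
      ((∑ j, m' j * p j : ℤ) : ℝ) < M n' * B by
    obtain ⟨m', k1, k2⟩ := k
    refine ⟨fun j => ρ * m' j, ?_, ?_⟩
    · rw [dg_eq] at k1 ⊢
      simp only [Nat.cast_mul, mul_smul, ← smul_sum, k1, hρ, smul_neg]
      rw [smul_comm]
    · have := mul_lt_mul_of_pos_left k2 (Nat.cast_pos.2 ρ0 : (0 : ℝ) < ρ)
      rw [hρ]
      push_cast at this ⊢
      simp only [mul_assoc, ← mul_sum]
      linarith
  have ne : ∀ D v, Sv η a u D v → ∃ ξ : Fin k → ℝ, (∀ j, (v j : ℝ) ≤ pa (a j) ξ) ∧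
      -pa δ ξ ≤ (∑ j, κ j * v j : ℤ) := fun D v s => by
    by_contra z
    obtain ⟨r, m', r0, k1, k2, -⟩ := hm D v s 0 1 fun ξ h1 h2 => (z ⟨ξ, h1, h2⟩).elim
    have k0 : dg a m' = 0 := by rw [k1, dg_eq]; simp
    rw [sum_eq_zero fun j _ => by
      by_cases z : u j = 0
      · rw [gt.sup0 k0 z, Nat.cast_zero, mul_zero]
      · rw [Nat.eq_zero_of_not_pos (mt (s.pos j).1 z), Nat.cast_zero, zero_mul]] at k2
    omega
  have cs : ∀ v : Fin N → ℕ, ((∑ j, κ j * v j : ℤ) : ℝ) = ∑ j, (v j : ℝ) * κ j := fun v => by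
    push_cast
    exact sum_congr rfl fun _ _ => mul_comm _ _
  have M1 : (0 : ℝ) < M n' := Nat.cast_pos.2 (M0 n')
  obtain ⟨ζ, s, lt⟩ | ⟨Z, V, s1, s2, ⟨c₀, c0⟩, hV, dual⟩ := H n' (lat a g) (fun i => κ (g i))
    (pointed gt en) fun i => hκ _ ((en.iff _).2 ⟨i, rfl⟩)
  · obtain ⟨D, v, s, e⟩ := sv en s
    obtain ⟨ξ, k1, k2⟩ := ne D v s
    have := lw ξ fun j => (Nat.cast_nonneg _).trans (k1 j)
    rw [cs, e] at k2
    have := mul_neg_of_pos_of_neg (Nat.cast_pos.2 s.D0 : (0 : ℝ) < D) lt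
    linarith
  have rp : ∀ c ∈ V, ∃ m : Fin N → ℕ, dg a m = -((M n' : ℤ) • δ) ∧ ∀ i, m (g i) = c i :=
    fun c hc => by
      obtain ⟨x, x1, x2⟩ := (hV c hc).1
      obtain ⟨m, m1, m2⟩ := rep gt en (y := fun j => x j + M n' * κ j) (c := c) fun i => by
        rw [x2]; ring
      refine ⟨m, ?_, m2⟩
      rw [m1]
      simp only [add_smul, mul_smul, sum_add_distrib, ← smul_sum, x1, eκ, zero_add, smul_neg]
  obtain ⟨ξ₀, h₀⟩ := feas a p fun m h => (hp m h).ge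
  have wt : ∀ m : Fin N → ℕ, ∑ j, (m j : ℝ) * (p j + pa (a j) ξ₀) =
      (∑ j, m j * p j : ℤ) + pa (dg a m) ξ₀ := fun m => by
    simp only [mul_add, sum_add_distrib, pa_dg]
    push_cast
    rfl
  have wJ : ∀ j, 0 < u j → (p j : ℝ) + pa (a j) ξ₀ = 0 := fun j hj => by
    have := wt u
    rw [hp u gt.inv, gt.inv, pa_zero, Int.cast_zero, add_zero] at this
    have := (sum_eq_zero_iff_of_nonneg fun j _ => mul_nonneg (Nat.cast_nonneg _) (h₀ j)).1 this j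
      (mem_univ _)
    exact (mul_eq_zero.1 this).resolve_left (Nat.cast_ne_zero.2 hj.ne')
  have wt' : ∀ (m : Fin N → ℕ) (r : ℕ), dg a m = -((r : ℤ) • δ) →
      ∑ i, (m (g i) : ℝ) * (p (g i) + pa (a (g i)) ξ₀) =
        (∑ j, m j * p j : ℤ) + r * -pa δ ξ₀ := fun m r h => by
    rw [← en.sum (fun j => (m j : ℝ) * (p j + pa (a j) ξ₀)) fun j hj => by rw [wJ j hj, mul_zero],
      wt, h, pa_ns]
  by_contra no
  obtain ⟨ξ, x1, x2, x3⟩ := dual (fun i => p (g i) + pa (a (g i)) ξ₀) (B - pa δ ξ₀)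
    (fun i => h₀ _) fun c hc => by
      obtain ⟨m, m1, m2⟩ := rp c hc
      have k1 := wt' m _ m1
      have k2 := not_lt.1 fun z => no ⟨m, m1, z⟩
      simp only [m2] at k1
      rw [k1]
      linarith
  obtain ⟨m₀, m1, m2⟩ := rp c₀ c0
  have up : ∀ {v : Fin N → ℕ} {ξ : Fin k → ℝ}, (∀ j, (v j : ℝ) ≤ pa (a j) ξ) →
      ∀ (m : Fin N → ℕ) (r : ℕ), dg a m = -((r : ℤ) • δ) →
        ∑ j, (v j : ℝ) * m j ≤ r * -pa δ ξ := fun {v ξ} h m r e => by
    rw [← pa_ns, ← e, pa_dg]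
    exact sum_le_sum fun j _ => by
      rw [mul_comm]
      exact mul_le_mul_of_nonneg_left (h j) (Nat.cast_nonneg _)
  obtain ⟨D, v, s, e⟩ := sv en s2
  have D0 : (0 : ℝ) < D := Nat.cast_pos.2 s.D0
  have sw : ∀ x : Fin n' → ℝ, ∑ i, (∑ t, Z t i) * x i = ∑ t, ∑ i, Z t i * x i := fun x => by
    simp only [sum_mul]
    exact sum_comm
  obtain ⟨r', m', r1, k1, k2, k3⟩ := hm D v s m (r * ∑ j, κ j * v j) fun ξ h1 _ => by
    have := up h1 m₀ _ m1
    rw [e, sw] at this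
    simp only [m2, (hV c₀ c0).2, ← mul_sum] at this
    rw [e1, pa_ns, Int.cast_mul, cs, e, sw, Int.cast_natCast]
    refine mul_le_mul_of_nonneg_left (le_of_mul_le_mul_left ?_ M1) (Nat.cast_nonneg _)
    linarith
  have k0 : dg a m' = -(((r' * r : ℕ) : ℤ) • δ) := by
    rw [k1, e1, smul_neg, smul_smul, Nat.cast_mul]
  have le : ∀ t, ∑ i, Z t i * m' (g i) ≤ (r' * r : ℕ) * ∑ i, Z t i * κ (g i) := fun t => by
    obtain ⟨D, v, s, e⟩ := sv en (s1 t)
    obtain ⟨ξ, h1, h2⟩ := ne D v s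
    have := up h1 m' _ k0
    rw [cs, e] at h2
    rw [e] at this
    have := this.trans (mul_le_mul_of_nonneg_left h2 (Nat.cast_nonneg _))
    exact le_of_mul_le_mul_left (this.trans_eq (mul_left_comm _ _ _)) (Nat.cast_pos.2 s.D0)
  have ge : ∑ t, ((r' * r : ℕ) : ℝ) * ∑ i, Z t i * κ (g i) ≤ ∑ t, ∑ i, Z t i * m' (g i) := by
    have : (r' : ℝ) * (r * ((∑ j, κ j * v j : ℤ) : ℝ)) ≤ ∑ j, (v j : ℝ) * m' j := by
      exact_mod_cast k2
    rw [cs, e, e, sw, sw] at this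
    rw [← mul_sum]
    refine le_of_mul_le_mul_left ?_ D0
    push_cast
    linarith
  have eq := (sum_eq_sum_iff_of_le fun t _ => le t).1 (le_antisymm (sum_le_sum fun t _ => le t) ge)
  have z := x1 (fun i => m' (g i) - (r' * r : ℕ) * κ (g i)) fun t => by
    simp only [mul_sub, sum_sub_distrib, eq t (mem_univ _), mul_sum, mul_left_comm, sub_self]
  have z1 : 0 ≤ ∑ i, (m' (g i) : ℝ) * (p (g i) + pa (a (g i)) ξ₀ + ξ i) :=
    sum_nonneg fun i _ => mul_nonneg (Nat.cast_nonneg _) (x2 i)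
  have z2 := wt' m' _ k0
  have z3 : ((∑ j, m' j * p j : ℤ) : ℝ) ≤ r' * ((∑ j, m j * p j : ℤ) : ℝ) := by exact_mod_cast k3
  have z4 := mul_lt_mul_of_pos_left e2 (Nat.cast_pos.2 r1 : (0 : ℝ) < r')
  have z5 := mul_le_mul_of_nonneg_left x3 (Nat.cast_nonneg (r' * r))
  simp only [mul_sub, sum_sub_distrib, mul_left_comm (ξ _), ← mul_sum] at z
  simp only [mul_add (m' _ : ℝ) (_ + _), sum_add_distrib, mul_comm (m' _ : ℝ) (ξ _)] at z1
  push_cast at z z2 z3 z4 z5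
  linarith

end Vale.Agent.P283R.Hz
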