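import Vale.Agent.P283R.Hz.St
import Vale.Agent.P283R.Cx.Bas

/-!
# P283R, block HZ: the homogeneous component of an integral equation
-/

open Set Pointwise

noncomputable section

namespace Vale.Agent.P283R.Hz

open Vale.Agent.P287D Vale.Agent.P283R.Cx Vale.Agent.P297Z
open Vale.Agent.P283R.To (mon mon_ne mon_add)

namespace Cmp

variable {K E G : Type} [Field K] [Algebra ℂ K] [Field E] [Algebra ℂ E] [Algebra K E]
  [IsScalarTower ℂ K E] [AddCommGroup G] {μ : G → E} {ρ : E →ₗ[K] G →₀ K} {M : Set (K × G)}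
  {c : E}

/-- the span of homogeneous elements -/
def Ho (μ : G → E) (M : Set (K × G)) : Submodule ℂ E :=
  Submodule.span ℂ ((fun x : K × G => x.1 • μ x.2) '' M)

omit [AddCommGroup G] in
theorem coef (hρ : ∀ φ g, ρ (φ • μ g) = Finsupp.single g φ) (h : c ∈ Ho μ M) (g : G) :
    ρ c g ∈ Submodule.span ℂ {φ | (φ, g) ∈ M} := by
  classical
  induction h using Submodule.span_induction with
  | mem x hx =>
    obtain ⟨⟨φ, g'⟩, hx, rfl⟩ := hx
    rw [hρ, Finsupp.single_apply]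
    split_ifs with e
    exacts [Submodule.subset_span (by subst e; exact hx), zero_mem _]
  | zero => simp
  | add x y _ _ hx hy => rw [map_add]; exact add_mem hx hy
  | smul r x _ hx => rw [LinearMap.map_smul_of_tower]; exact Submodule.smul_mem _ _ hx

theorem shift (hμ : ∀ g h, μ (g + h) = μ g * μ h) (hρ : ∀ φ g, ρ (φ • μ g) = Finsupp.single g φ)
    (h : c ∈ Ho μ M) (φ : K) (g g' : G) : ρ (c * φ • μ g) (g' + g) = ρ c g' * φ := by
  classical
  induction h using Submodule.span_induction with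
  | mem x hx =>
    obtain ⟨⟨ψ, g₁⟩, -, rfl⟩ := hx
    rw [smul_mul_smul_comm, ← hμ, hρ, hρ, Finsupp.single_apply, Finsupp.single_apply]
    simp
  | zero => simp
  | add x y _ _ hx hy => simp only [add_mul, map_add, Finsupp.add_apply, hx, hy]
  | smul r x _ hx =>
    rw [smul_mul_assoc, LinearMap.map_smul_of_tower, LinearMap.map_smul_of_tower,
      Finsupp.smul_apply, Finsupp.smul_apply, hx, smul_mul_assoc]

omit [AddCommGroup G] in
theorem back (hρ : ∀ φ g, ρ (φ • μ g) = Finsupp.single g φ) (h : c ∈ Ho μ M) :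
    Finsupp.linearCombination K μ (ρ c) = c := by
  induction h using Submodule.span_induction with
  | mem x hx =>
    obtain ⟨⟨ψ, g₁⟩, -, rfl⟩ := hx
    rw [hρ, Finsupp.linearCombination_single]
  | zero => simp
  | add x y _ _ hx hy => rw [map_add, map_add, hx, hy]
  | smul r x _ hx => rw [LinearMap.map_smul_of_tower, LinearMap.map_smul_of_tower, hx]

omit [Algebra ℂ K] [IsScalarTower ℂ K E] in
theorem adj (hμ : ∀ g h, μ (g + h) = μ g * μ h) (h0 : μ 0 = 1) (m1 : (1, 0) ∈ M)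
    (mm : ∀ x ∈ M, ∀ y ∈ M, (x.1 * y.1, x.2 + y.2) ∈ M) {S : Set E} (hS : ∀ x ∈ S, x ∈ Ho μ M)
    (h : c ∈ Algebra.adjoin ℂ S) : c ∈ Ho μ M := by
  induction h using Algebra.adjoin_induction with
  | mem x hx => exact hS x hx
  | algebraMap r =>
    rw [Algebra.algebraMap_eq_smul_one]
    exact Submodule.smul_mem _ _ (Submodule.subset_span ⟨_, m1, by simp [h0]⟩)
  | add x y _ _ hx hy => exact add_mem hx hy
  | mul x y _ _ hx hy =>
    have := Submodule.mul_mem_mul hx hy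
    rw [Ho, Submodule.span_mul_span] at this
    refine Submodule.span_mono ?_ this
    rintro _ ⟨_, ⟨a, ha, rfl⟩, _, ⟨b, hb, rfl⟩, rfl⟩
    exact ⟨_, mm a ha b hb, by simp only [hμ, smul_mul_smul_comm]⟩

theorem den {T S : Set E} (hT : ∀ x ∈ T, x ∈ Algebra.adjoin ℂ S)
    (h : c ∈ Algebra.adjoin (IntermediateField.adjoin ℂ T) S) :
    ∃ B ∈ Algebra.adjoin ℂ T, B ≠ 0 ∧ B * c ∈ Algebra.adjoin ℂ S := by
  have le : Algebra.adjoin ℂ T ≤ Algebra.adjoin ℂ S := Algebra.adjoin_le hT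
  induction h using Algebra.adjoin_induction with
  | mem x hx => exact ⟨1, one_mem _, one_ne_zero, by rw [one_mul]; exact Algebra.subset_adjoin hx⟩
  | algebraMap r =>
    obtain ⟨a, ha, b, hb, e⟩ := IntermediateField.mem_adjoin_iff_div.1 r.2
    change ∃ B ∈ _, _ ∧ B * (r : E) ∈ _
    by_cases b0 : b = 0
    · exact ⟨1, one_mem _, one_ne_zero, by simp [e, b0]⟩
    · exact ⟨b, hb, b0, by rw [e, mul_div_cancel₀ _ b0]; exact le ha⟩
  | add x y _ _ hx hy =>
    obtain ⟨a, a1, a0, a2⟩ := hx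
    obtain ⟨b, b1, b0, b2⟩ := hy
    refine ⟨a * b, mul_mem a1 b1, mul_ne_zero a0 b0, ?_⟩
    rw [show a * b * (x + y) = b * (a * x) + a * (b * y) by ring]
    exact add_mem (mul_mem (le b1) a2) (mul_mem (le a1) b2)
  | mul x y _ _ hx hy =>
    obtain ⟨a, a1, a0, a2⟩ := hx
    obtain ⟨b, b1, b0, b2⟩ := hy
    refine ⟨a * b, mul_mem a1 b1, mul_ne_zero a0 b0, ?_⟩
    rw [mul_mul_mul_comm]
    exact mul_mem a2 b2

theorem eqn {T S : Set E} (hT : ∀ x ∈ T, x ∈ Algebra.adjoin ℂ S) {x : E}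
    (h : IsIntegral (Algebra.adjoin (IntermediateField.adjoin ℂ T) S) x) :
    ∃ (n : ℕ) (B : E) (C : ℕ → E), B ∈ Algebra.adjoin ℂ T ∧ B ≠ 0 ∧
      (∀ i < n, C i ∈ Algebra.adjoin ℂ S) ∧ B * x ^ n = ∑ i ∈ Finset.range n, C i * x ^ i := by
  classical
  obtain ⟨p, hp, e⟩ := h
  choose B B1 B0 B2 using fun i => den hT (p.coeff i).2
  refine ⟨p.natDegree, ∏ i ∈ Finset.range p.natDegree, B i,
    fun i => -((∏ i ∈ Finset.range p.natDegree, B i) * p.coeff i), prod_mem fun i _ => B1 i,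
    Finset.prod_ne_zero_iff.2 fun i _ => B0 i, fun i hi => neg_mem ?_, ?_⟩
  · rw [← Finset.prod_erase_mul _ _ (Finset.mem_range.2 hi), mul_assoc]
    exact mul_mem (prod_mem fun i _ => Algebra.adjoin_le hT (B1 i)) (B2 i)
  · rw [Polynomial.eval₂_eq_sum_range, Finset.sum_range_succ, hp.coeff_natDegree, map_one,
      one_mul] at e
    rw [eq_neg_of_add_eq_zero_right e, mul_neg, Finset.mul_sum, ← Finset.sum_neg_distrib]
    exact Finset.sum_congr rfl fun i _ => by rw [neg_mul, mul_assoc]; rfl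

theorem li {K F : Type} [Field K] [Field F] [Algebra K F] {k : ℕ} {t : Fin k → F}
    (ht : AlgebraicIndependent K t) : LinearIndependent K (mon t) :=
  linearIndependent_iff.2 fun ψ h => lv_inj ht (by
    rw [← h, lv, Finsupp.linearCombination_apply]
    exact Finsupp.sum_congr fun e _ => (Algebra.smul_def _ _).symm)

end Cmp

open Cmp

theorem cmp : CMP := fun K F _ _ _ _ _ _ d k N q ε y t T D s a u l h₀ g e₀ b Q H E _ _ _ _ τ hτ v φ
    e N₀ φ0 hv hi => by
  classical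
  let _ : Algebra K E := ((algebraMap F E).comp (algebraMap K F)).toAlgebra
  have : IsScalarTower K F E := .of_algebraMap_eq fun _ => rfl
  have : IsScalarTower ℂ K E := .of_algebraMap_eq fun c => by
    rw [IsScalarTower.algebraMap_apply ℂ F E, IsScalarTower.algebraMap_apply ℂ K F]; rfl
  have t0 := H.ext.ind.ne_zero
  have τ0 := hτ.ind.ne_zero
  have s0 : ∀ m : Fin N → ℕ, ∏ j, s j ^ m j ≠ 0 := fun m =>
    Finset.prod_ne_zero_iff.2 fun j _ => pow_ne_zero _ (H.cox.ne j)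
  have sm : ∀ m m' : Fin N → ℕ, ∏ j, s j ^ (m + m') j = (∏ j, s j ^ m j) * ∏ j, s j ^ m' j :=
    fun m m' => by simp only [Pi.add_apply, pow_add, Finset.prod_mul_distrib]
  let μ : (Fin k → ℤ) × (Fin 1 → ℤ) → E := fun p => mon t p.1 • mon (fun _ : Fin 1 => τ) p.2
  have hμ : ∀ g h, μ (g + h) = μ g * μ h := fun g h => by
    simp only [μ, Prod.fst_add, Prod.snd_add, mon_add t0, mon_add τ0, smul_mul_smul_comm]
  have μ0 : μ 0 = 1 := by simp [μ, mon_zero]
  have μe : ∀ (ψ : K) (e : Fin k → ℤ) (n : ℤ),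
      ψ • μ (e, fun _ => n) = algebraMap F E (hm t ψ e) * τ ^ n := fun ψ e n => by
    simp only [μ, hm, Algebra.smul_def, map_mul, mon, Fin.prod_univ_one, mul_assoc]; rfl
  obtain ⟨ρ, hρ'⟩ := (Finsupp.linearCombination K μ).exists_leftInverse_of_injective
    (LinearMap.ker_eq_bot.2 (linearIndependent_smul (li H.ext.ind) (li hτ.ind)))
  have hρ : ∀ φ g, ρ (φ • μ g) = Finsupp.single g φ := fun φ g => by
    rw [← Finsupp.linearCombination_single K]; exact LinearMap.congr_fun hρ' _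
  have one : ∀ j, ∏ i, s i ^ (Pi.single j 1 : Fin N → ℕ) i = s j := fun j => by
    rw [Finset.prod_eq_single j (fun l _ h => by simp [h]) (by simp), Pi.single_eq_same, pow_one]
  obtain ⟨n, B, C, B1, B0, C1, eq⟩ := eqn (by
    rintro _ ⟨j, rfl⟩
    by_cases h : u j = 0
    · simp [kl, h]
    · exact Algebra.subset_adjoin (Or.inr ⟨j, by simp [xs, kl, h, hv j (Nat.pos_of_ne_zero h)]⟩)) hi
  have hB : B ∈ Ho μ {x | ∃ m : Fin N → ℕ, (∀ j, u j = 0 → m j = 0) ∧
      x = (∏ j, s j ^ m j, dg a m, fun _ => 0)} := by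
    refine adj hμ μ0 ⟨0, fun _ _ => rfl, by simp [dg_zero]; rfl⟩ ?_ ?_ B1
    · rintro _ ⟨m, h, rfl⟩ _ ⟨m', h', rfl⟩
      exact ⟨m + m', fun j k => by simp [h j k, h' j k], by rw [sm, dg_add]; rfl⟩
    · rintro _ ⟨j, rfl⟩
      by_cases h : u j = 0
      · simp [kl, h]
      · refine Submodule.subset_span ⟨_, ⟨Pi.single j 1, fun i k => ?_, rfl⟩, ?_⟩
        · exact Pi.single_eq_of_ne (fun e : i = j => h (e ▸ k)) _
        · simp only [μe, one, dg_single, kl, if_neg h, zz, zpow_zero, mul_one]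
  have hC : ∀ i < n, C i ∈ Ho μ {x | ∃ (m : Fin N → ℕ) (r : ℤ), -∑ j, (v j : ℤ) * m j ≤ r ∧
      x = (∏ j, s j ^ m j, dg a m, fun _ => r)} := fun i h => by
    refine adj hμ μ0 ⟨0, 0, by simp, by simp [dg_zero]; rfl⟩ ?_ ?_ (C1 i h)
    · rintro _ ⟨m, r, h, rfl⟩ _ ⟨m', r', h', rfl⟩
      refine ⟨m + m', r + r', ?_, by rw [sm, dg_add]; rfl⟩
      simp only [Pi.add_apply, Nat.cast_add, mul_add, Finset.sum_add_distrib]
      omega
    · rintro _ (rfl | ⟨j, rfl⟩)
      · refine Submodule.subset_span ⟨_, ⟨0, 1, by simp, rfl⟩, ?_⟩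
        simp [μe, dg_zero, hm_one]
      · refine Submodule.subset_span ⟨_, ⟨Pi.single j 1, -(v j : ℤ), ?_, rfl⟩, ?_⟩
        · rw [Finset.sum_eq_single j (fun l _ h => by simp [h]) (by simp)]
          simp
        · simp only [μe, one, dg_single, xs, zz, zpow_neg, zpow_natCast, div_eq_mul_inv]
  obtain ⟨g₀, B₀⟩ := Finsupp.ne_iff.1 fun h : ρ B = 0 => B0 (by rw [← back hρ hB, h, map_zero])
  replace B₀ : ρ B g₀ ≠ 0 := B₀
  have cB := coef hρ hB g₀
  obtain ⟨x, β, hβ, e1⟩ : ∃ (x : K) (m : Fin N → ℕ), (∀ j, u j = 0 → m j = 0) ∧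
      (x, g₀) = (∏ j, s j ^ m j, dg a m, fun _ => 0) := by
    by_contra h
    exact B₀ ((Submodule.span_le (p := ⊥)).2 (fun x hx => (h ⟨x, hx⟩).elim) cB)
  obtain ⟨-, rfl⟩ := Prod.ext_iff.1 e1
  have sB : ρ B (dg a β, fun _ => 0) ∈ Sp s a (dg a β) := Submodule.span_mono (by
    rintro _ ⟨m, -, e2⟩
    obtain ⟨e3, e4⟩ := Prod.ext_iff.1 e2
    exact ⟨m, (congrArg Prod.fst e4).symm, e3.symm⟩) cB
  set B' := ρ B (dg a β, fun _ => 0) with hB'
  obtain ⟨γ, γ1, γ2⟩ : ∃ γ : Fin N → ℕ, (∀ j, u j = 0 → γ j = 0) ∧ dg a β + dg a γ = 0 := by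
    refine ⟨fun j => (∑ i, β i) * u j - β j, fun j h => by simp [h], ?_⟩
    have : (β + fun j => (∑ i, β i) * u j - β j) = fun j => (∑ i, β i) * u j := funext fun j => by
      refine Nat.add_sub_cancel' ?_
      rcases (u j).eq_zero_or_pos with h | h
      · simp [hβ j h]
      · exact (Finset.single_le_sum (fun _ _ => Nat.zero_le _) (Finset.mem_univ j)).trans
          (Nat.le_mul_of_pos_right _ h)
    rw [← dg_add, this]
    funext i
    have := congrFun H.gt.inv i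
    simp only [dg, Pi.zero_apply] at this ⊢
    simp only [Nat.cast_mul, mul_assoc, ← Finset.mul_sum, this, mul_zero]
  have o1 := H.hq _ (γ2 ▸ sp_mul sB (mon_mem s a γ)) (mul_ne_zero B₀ (s0 γ))
  rw [Pl.ord_mul _ B₀ (s0 γ)] at o1
  have xp : ∀ i : ℕ, (algebraMap F E (hm t φ e) / τ ^ N₀) ^ i =
      φ ^ i • μ ((i : ℤ) • e, fun _ => -(i * N₀)) := fun i => by
    rw [μe, hm_pow t0, map_pow, div_pow, ← zpow_natCast (τ ^ N₀), ← zpow_mul, zpow_neg, mul_comm N₀,
      div_eq_mul_inv]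
  have e5 := congrArg (fun x => ρ x ((dg a β, fun _ => 0) + ((n : ℤ) • e, fun _ => -(n * N₀)))) eq
  simp only [xp, shift hμ hρ hB, map_sum, Finsupp.finsetSum_apply] at e5
  by_contra hn
  have : B' * φ ^ n ∈ Q.sub (-(Q.ord (B' * φ ^ n) + 1)) := by
    rw [hB', e5]
    refine sum_mem fun i h => ?_
    have h := Finset.mem_range.1 h
    obtain ⟨r, rfl⟩ := Nat.exists_eq_add_of_lt h
    have e6 : ((dg a β, fun _ => 0) + (((i + r + 1 : ℕ) : ℤ) • e,
        fun _ => -((i + r + 1 : ℕ) * N₀)) : (Fin k → ℤ) × (Fin 1 → ℤ)) =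
        (dg a β + ((r + 1 : ℕ) : ℤ) • e, fun _ => -((r + 1 : ℕ) * N₀)) +
          ((i : ℤ) • e, fun _ => -(i * N₀)) := by
      refine Prod.ext (funext fun _ => ?_) (funext fun _ => ?_) <;> simp <;> ring
    rw [← e5, e6, shift hμ hρ (hC i h)]
    refine Submodule.span_induction (p := fun x _ => x * φ ^ i ∈ Q.sub _) ?_ (by simp)
      (fun x y _ _ hx hy => by rw [add_mul]; exact add_mem hx hy)
      (fun c x _ hx => by rw [smul_mul_assoc]; exact Submodule.smul_mem _ _ hx)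
      (coef hρ (hC i h) _)
    rintro _ ⟨m, r', h1, e2⟩
    obtain ⟨rfl, e4⟩ := Prod.ext_iff.1 e2
    obtain ⟨e7, e8⟩ := Prod.ext_iff.1 e4
    have e9 : -(((r + 1 : ℕ) : ℤ) * N₀) = r' := congrFun e8 0
    have e7 : dg a β + ((r + 1 : ℕ) : ℤ) • e = dg a m := e7
    have h2 : ((r + 1 : ℕ) : ℤ) * Q.ord φ < Q.ord (∏ j, s j ^ (m + γ) j) := by
      refine not_le.1 fun h3 => hn ⟨r + 1, m + γ, r.succ_pos, ?_, ?_, h3⟩
      · rw [dg_add, ← e7, add_right_comm, γ2, zero_add]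
      · have : ∑ j, (v j : ℤ) * ((m + γ) j : ℕ) = ∑ j, (v j : ℤ) * m j :=
          Finset.sum_congr rfl fun j _ => by
            rcases (u j).eq_zero_or_pos with h | h
            · simp [γ1 j h]
            · simp [hv j h]
        omega
    rw [sm, Pl.ord_mul _ (s0 m) (s0 γ)] at h2
    refine Q.mem_sub.2 (Or.inr ?_)
    rw [← hB', Pl.ord_mul _ (s0 m) (pow_ne_zero _ φ0), Pl.ord_mul _ B₀ (pow_ne_zero _ φ0),
      Pl.ord_pow, Pl.ord_pow]
    have : Q.ord B' + ((i + r + 1 : ℕ) : ℤ) * Q.ord φ + 1 ≤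
        Q.ord (∏ j, s j ^ m j) + (i : ℤ) * Q.ord φ := by push_cast at h2 ⊢; linarith
    have := (Int.cast_le (R := ℝ)).2 this
    push_cast at this ⊢
    linarith
  rcases Q.mem_sub.1 this with h | h
  · exact mul_ne_zero B₀ (pow_ne_zero _ φ0) h
  · linarith

end Vale.Agent.P283R.Hz
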