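import Vale.Agent.P283R.Hz.St
import Vale.Agent.P283R.Cx.Bas

/-!
# P283R, block HZ: the relations are homogeneous and vanish at the vertex
-/

open Set MvPolynomial

noncomputable section

namespace Vale.Agent.P283R.Hz

open Vale.Agent.P287D Vale.Agent.P283M Vale.Agent.P283R.Cx

namespace Cp

variable {K F : Type} [Field K] [Algebra ℂ K] [Field F] [Algebra ℂ F] [Algebra K F] {k N : ℕ}
  {t : Fin k → F} {s : Fin N → K} {a : Fin N → Fin k → ℤ} {u : Fin N → ℕ} {l : Fin k → ℤ}

theorem wt_eq (a : Fin N → Fin k → ℤ) (m : Fin N →₀ ℕ) : Finsupp.weight a m = dg a m := by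
  funext i
  rw [Finsupp.weight_apply, Finsupp.sum_fintype _ _ (by simp)]
  simp [dg, Finset.sum_apply]

theorem ev_mon {A : Type} [CommRing A] [Algebra ℂ A] (x : Fin N → A) (m : Fin N →₀ ℕ) (c : ℂ) :
    aeval x (monomial m c) = c • ∏ j, x j ^ m j := by
  rw [aeval_monomial, Finsupp.prod_fintype _ _ (by simp), Algebra.smul_def]

theorem ev_sum {A : Type} [CommRing A] [Algebra ℂ A] (x : Fin N → A)
    (P : MvPolynomial (Fin N) ℂ) :
    aeval x P = ∑ m ∈ P.support, coeff m P • ∏ j, x j ^ m j := by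
  conv_lhs => rw [P.as_sum, map_sum]
  exact Finset.sum_congr rfl fun m _ => ev_mon x m _

theorem ev_cmp {A : Type} [CommRing A] [Algebra ℂ A] (x : Fin N → A) (e : Fin k → ℤ)
    (P : MvPolynomial (Fin N) ℂ) : aeval x (weightedHomogeneousComponent a e P) =
      ∑ m ∈ P.support.filter fun m : Fin N →₀ ℕ => dg a m = e, coeff m P • ∏ j, x j ^ m j := by
  rw [weightedHomogeneousComponent_apply, map_sum]
  simp only [wt_eq]
  exact Finset.sum_congr rfl fun m _ => ev_mon x m _

theorem dg_dot (a : Fin N → Fin k → ℤ) (m : Fin N → ℕ) (l : Fin k → ℤ) :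
    dg a m ⬝ᵥ l = ∑ j, m j * (a j ⬝ᵥ l) := by
  simp only [dotProduct, dg, Finset.sum_mul, Finset.mul_sum, mul_assoc]
  exact Finset.sum_comm

omit [Algebra ℂ K] [Algebra ℂ F] in
/-- on the face the monomials do not see the vertex -/
theorem kl_on (h : Gt a u l) (z : Fin N → F) {m : Fin N → ℕ} (hm : dg a m ⬝ᵥ l = 0) :
    ∏ j, kl u z j ^ m j = ∏ j, z j ^ m j := by
  refine Finset.prod_congr rfl fun j _ => ?_
  rw [kl]
  split_ifs with c
  · rw [dg_dot, Finset.sum_eq_zero_iff_of_nonneg fun j _ =>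
      mul_nonneg (Nat.cast_nonneg _) (h.pos j)] at hm
    have h1 : a j ⬝ᵥ l ≠ 0 := fun x => by have := (h.iff j).2 x; omega
    have h2 : m j = 0 := by exact_mod_cast (mul_eq_zero.1 (hm j (Finset.mem_univ j))).resolve_right h1
    rw [h2, pow_zero, pow_zero]
  · rfl

omit [Algebra ℂ K] [Algebra ℂ F] in
/-- off the face the monomials vanish at the vertex -/
theorem kl_off (h : Gt a u l) (z : Fin N → F) {m : Fin N → ℕ} (hm : dg a m ⬝ᵥ l ≠ 0) :
    ∏ j, kl u z j ^ m j = 0 := by
  rw [dg_dot] at hm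
  obtain ⟨j, -, hj⟩ := Finset.exists_ne_zero_of_sum_ne_zero hm
  have h1 : u j = 0 := by
    by_contra c
    exact right_ne_zero_of_mul hj ((h.iff j).1 (Nat.pos_of_ne_zero c))
  refine Finset.prod_eq_zero (Finset.mem_univ j) ?_
  rw [kl, if_pos h1, zero_pow fun x => hj (by simp [x])]

omit [Algebra ℂ K] [Algebra ℂ F] in
theorem hm_sum (t : Fin k → F) {ι : Type} (T : Finset ι) (φ : ι → K) (e : Fin k → ℤ) :
    hm t (∑ i ∈ T, φ i) e = ∑ i ∈ T, hm t (φ i) e := by
  simp [hm, Finset.sum_mul]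

variable [IsScalarTower ℂ K F]

/-- the value of a component -/
theorem cmp_hm (ht : ∀ i, t i ≠ 0) (e : Fin k → ℤ) (P : MvPolynomial (Fin N) ℂ) :
    aeval (zz t s a) (weightedHomogeneousComponent a e P) =
      hm t (aeval s (weightedHomogeneousComponent a e P)) e := by
  rw [ev_cmp, ev_cmp, hm_sum]
  refine Finset.sum_congr rfl fun m hm' => ?_
  have he : dg a m = e := (Finset.mem_filter.1 hm').2
  rw [hm_smul, ← he, hm_prod ht]
  rfl

/-- the value of a homogeneous polynomial -/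
theorem hom_hm (ht : ∀ i, t i ≠ 0) {e : Fin k → ℤ} {P : MvPolynomial (Fin N) ℂ}
    (h : ∀ m ∈ P.support, dg a m = e) : aeval (zz t s a) P = hm t (aeval s P) e := by
  rw [ev_sum, ev_sum, hm_sum]
  refine Finset.sum_congr rfl fun m hm' => ?_
  rw [hm_smul, ← h m hm', hm_prod ht]
  rfl

theorem cmp_zero (ht : AlgebraicIndependent K t) {P : MvPolynomial (Fin N) ℂ}
    (h : aeval (zz t s a) P = 0) (e : Fin k → ℤ) :
    aeval s (weightedHomogeneousComponent a e P) = 0 := by
  have z : (∑ m ∈ P.support, Finsupp.single (dg a m) (coeff m P • ∏ j, s j ^ m j)) = 0 := by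
    refine lv_inj ht ?_
    rw [← h, ev_sum]
    induction P.support using Finset.induction_on with
    | empty => simp [lv_zero]
    | insert m T hm' ih =>
      rw [Finset.sum_insert hm', Finset.sum_insert hm', lv_add, ih, lv_single, hm_smul,
        hm_prod ht.ne_zero]
      rfl
  have := DFunLike.congr_fun z e
  rw [Finsupp.finsetSum_apply] at this
  rw [ev_cmp, Finset.sum_filter]
  simpa only [Finsupp.single_apply, Finsupp.zero_apply] using this

theorem cmp_zz (ht : AlgebraicIndependent K t) {P : MvPolynomial (Fin N) ℂ}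
    (h : aeval (zz t s a) P = 0) (e : Fin k → ℤ) :
    aeval (zz t s a) (weightedHomogeneousComponent a e P) = 0 := by
  rw [cmp_hm ht.ne_zero, cmp_zero ht h, hm_zero]

theorem kl_zero (ht : AlgebraicIndependent K t) (g : Gt a u l) {P : MvPolynomial (Fin N) ℂ}
    (h : aeval (zz t s a) P = 0) : aeval (kl u (zz t s a)) P = 0 := by
  rw [ev_sum, ← Finset.sum_fiberwise_of_maps_to (g := fun m : Fin N →₀ ℕ => dg a m)
    (t := P.support.image fun m : Fin N →₀ ℕ => dg a m) fun m hm' => Finset.mem_image_of_mem _ hm']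
  refine Finset.sum_eq_zero fun e _ => ?_
  by_cases c : e ⬝ᵥ l = 0
  · refine Eq.trans ?_ (cmp_zz ht h e)
    rw [ev_cmp]
    refine Finset.sum_congr rfl fun m hm' => ?_
    have he : dg a m = e := (Finset.mem_filter.1 hm').2
    rw [kl_on g _ (he ▸ c)]
  · refine Finset.sum_eq_zero fun m hm' => ?_
    have he : dg a m = e := (Finset.mem_filter.1 hm').2
    rw [kl_off g _ (he ▸ c), smul_zero]

end Cp

/-- **CPT** -/
theorem cpt : CPT := fun _ _ _ _ _ _ _ _ _ _ _ _ _ _ _ _ _ _ _ _ _ _ _ _ _ _ H _ h =>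
  ⟨Cp.kl_zero H.ext.ind H.gt h, Cp.cmp_zz H.ext.ind h⟩

end Vale.Agent.P283R.Hz
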