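import Vale.Agent.P283R.Hz.St
import Vale.Agent.P283R.Cy.Tpb

/-!
# P283R, block HZ: a superfluous variable is replaced by the inverse of a function on the base
-/

open Set MvPolynomial

noncomputable section

namespace Vale.Agent.P283R.Hz

open Vale.Agent.P287D Vale.Agent.P283M Vale.Agent.P283R.Cx Vale.Agent.P283R.Cy Vale.Agent.P297Z

namespace Cxs

variable {K : Type} [Field K] [Algebra ℂ K] {k N : ℕ} {s s' : Fin N → K}
  {a a' : Fin N → Fin k → ℤ} {u : Fin N → ℕ} {j : Fin N} {B P : MvPolynomial (Fin N) ℂ}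
  {T : Set (Pl K)} {D : Pl K → Fin k → ℤ}

theorem gen (s : Fin N → K) (a : Fin N → Fin k → ℤ) (j : Fin N) : s j ∈ Sp s a (a j) := by
  have := mon_mem s a (Pi.single j 1)
  rwa [dg_single, Finset.prod_eq_single j (fun l _ h => by simp [h]) (by simp),
    Pi.single_eq_same, pow_one] at this

theorem one (s : Fin N → K) (a : Fin N → Fin k → ℤ) : (1 : K) ∈ Sp s a 0 := by
  simpa [dg_zero a] using mon_mem s a 0

theorem pow {φ : K} {e : Fin k → ℤ} (h : φ ∈ Sp s a e) (n : ℕ) : φ ^ n ∈ Sp s a ((n : ℤ) • e) := by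
  induction n with
  | zero => simpa using one s a
  | succ n ih => rw [pow_succ, Nat.cast_succ, add_smul, one_smul]; exact sp_mul ih h

/-- monomials in elements of the graded ring -/
theorem prod (c : Fin N → ℕ) (h : ∀ i, c i ≠ 0 → s i ∈ Sp s' a' (a i)) :
    ∏ i, s i ^ c i ∈ Sp s' a' (dg a c) := by
  have : ∀ T : Finset (Fin N), ∏ i ∈ T, s i ^ c i ∈ Sp s' a' (∑ i ∈ T, (c i : ℤ) • a i) :=
    fun T => by
      induction T using Finset.induction_on with
      | empty => simpa using one s' a'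
      | insert i T hi ih =>
        rw [Finset.prod_insert hi, Finset.sum_insert hi]
        refine sp_mul ?_ ih
        by_cases z : c i = 0
        · simpa [z] using one s' a'
        · exact pow (h i z) _
  have e : dg a c = ∑ i, (c i : ℤ) • a i := funext fun i => by simp [dg]
  exact e ▸ this _

theorem aev {G : MvPolynomial (Fin N) ℂ} {e : Fin k → ℤ}
    (h : ∀ m ∈ G.support, ∏ i, s i ^ m i ∈ Sp s' a' e) : aeval s G ∈ Sp s' a' e := by
  rw [aeval_def, eval₂_eq']
  exact sum_mem fun m hm => by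
    rw [← Algebra.smul_def]
    exact Submodule.smul_mem _ _ (h m hm)

theorem base (l : Ln s a u j B P) : aeval s B ∈ Sp s a 0 :=
  aev fun m hm => l.hB m hm ▸ mon_mem s a m

theorem old (l : Ln s a u j B P) (i : Fin N) :
    s i ∈ Sp (Function.update s j (aeval s B)⁻¹) (Function.update a j 0) (a i) := by
  have o : ∀ i, i ≠ j →
      s i ∈ Sp (Function.update s j (aeval s B)⁻¹) (Function.update a j 0) (a i) := fun i h => by
    simpa [h] using gen (Function.update s j (aeval s B)⁻¹) (Function.update a j 0) i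
  by_cases h : i = j
  · subst h
    have b := gen (Function.update s i (aeval s B)⁻¹) (Function.update a i 0) i
    rw [Function.update_self, Function.update_self] at b
    have := sp_mul b (aev (G := P) (s := s) (e := a i) fun m hm => (l.hP m hm).1 ▸
      prod m fun i' z => o i' fun e => z (e ▸ (l.hP m hm).2))
    rwa [← l.eq, inv_mul_cancel_left₀ l.ne, zero_add] at this
  · exact o i h

theorem le (l : Ln s a u j B P) (e : Fin k → ℤ) :
    Sp s a e ≤ Sp (Function.update s j (aeval s B)⁻¹) (Function.update a j 0) e :=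
  Submodule.span_le.2 (by
    rintro _ ⟨c, rfl, rfl⟩
    exact prod c fun i _ => old l i)

theorem ne (x : Cox T D s a) (l : Ln s a u j B P) (i : Fin N) :
    Function.update s j (aeval s B)⁻¹ i ≠ 0 := by
  by_cases h : i = j
  · subst h; simpa using l.ne
  · simpa [h] using x.ne i

theorem nn (x : Cox T D s a) (l : Ln s a u j B P) {e : Fin k → ℤ} {φ : K} (φ0 : φ ≠ 0)
    (h : φ ∈ Sp (Function.update s j (aeval s B)⁻¹) (Function.update a j 0) e) :
    ∀ R ∈ {R | R ∈ T ∧ R.ord (aeval s B) = 0}, 0 ≤ R.ord φ + e ⬝ᵥ D R := fun R hR => by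
  have c : ∀ e : Fin k → ℤ, pa e (fun i => (D R i : ℝ)) = (e ⬝ᵥ D R : ℤ) := fun e => by
    simp [pa, dotProduct]
  have := Tpb.wt (ne x l) (P := R) (ξ := fun i => (D R i : ℝ)) (fun i => by
    rw [c]
    by_cases z : i = j
    · subst z
      simp [Pl.ord_inv, hR.2]
    · rw [Function.update_of_ne z, Function.update_of_ne z]
      exact_mod_cast (x.sec _ _ (x.ne i)).1 (gen s a i) R hR.1) h φ0
  rw [c] at this
  exact_mod_cast this

theorem clr (x : Cox T D s a) (l : Ln s a u j B P) {e : Fin k → ℤ} {φ : K} (φ0 : φ ≠ 0)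
    (h : ∀ R ∈ {R | R ∈ T ∧ R.ord (aeval s B) = 0}, 0 ≤ R.ord φ + e ⬝ᵥ D R) :
    ∃ C : ℕ, aeval s B ^ C * φ ∈ Sp s a e := by
  classical
  obtain ⟨C, hC⟩ := ((x.fin φ e).toFinset.image fun R =>
    (-(R.ord φ + e ⬝ᵥ D R)).toNat).exists_le
  refine ⟨C, (x.sec _ _ (mul_ne_zero (pow_ne_zero _ l.ne) φ0)).2 fun R hR => ?_⟩
  have b := (x.sec _ _ l.ne).1 (base l) R hR
  rw [zero_dotProduct, add_zero] at b
  rw [Pl.ord_mul _ (pow_ne_zero _ l.ne) φ0, Pl.ord_pow, add_assoc]
  by_cases z : R.ord (aeval s B) = 0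
  · rw [z, mul_zero, zero_add]
    exact h R ⟨hR, z⟩
  have k4 : (C : ℤ) * 1 ≤ C * R.ord (aeval s B) :=
    mul_le_mul_of_nonneg_left (by omega) (Int.natCast_nonneg C)
  by_cases w : R.ord φ + e ⬝ᵥ D R = 0
  · omega
  · have := hC _ (Finset.mem_image_of_mem _ ((Finite.mem_toFinset _).2 ⟨hR, w⟩))
    omega

theorem cox (x : Cox T D s a) (l : Ln s a u j B P) : Cox {R | R ∈ T ∧ R.ord (aeval s B) = 0} D
    (Function.update s j (aeval s B)⁻¹) (Function.update a j 0) := by
  refine ⟨ne x l, fun e φ φ0 => ⟨nn x l φ0, fun h => ?_⟩,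
    fun φ e => (x.fin φ e).subset fun R h => ⟨h.1.1, h.2⟩, fun φ => ?_, fun e => ?_⟩
  · obtain ⟨C, hC⟩ := clr x l φ0 h
    have b := gen (Function.update s j (aeval s B)⁻¹) (Function.update a j 0) j
    rw [Function.update_self, Function.update_self] at b
    have := sp_mul (pow b C) (le l e hC)
    rwa [inv_pow, inv_mul_cancel_left₀ (pow_ne_zero _ l.ne), smul_zero, zero_add] at this
  · obtain ⟨e, b, hb, c, hc, h⟩ := x.fr0 φ
    exact ⟨e, b, le l _ hb, c, le l _ hc, h⟩
  · obtain ⟨e', b, hb, c, hc, h⟩ := x.fr1 e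
    exact ⟨e', b, le l _ hb, c, le l _ hc, h⟩

end Cxs

open Cxs in
/-- **CXS** -/
theorem cxs : CXS := by
  intro K F _ _ _ _ _ _ d k N q ε y t T D s a u l h₀ g e₀ b Q z j B P n
  refine ⟨z.q0, z.ε0, z.ext, z.fr, cox z.cox n, ⟨z.can.1, fun R h => z.can.2 R h.1⟩, z.g0,
    le n _ z.gs, fun R ξ h => z.hw R ξ fun i => Tpb.wt (ne z.cox n) h (old n i) (z.cox.ne i),
    fun ξ h => z.lw ξ fun i => ?_, ⟨?_, fun i => ?_, fun i => ?_⟩, fun x hx x0 => ?_⟩
  · obtain ⟨c, hc⟩ := Hl.exists_dg (old n i) (z.cox.ne i)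
    rw [← hc, Tpb.pa_dg]
    exact Finset.sum_nonneg fun i _ => mul_nonneg (Nat.cast_nonneg _) (h i)
  · refine Eq.trans (funext fun i => Finset.sum_congr rfl fun i' _ => ?_) z.gt.inv
    by_cases e : i' = j
    · subst e; simp [n.off]
    · simp [e]
  · by_cases e : i = j
    · subst e; simp
    · simpa [e] using z.gt.pos i
  · by_cases e : i = j
    · subst e; simp
    · simpa [e] using z.gt.iff i
  · obtain ⟨C, hC⟩ := clr z.cox n x0 (nn z.cox n x0 hx)
    have := z.hq _ hC (mul_ne_zero (pow_ne_zero _ n.ne) x0)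
    rwa [Pl.ord_mul _ (pow_ne_zero _ n.ne) x0, Pl.ord_pow, z.hq _ (base n) n.ne, mul_zero,
      zero_add] at this

end Vale.Agent.P283R.Hz
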