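import Vale.Agent.P283R.Hz.St
import Vale.Agent.P283R.Cx.Aff
import Vale.Agent.P283R.Cx.Lar
import Mathlib.RingTheory.MvPolynomial.EulerIdentity

/-!
# P283R, block HZ: the degree of the canonical class
-/

open Set MvPolynomial
open Vale.Agent.P285N.Brep (jac Fr)

noncomputable section

namespace Vale.Agent.P283R.Hz

open Vale.Agent.P287D Vale.Agent.P283M Vale.Agent.P283R.Cx Vale.Agent.P283R.Cy Vale.Agent.P297Z
open Vale.Agent.P283R.To (mon mon_add mon_ne)

namespace Deg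

variable {K F : Type} [Field K] [Algebra ℂ K] [Field F] [Algebra ℂ F] [Algebra K F] {d k N : ℕ}
  {t : Fin k → F} {s : Fin N → K} {a : Fin N → Fin k → ℤ} {u : Fin N → ℕ} {l : Fin k → ℤ}

theorem dg_sum (a : Fin N → Fin k → ℤ) (m : Fin N → ℕ) : dg a m = ∑ j, (m j : ℤ) • a j := by
  funext i
  simp [dg, Finset.sum_apply]

theorem wt_eq (a : Fin N → Fin k → ℤ) (m : Fin N →₀ ℕ) : Finsupp.weight a m = dg a m := by
  rw [Finsupp.weight_apply, Finsupp.sum_fintype _ _ (by simp), dg_sum]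
  simp

theorem dg_dot (m : Fin N → ℕ) : dg a m ⬝ᵥ l = ∑ j, (m j : ℤ) * (a j ⬝ᵥ l) := by
  rw [dg_sum, sum_dotProduct]
  simp only [smul_dotProduct, smul_eq_mul]

theorem dot_nn (g : Gt a u l) (m : Fin N → ℕ) : 0 ≤ dg a m ⬝ᵥ l :=
  dg_dot m ▸ Finset.sum_nonneg fun j _ => mul_nonneg (Nat.cast_nonneg _) (g.pos j)

theorem dot_iff (g : Gt a u l) (m : Fin N → ℕ) : dg a m ⬝ᵥ l = 0 ↔ ∀ j, u j = 0 → m j = 0 := by
  rw [dg_dot, Finset.sum_eq_zero_iff_of_nonneg fun j _ => mul_nonneg (Nat.cast_nonneg _) (g.pos j)]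
  refine forall_congr' fun j => ?_
  rw [mul_eq_zero, ← g.iff, Nat.cast_eq_zero]
  simp only [Finset.mem_univ, true_imp_iff]
  omega

omit [Algebra ℂ K] [Algebra ℂ F] in
theorem mon_sum' {ι : Type} (ht : ∀ i, t i ≠ 0) (T : Finset ι) (α : ι → Fin k → ℤ) :
    mon t (∑ i ∈ T, α i) = ∏ i ∈ T, mon t (α i) := by
  classical
  induction T using Finset.induction_on with
  | empty => simp [mon_zero]
  | insert i T hi ih => rw [Finset.sum_insert hi, Finset.prod_insert hi, mon_add ht, ih]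

omit [Algebra ℂ K] [Algebra ℂ F] in
theorem det_hm {n : ℕ} (ht : ∀ i, t i ≠ 0) (ψ : Fin n → Fin n → K) (α β : Fin n → Fin k → ℤ) :
    (Matrix.of fun i j => hm t (ψ i j) (α i + β j)).det =
      hm t (Matrix.of ψ).det (∑ i, α i + ∑ j, β j) := by
  have : (Matrix.of fun i j => hm t (ψ i j) (α i + β j)) = Matrix.of fun i j => mon t (α i) *
      (Matrix.of fun i j => mon t (β j) * ((algebraMap K F).mapMatrix (Matrix.of ψ)) i j) i j := by
    ext i j
    simp only [Matrix.of_apply, hm, mon_add ht, RingHom.mapMatrix_apply, Matrix.map_apply]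
    ring
  rw [this, Matrix.det_mul_column, Matrix.det_mul_row, ← RingHom.map_det, hm, mon_add ht,
    mon_sum' ht, mon_sum' ht]
  ring

omit [Algebra ℂ K] [Algebra K F] in
theorem der_mon (ht : ∀ i, t i ≠ 0) (D : Derivation ℂ F F) (e : Fin k → ℤ) :
    D (mon t e) = (∑ i, e i * (D (t i) / t i)) * mon t e := by
  classical
  have : ∀ T : Finset (Fin k), D (∏ i ∈ T, t i ^ e i) =
      (∑ i ∈ T, e i * (D (t i) / t i)) * ∏ i ∈ T, t i ^ e i := fun T => by
    induction T using Finset.induction_on with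
    | empty => simp
    | insert i T hi ih =>
      rw [Finset.sum_insert hi, Finset.prod_insert hi, D.leibniz, ih, D.leibniz_zpow,
        zpow_sub_one₀ (ht i)]
      simp only [smul_eq_mul, zsmul_eq_mul, div_eq_mul_inv]
      ring
  exact this _

variable [IsScalarTower ℂ K F]

/-- the components of the value of a polynomial -/
def cp (s : Fin N → K) (a : Fin N → Fin k → ℤ) (P : MvPolynomial (Fin N) ℂ) :
    (Fin k → ℤ) →₀ K :=
  ∑ m ∈ P.support, Finsupp.single (dg a m) (coeff m P • ∏ j, s j ^ m j)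

variable (K t) in
/-- `lv` is additive -/
def lh : ((Fin k → ℤ) →₀ K) →+ F := AddMonoidHom.mk' (lv t) (lv_add t)

theorem ev (ht : ∀ i, t i ≠ 0) (P : MvPolynomial (Fin N) ℂ) : aeval (zz t s a) P =
    ∑ m ∈ P.support, hm t (coeff m P • ∏ j, s j ^ m j) (dg a m) := by
  rw [aeval_def, eval₂_eq']
  refine Finset.sum_congr rfl fun m _ => ?_
  rw [hm_smul, hm_prod ht, Algebra.smul_def]
  rfl

theorem lv_cp (ht : ∀ i, t i ≠ 0) (P : MvPolynomial (Fin N) ℂ) :
    lv t (cp s a P) = aeval (zz t s a) P :=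
  (map_sum (lh K t) _ _).trans
    ((Finset.sum_congr rfl fun _ _ => lv_single t _ _).trans (ev ht P).symm)

omit [IsScalarTower ℂ K F] in
theorem cp_ne {P : MvPolynomial (Fin N) ℂ} {e : Fin k → ℤ} (h : cp s a P e ≠ 0) :
    ∃ m, dg a m = e := by
  classical
  rw [cp, Finsupp.finsetSum_apply] at h
  obtain ⟨m, -, z⟩ := Finset.exists_ne_zero_of_sum_ne_zero h
  exact ⟨m, by_contra fun c => z (Finsupp.single_eq_of_ne' c)⟩

theorem cp_kl (ht : ∀ i, t i ≠ 0) (g : Gt a u l) {P : MvPolynomial (Fin N) ℂ}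
    (h : aeval (kl u (zz t s a)) P ≠ 0) : ∃ e, e ⬝ᵥ l = 0 ∧ cp s a P e ≠ 0 := by
  classical
  by_contra c
  push Not at c
  have z : (cp s a P).filter (· ⬝ᵥ l = 0) = 0 := (Finsupp.filter_eq_zero_iff _ _).2 c
  have w := congrArg (lh K t) z
  rw [map_zero, cp, Finsupp.filter_sum, map_sum] at w
  refine h ?_
  rw [aeval_def, eval₂_eq', ← w]
  refine Finset.sum_congr rfl fun m _ => ?_
  by_cases v : dg a m ⬝ᵥ l = 0
  · rw [Finsupp.filter_single_of_pos (p := (· ⬝ᵥ l = 0)) v]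
    refine Eq.trans ?_ (lv_single t _ _).symm
    rw [hm_smul, hm_prod ht, Algebra.smul_def]
    refine congrArg _ (Finset.prod_congr rfl fun j _ => ?_)
    rw [kl]
    split_ifs with b
    · rw [(dot_iff g m).1 v j b, pow_zero, pow_zero]
    · rfl
  · rw [Finsupp.filter_single_of_neg (p := (· ⬝ᵥ l = 0)) v, map_zero]
    rw [dot_iff g] at v
    push Not at v
    obtain ⟨j, b, b'⟩ := v
    rw [Finset.prod_eq_zero (Finset.mem_univ j) (by rw [kl, if_pos b, zero_pow b']), mul_zero]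

theorem half (ht : AlgebraicIndependent K t) {φ φ' : K} (φ0 : φ' ≠ 0) {x x' e : Fin k → ℤ}
    {A B : MvPolynomial (Fin N) ℂ}
    (h : hm t φ x * aeval (zz t s a) B = hm t φ' x' * aeval (zz t s a) A) (he : cp s a A e ≠ 0) :
    ∃ m, x + dg a m = x' + e := by
  obtain ⟨ψ, k1, k2⟩ := lv_shift ht.ne_zero (cp s a B) φ x
  obtain ⟨ψ', k3, k4⟩ := lv_shift ht.ne_zero (cp s a A) φ' x'
  have : ψ - ψ' = 0 := lv_inj ht ((map_sub (lh K t) _ _).trans (sub_eq_zero.2 (by
    change lv t ψ = lv t ψ'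
    rw [k2, k4, lv_cp ht.ne_zero, lv_cp ht.ne_zero, mul_comm, h, mul_comm])))
  have z := mul_ne_zero he φ0
  rw [← k3, ← sub_eq_zero.1 this, ← sub_add_cancel (e + x') x, k1] at z
  obtain ⟨m, hm⟩ := cp_ne (left_ne_zero_of_mul z)
  exact ⟨m, by rw [hm]; ring⟩

/-- the degree of a homogeneous unit at the vertex -/
theorem unit (ht : AlgebraicIndependent K t) (g : Gt a u l) {φ φ' : K} (φ0 : φ ≠ 0) (φ1 : φ' ≠ 0)
    {x x' : Fin k → ℤ} {A B : MvPolynomial (Fin N) ℂ} (hA : aeval (kl u (zz t s a)) A ≠ 0)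
    (hB : aeval (kl u (zz t s a)) B ≠ 0)
    (h : hm t φ x * aeval (zz t s a) B = hm t φ' x' * aeval (zz t s a) A) :
    ∃ m m' : Fin N → ℕ, (∀ j, u j = 0 → m j = 0) ∧ (∀ j, u j = 0 → m' j = 0) ∧
      x + dg a m = x' + dg a m' := by
  obtain ⟨e, e0, e1⟩ := cp_kl ht.ne_zero g hA
  obtain ⟨e', e2, e3⟩ := cp_kl ht.ne_zero g hB
  obtain ⟨m, hm⟩ := half ht φ1 h e1
  obtain ⟨n, hn⟩ := half ht φ0 h.symm e3
  obtain ⟨m', rfl⟩ := cp_ne e1
  have b1 := congrArg (· ⬝ᵥ l) hm
  have b2 := congrArg (· ⬝ᵥ l) hn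
  simp only [add_dotProduct] at b1 b2
  have b3 := dot_nn g m
  have b4 := dot_nn g n
  exact ⟨m, m', (dot_iff g m).1 (by omega), (dot_iff g m').1 e0, hm⟩

theorem ev_hom (ht : ∀ i, t i ≠ 0) {P : MvPolynomial (Fin N) ℂ} {e : Fin k → ℤ}
    (h : P.IsWeightedHomogeneous a e) : ∃ φ : K, aeval (zz t s a) P = hm t φ e := by
  refine ⟨∑ m ∈ P.support, coeff m P • ∏ j, s j ^ m j, ?_⟩
  rw [ev ht, hm, map_sum, Finset.sum_mul]
  exact Finset.sum_congr rfl fun m c => by rw [← wt_eq, h (mem_support_iff.1 c), hm]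

/-- the derivations which are dual to `(y, t)` are homogeneous -/
theorem der_hm {y : Fin d → K} (ht : ∀ i, t i ≠ 0) (hy : Frm y)
    {E : Fin (d + k) → Derivation ℂ F F} (hE : Fr (zt y t) E) (i : Fin (d + k)) (φ : K)
    (e : Fin k → ℤ) : ∃ ψ : K, E i (hm t φ e) =
      hm t ψ (Fin.append (fun _ : Fin d => 0) (fun l => -Pi.single l 1) i + e) := by
  obtain ⟨E₀, h₀⟩ := hy
  have k1 := Cb.expand ((Cb.dr_of (E i)).comp (algebraMap K F)) (fun c => by
    rw [← IsScalarTower.algebraMap_apply]; exact (E i).map_algebraMap c) h₀ φ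
  have k2 : ∀ j, E i (algebraMap K F (y j)) = if i = Fin.castAdd k j then 1 else 0 := fun j => by
    simpa [zt] using hE.dual i (Fin.castAdd k j)
  have k3 : ∀ j, E i (t j) = if i = Fin.natAdd d j then 1 else 0 := fun j => by
    simpa [zt] using hE.dual i (Fin.natAdd d j)
  have ne : ∀ (j : Fin d) (l : Fin k), Fin.castAdd k j ≠ Fin.natAdd d l := fun j l c => by
    have := congrArg Fin.val c
    simp only [Fin.val_castAdd, Fin.val_natAdd] at this
    omega
  simp only [k2] at k1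
  rw [hm, (E i).leibniz, der_mon ht, k1]
  simp only [k3]
  induction i using Fin.addCases with
  | left i =>
    refine ⟨E₀ i φ, ?_⟩
    simp [ne, hm, mul_comm]
  | right i =>
    refine ⟨e i * φ, ?_⟩
    have := hm_inv ht (1 : K) (Pi.single i 1)
    rw [inv_one, hm_single] at this
    rw [Fin.append_right, ← one_mul (_ * φ), hm_mul ht, this, hm,
      Finset.sum_eq_single i (fun j _ c => by simp [c.symm]) (by simp)]
    simp [(ne _ _).symm]
    ring

end Deg

open Deg in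
/-- **DEG** -/
theorem deg_of (h1 : UNT) (h2 : FRM) : DEG := by
  intro K F _ _ _ _ _ _ d k N q ε y t T D s a u l h₀ g e₀ b Q X c f β hN pv hβ
  have ht := X.ext.ind.ne_zero
  obtain ⟨e, he⟩ := h2 N c (d + k) F (zz t s a) X.ext.ff' hN ⟨fun x => by
    obtain ⟨p, r, rfl⟩ := (aff K F d k y t X.ext X.fr N T D s a X.cox).fr x
    exact isAlgebraic_algebraMap (⟨_, div_mem (IntermediateField.algebra_adjoin_le_adjoin _ _ p.2)
      (IntermediateField.algebra_adjoin_le_adjoin _ _ r.2)⟩ :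
        IntermediateField.adjoin ℂ (range (zz t s a)))⟩
  obtain ⟨D', fr⟩ := Cb.fr_of X.ext.ff' he
  obtain ⟨E, hE⟩ := zt_frm X.ext X.fr
  obtain ⟨m0, A, B, hA, hB, eq⟩ :=
    h1 K F d k N q ε y t T D s a u l h₀ g e₀ b Q X c f e D' pv.lg fr
  choose ψ hψ using fun i j => der_hm ht X.fr hE i (s (e (.inr j))) (a (e (.inr j)))
  choose χ hχ using fun i j => ev_hom (s := s) ht
    (IsWeightedHomogeneous.pderiv (φ := f i) (w := a) (i := e (.inl j))
      (n' := dg a (β i) + -a (e (.inl j)))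
      (fun m c => (wt_eq a m).trans (pv.hom i m (mem_support_iff.2 c) _ (hβ i)))
      (neg_add_cancel_right _ _))
  have j1 : jac E (fun i => zz t s a (e (.inr i))) = _ :=
    (congrArg Matrix.det (Matrix.ext fun i j => hψ i j)).trans (det_hm ht ψ _ _)
  have j2 : mnr (zz t s a) f e = _ :=
    (congrArg Matrix.det (Matrix.ext fun i j => hχ i j)).trans (det_hm ht χ _ _)
  have j3 := Cb.jac_chain hE D' fun i => zz t s a (e (.inr i))
  rw [Cb.jac_self fr, j1] at j3
  have j4 : ∏ i, t i = hm t (1 : K) (∑ i, Pi.single i 1) := by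
    rw [hm, map_one, one_mul, mon_sum' ht]
    exact Finset.prod_congr rfl fun i _ => by rw [← hm_single (K := K) t i, hm, map_one, one_mul]
  rw [j2] at m0 eq
  have j0 : (Matrix.of ψ).det ≠ 0 := fun z => by
    rw [z, hm_zero, mul_zero] at j3
    exact one_ne_zero j3
  have j5 : (Matrix.of χ).det ≠ 0 := fun z => m0 (by rw [z, hm_zero])
  obtain ⟨m, m', z, z', w⟩ := unit X.ext.ind X.gt j5
    (mul_ne_zero j0 (mul_ne_zero one_ne_zero X.can.1)) hA hB (by
      rw [hm_mul ht, hm_mul ht, ← j4, mul_assoc, ← eq, ← mul_assoc, ← mul_assoc,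
        mul_comm _ (jac _ _), ← j3, one_mul])
  refine ⟨fun j => 1 - ∑ i, (β i j : ℤ) - m j + m' j, fun j b => by simp [z j b, z' j b], ?_⟩
  simp only [add_smul, sub_smul, one_smul, Finset.sum_add_distrib, Finset.sum_sub_distrib,
    Finset.sum_smul]
  rw [Finset.sum_comm, ← e.sum_comp a, Fintype.sum_sum_type]
  simp only [← dg_sum]
  simp only [Fin.sum_univ_add, Fin.append_left, Fin.append_right, Finset.sum_const_zero,
    Finset.sum_neg_distrib] at w ⊢
  linear_combination -w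

end Vale.Agent.P283R.Hz
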