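import Vale.Agent.P287D.Rm.Ov
import Vale.Agent.P287D.Rm.Ine
import Vale.Agent.P287D.Pb.Up
import Vale.Agent.P287D.Cb.Ad

/-!
# P283R, block HZ: the Jacobian determinant lies in the different
-/

open Set MvPolynomial
open Vale.Agent.P297 (Place)
open Vale.Agent.P297Z

noncomputable section

namespace Vale.Agent.P283R.Hz

open Vale.Agent.P287D

namespace Df

/-- the Bezoutian rows -/
theorem bez {A S ι : Type} [CommRing A] [CommRing S] [Fintype ι] [DecidableEq ι] (f : A →+* S)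
    (T : Subring S) (hf : ∀ a, f a ∈ T) {u v : ι → S} (hu : ∀ j, u j ∈ T) (hv : ∀ j, v j ∈ T)
    (g : MvPolynomial ι A) : ∃ B : ι → S, (∀ j, B j ∈ T) ∧
      eval₂ f u g - eval₂ f v g = ∑ j, B j * (u j - v j) ∧
      ∀ j, B j - eval₂ f u (pderiv j g) ∈ Ideal.span (range (u - v)) := by
  induction g using MvPolynomial.induction_on with
  | C a => exact ⟨0, fun _ => zero_mem _, by simp, fun _ => by simp⟩
  | add p q hp hq =>
    obtain ⟨B, b1, b2, b3⟩ := hp
    obtain ⟨B', c1, c2, c3⟩ := hq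
    refine ⟨B + B', fun j => add_mem (b1 j) (c1 j), ?_, fun j => ?_⟩
    · simp only [eval₂_add, Pi.add_apply, add_mul, Finset.sum_add_distrib, ← b2, ← c2]
      ring
    · convert add_mem (b3 j) (c3 j) using 1
      simp only [map_add, eval₂_add, Pi.add_apply]
      ring
  | mul_X p i hp =>
    obtain ⟨B, b1, b2, b3⟩ := hp
    have m : eval₂ f v p ∈ T := eval₂_mem (fun _ _ => hf _) hv
    refine ⟨fun j => B j * u i + if j = i then eval₂ f v p else 0, fun j =>
      add_mem (mul_mem (b1 j) (hu i)) (by split_ifs; exacts [m, zero_mem _]), ?_, fun j => ?_⟩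
    · have : ∑ j, B j * u i * (u j - v j) = (eval₂ f u p - eval₂ f v p) * u i := by
        rw [b2, Finset.sum_mul]
        exact Finset.sum_congr rfl fun j _ => by ring
      simp only [eval₂_mul, eval₂_X, add_mul, Finset.sum_add_distrib, this, ite_mul, zero_mul,
        Finset.sum_ite_eq', Finset.mem_univ, if_true]
      ring
    · have k : eval₂ f u p - eval₂ f v p ∈ Ideal.span (range (u - v)) :=
        b2 ▸ sum_mem fun j _ => Ideal.mul_mem_left _ _ (Ideal.subset_span ⟨j, rfl⟩)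
      by_cases h : j = i
      · subst h
        convert sub_mem (Ideal.mul_mem_right (u j) _ (b3 j)) k using 1
        simp only [Derivation.leibniz, pderiv_X_self, smul_eq_mul, mul_one, eval₂_add, eval₂_mul,
          eval₂_X, if_true]
        ring
      · convert Ideal.mul_mem_right (u i) _ (b3 j) using 1
        simp only [Derivation.leibniz, pderiv_X_of_ne (Ne.symm h), smul_eq_mul, mul_zero,
          eval₂_add, eval₂_mul, eval₂_X, if_neg h, eval₂_zero]
        ring

section core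

open Rm

variable {E : Type} [Field E] {Γ : Type} [Group Γ] [Fintype Γ] [MulSemiringAction Γ E]
  (P : Place E)

variable (Γ) in
/-- near one at `P`, near zero at the conjugate places -/
def Ap (N : ℕ) (u : E) : Prop :=
  (N : ℤ) < P.ord (u - 1) ∧ ∀ γ : Γ, γ ∉ dec Γ P → (N : ℤ) < P.ord (γ • u)

theorem exists_ap (N : ℕ) : ∃ u, Ap Γ P N u := by
  classical
  obtain ⟨u, -, -, -, u1, u2⟩ := approx P
    ((Finset.univ.filter fun γ : Γ => γ ∉ dec Γ P).image fun γ => mv γ P) (fun q => by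
      obtain ⟨γ, a, b⟩ := Finset.mem_image.1 q
      exact (Finset.mem_filter.1 a).2 b) N
  exact ⟨u, u1, fun γ q => ord_mv γ P u ▸
    u2 _ (Finset.mem_image_of_mem _ (Finset.mem_filter.2 ⟨Finset.mem_univ γ, q⟩))⟩

variable (Γ) in
/-- the products of an element and a conjugate -/
def pr : Submonoid (Γ → E) where
  carrier := {φ | ∃ a ∈ P.ring, ∃ b ∈ P.ring, φ = fun γ => a * γ • b}
  one_mem' := ⟨1, one_mem _, 1, one_mem _, funext fun _ => by simp⟩
  mul_mem' := by
    rintro _ _ ⟨a, ha, b, hb, rfl⟩ ⟨c, hc, d, hd, rfl⟩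
    exact ⟨_, mul_mem ha hc, _, mul_mem hb hd, funext fun _ => by
      simp only [Pi.mul_apply, smul_mul']; ring⟩

variable {P}

theorem zr_mul {a b : E} (h : Zr P a) (hb : b ∈ P.ring) : Zr P (a * b) := by
  rw [zr_iff, map_mul]
  exact mul_lt_one_of_nonneg_of_lt_one_left zero_le (zr_iff.1 h) ((Pl.mem_ring_iff P b).1 hb)

theorem zr_sum {ι : Type} {s : Finset ι} {g : ι → E} (h : ∀ i ∈ s, Zr P (g i)) :
    Zr P (∑ i ∈ s, g i) :=
  zr_iff.2 (Valuation.map_sum_lt _ one_ne_zero fun i hi => zr_iff.1 (h i hi))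

theorem good {σ π : E} (fix : ∀ a, (∀ γ : Γ, γ • a = a) → Zr P a → a / σ ∈ P.ring) (hπ : Zr P π)
    {φ : Γ → E} (h : φ ∈ Subring.closure (pr Γ P : Set (Γ → E))) :
    ∃ N, ∀ u, Ap Γ P N u → (∑ γ, γ • (π * u) * φ γ) / σ ∈ P.ring := by
  rw [Subring.mem_closure_iff, Submonoid.closure_eq] at h
  induction h using AddSubgroup.closure_induction with
  | mem φ h =>
    obtain ⟨a, ha, b, hb, rfl⟩ := h
    refine ⟨∑ γ : Γ, (P.ord (γ • (π * b))).natAbs, fun u hu => ?_⟩
    have : (∑ γ : Γ, γ • (π * u) * (a * γ • b)) / σ = a * ((∑ γ : Γ, γ • (π * b * u)) / σ) := by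
      rw [← mul_div_assoc, Finset.mul_sum]
      congr 1
      exact Finset.sum_congr rfl fun γ _ => by simp only [smul_mul']; ring
    rw [this]
    refine mul_mem ha (fix _ (fun δ => ?_) (zr_sum fun γ _ => ?_))
    · rw [Finset.smul_sum]
      exact Fintype.sum_equiv (Equiv.mulLeft δ) _ _ fun γ => by simp [mul_smul]
    · by_cases d : γ ∈ dec Γ P
      · have : u - 1 ∈ P.ring := Zr.mem (.inr ((Int.natCast_nonneg _).trans_lt hu.1))
        exact (dec_zr d).2 (zr_mul (zr_mul hπ hb) (by simpa using add_mem this (one_mem _)))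
      · have h1 := hu.2 γ d
        have h2 := Finset.single_le_sum (f := fun γ : Γ => (P.ord (γ • (π * b))).natAbs)
          (fun _ _ => Nat.zero_le _) (Finset.mem_univ γ)
        by_cases h0 : γ • (π * b) = 0
        · exact .inl (by rw [smul_mul', h0, zero_mul])
        · refine .inr ?_
          rw [smul_mul', Pl.ord_mul P h0 (ne_of_ord (P := P) (by omega))]
          omega
  | zero => exact ⟨0, fun _ _ => by simp [zero_mem]⟩
  | add φ ψ _ _ h1 h2 =>
    obtain ⟨N, h1⟩ := h1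
    obtain ⟨M, h2⟩ := h2
    refine ⟨N + M, fun u hu => ?_⟩
    have a := h1 u ⟨by have := hu.1; omega, fun γ d => by have := hu.2 γ d; omega⟩
    have b := h2 u ⟨by have := hu.1; omega, fun γ d => by have := hu.2 γ d; omega⟩
    simpa only [Pi.add_apply, mul_add, Finset.sum_add_distrib, add_div] using add_mem a b
  | neg φ _ h1 =>
    exact h1.imp fun N h u hu => by
      simpa only [Pi.neg_apply, mul_neg, Finset.sum_neg_distrib, neg_div] using neg_mem (h u hu)

theorem core {A ι κ κ' : Type} [CommRing A] [Fintype ι] [DecidableEq ι] [Fintype κ] [DecidableEq κ]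
    [Fintype κ'] (c0 : C0 P) {σ π : E}
    (fix : ∀ a, (∀ γ : Γ, γ • a = a) → Zr P a → a / σ ∈ P.ring) (hπ : Zr P π) (f : A →+* E)
    (hf : ∀ a, f a ∈ P.ring) (ff : ∀ (γ : Γ) a, γ • f a = f a) {x : ι → E} (hx : ∀ j, x j ∈ P.ring)
    (e : κ ⊕ κ' ≃ ι) (fx : ∀ (γ : Γ) l, γ • x (e (.inr l)) = x (e (.inr l)))
    (fp : ∀ γ : Γ, (∀ j, γ • x j = x j) → γ • π = π) (G : κ → MvPolynomial ι A)
    (hG : ∀ i, eval₂ f x (G i) = 0) :
    π * (Matrix.of fun i l => eval₂ f x (pderiv (e (.inl l)) (G i))).det / σ ∈ P.ring := by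
  classical
  let T := Subring.closure (pr Γ P : Set (Γ → E))
  have t1 : ∀ a ∈ P.ring, (fun _ => a) ∈ T := fun a ha =>
    Subring.subset_closure ⟨a, ha, 1, one_mem _, funext fun _ => by simp⟩
  choose B b1 b2 b3 using fun i => bez ((Pi.constRingHom Γ E).comp f) T (fun a => t1 _ (hf a))
    (u := fun j _ => x j) (v := fun j γ => γ • x j) (fun j => t1 _ (hx j)) (fun j =>
      Subring.subset_closure ⟨1, one_mem _, _, hx j, funext fun _ => by simp⟩) (G i)
  have ev : ∀ (γ : Γ) (w : ι → Γ → E) (g : MvPolynomial ι A),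
      eval₂ ((Pi.constRingHom Γ E).comp f) w g γ = eval₂ f (fun j => w j γ) g := fun γ w g =>
    eval₂_comp_left (Pi.evalRingHom (fun _ => E) γ) _ w g
  let Δ := (Matrix.of fun i l => B i (e (.inl l))).det
  have hΔ : ∀ γ, Δ γ = (Matrix.of fun i l => B i (e (.inl l)) γ).det := fun γ =>
    (Pi.evalRingHom (fun _ => E) γ).map_det _
  obtain ⟨N, hN⟩ := good fix hπ (φ := Δ) (by
    simp only [Δ, Matrix.det_apply']
    exact sum_mem fun _ _ => mul_mem (intCast_mem _ _) (prod_mem fun _ _ => b1 _ _))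
  obtain ⟨u, hu⟩ := exists_ap (Γ := Γ) P N
  set J := (Matrix.of fun i l => eval₂ f x (pderiv (e (.inl l)) (G i))).det
  let H := Finset.univ.filter fun γ : Γ => ∀ j, γ • x j = x j
  have k : ∑ γ, γ • (π * u) * Δ γ = π * J * ∑ γ ∈ H, γ • u := by
    rw [Finset.mul_sum, Finset.sum_filter]
    refine Finset.sum_congr rfl fun γ _ => ?_
    rw [hΔ]
    split_ifs with h
    · have : (Matrix.of fun i l => B i (e (.inl l)) γ).det = J := by
        congr 2
        funext i l
        have := (Ideal.span_le (I := RingHom.ker (Pi.evalRingHom (fun _ => E) γ))).2 (by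
          rintro _ ⟨j, rfl⟩
          exact sub_eq_zero.2 (h j).symm) (b3 i (e (.inl l)))
        exact (sub_eq_zero.1 this).trans (ev γ _ _)
      rw [this, smul_mul', fp γ h]
      ring
    · rw [Matrix.exists_mulVec_eq_zero_iff.1 ⟨fun l => x (e (.inl l)) - γ • x (e (.inl l)),
        fun h0 => h fun j => ?_, funext fun i => ?_⟩, mul_zero]
      · obtain ⟨l | l, rfl⟩ := e.surjective j
        · exact (sub_eq_zero.1 (congrFun h0 l)).symm
        · exact fx γ l
      · have h1 := congrFun (b2 i) γ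
        have h2 : eval₂ f (fun j => γ • x j) (G i) = 0 := by
          have := eval₂_comp_left (MulSemiringAction.toRingHom Γ E γ) f x (G i)
          rw [hG, map_zero, RingHom.ext (f := (MulSemiringAction.toRingHom Γ E γ).comp f)
            (g := f) (ff γ)] at this
          exact this.symm
        rw [Pi.sub_apply, ev, ev, hG, h2, sub_zero, Finset.sum_apply, ← e.sum_comp,
          Fintype.sum_sum_type] at h1
        simp only [Pi.mul_apply, Pi.sub_apply, fx, sub_self, Pi.zero_apply, mul_zero,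
          Finset.sum_const_zero, add_zero] at h1
        exact h1.symm
  have w1 : Pl.val P (∑ γ ∈ H, γ • u) = 1 := by
    have z : Zr P (∑ γ ∈ H, (γ • u - if γ ∈ dec Γ P then 1 else 0)) := zr_sum fun γ _ => by
      split_ifs with d
      · have := (dec_zr d).2 (.inr ((Int.natCast_nonneg _).trans_lt hu.1))
        rwa [smul_sub, smul_one] at this
      · rw [sub_zero]
        exact .inr ((Int.natCast_nonneg _).trans_lt (hu.2 γ d))
    rw [Finset.sum_sub_distrib, Finset.sum_boole] at z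
    have n := c0 (H.filter fun γ => γ ∈ dec Γ P).card (Finset.card_ne_zero.2
      ⟨1, Finset.mem_filter.2 ⟨Finset.mem_filter.2 ⟨Finset.mem_univ _, fun _ => one_smul _ _⟩,
        one_mem _⟩⟩)
    rw [← n]
    exact Valuation.map_eq_of_sub_lt _ (n ▸ zr_iff.1 z)
  have := hN u hu
  rw [k, mul_div_right_comm, Pl.mem_ring_iff, map_mul, w1, mul_one, ← Pl.mem_ring_iff] at this
  exact this

end core

theorem exists_gal (k F : Type) [Field k] [CharZero k] [Field F] [Algebra k F]
    [FiniteDimensional k F] : ∃ (E : Type) (_ : Field E) (_ : Algebra k E) (_ : Algebra F E)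
      (_ : IsScalarTower k F E), FiniteDimensional k E ∧ IsGalois k E :=
  ⟨IntermediateField.normalClosure k F (AlgebraicClosure F), inferInstance, inferInstance,
    inferInstance, inferInstance, inferInstance, {}⟩

variable {F : Type} [Field F] [Algebra ℂ F] {W : Pl F} {n : ℕ} {σ : F} {y : Fin n → F}

theorem gauss0 (hσ : 0 < W.ord σ) (hy : ∀ l, y l ∈ W.ring)
    (hi : AlgebraicIndependent ℂ fun l => W.rd (y l))
    (p : Polynomial (Algebra.adjoin ℂ (range y))) : W.ord σ ∣ W.ord (Polynomial.aeval σ p) := by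
  have hS : range y ⊆ W.ring := by rintro _ ⟨i, rfl⟩; exact hy i
  have mx : Cb.Mx W σ := Cb.mx_iff.2 (.inr hσ)
  induction hm : p.natDegree using Nat.strong_induction_on generalizing p with
  | _ m ih =>
  have e := congrArg (Polynomial.aeval σ) (Polynomial.divX_mul_X_add p)
  rw [map_add, map_mul, Polynomial.aeval_X, Polynomial.aeval_C] at e
  have m1 : Polynomial.aeval σ p.divX ∈ W.ring := by
    rw [Polynomial.aeval_eq_sum_range]
    exact sum_mem fun i _ => mul_mem (Cb.adj_mem hS (p.divX.coeff i).2) (pow_mem mx.mem _)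
  by_cases c0 : p.coeff 0 = 0
  · rw [c0, map_zero, add_zero] at e
    by_cases m0 : m = 0
    · rw [Polynomial.eq_C_of_natDegree_eq_zero (hm.trans m0), c0]
      simp
    by_cases h0 : Polynomial.aeval σ p.divX = 0
    · rw [← e, h0]
      simp
    rw [← e, Pl.ord_mul _ h0 (Rm.ne_of_ord hσ.ne')]
    exact dvd_add (ih _ (by rw [Polynomial.natDegree_divX_eq_natDegree_tsub_one]; omega) _ rfl)
      dvd_rfl
  · have h1 : ¬ Cb.Mx W (Polynomial.aeval σ p) := fun h => c0 (Subtype.ext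
      (Cb.unit0 hy hi (p.coeff 0).2 (by
        have := h.sub (mx.mul m1)
        rwa [← e, add_sub_cancel_left] at this)))
    have h2 : Polynomial.aeval σ p ∈ W.ring :=
      e ▸ add_mem (mx.mul m1).mem (Cb.adj_mem hS (p.coeff 0).2)
    rw [Pl.ord_unit _ h2 (Cb.inv_mem_of h1)]
    exact dvd_zero _

/-- the value group of the Gauss valuation -/
theorem gauss (hσ : 0 < W.ord σ) (hy : ∀ l, y l ∈ W.ring)
    (hi : AlgebraicIndependent ℂ fun l => W.rd (y l)) {a : F}
    (ha : a ∈ IntermediateField.adjoin ℂ (range (Fin.cons σ y : Fin (n + 1) → F))) :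
    W.ord σ ∣ W.ord a := by
  have k : ∀ r ∈ Algebra.adjoin ℂ (range (Fin.cons σ y : Fin (n + 1) → F)),
      W.ord σ ∣ W.ord r := fun r hr => by
    suffices h : ∃ p : Polynomial (Algebra.adjoin ℂ (range y)), Polynomial.aeval σ p = r from
      h.elim fun p e => e ▸ gauss0 hσ hy hi p
    induction hr using Algebra.adjoin_induction with
    | mem r hr =>
      obtain ⟨i, rfl⟩ := hr
      refine Fin.cases ⟨.X, by simp⟩ (fun i => ?_) i
      exact ⟨.C ⟨y i, Algebra.subset_adjoin ⟨i, rfl⟩⟩, by simp⟩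
    | algebraMap c => exact ⟨.C (algebraMap ℂ _ c), by simp⟩
    | add _ _ _ _ h1 h2 => exact h1.elim fun p e => h2.elim fun q e' => ⟨p + q, by simp [e, e']⟩
    | mul _ _ _ _ h1 h2 => exact h1.elim fun p e => h2.elim fun q e' => ⟨p * q, by simp [e, e']⟩
  obtain ⟨r, hr, s, hs, rfl⟩ := IntermediateField.mem_adjoin_iff_div.1 ha
  by_cases r0 : r = 0
  · simp [r0]
  by_cases s0 : s = 0
  · simp [s0]
  rw [Pl.ord_div _ r0 s0]
  exact dvd_sub (k r hr) (k s hs)

end Df

open Df

variable {F : Type} [Field F] [Algebra ℂ F] {n : ℕ} {σ : F} {A ι κ : Type} [CommRing A]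
  [Fintype ι] [DecidableEq ι] [Fintype κ] [DecidableEq κ]

theorem Df.difk (k : Type) [Field k] [CharZero k] [Algebra k F] [FiniteDimensional k F] (W : Pl F)
    (hσ : 0 < W.ord σ) (gs : ∀ a, W.ord σ ∣ W.ord (algebraMap k F a)) {κ' : Type} [Fintype κ']
    {x : ι → F} (hx : ∀ j, x j ∈ W.ring) (e : κ ⊕ κ' ≃ ι) (f : A →+* F) (hf : ∀ a, f a ∈ W.ring)
    (m1 : σ ∈ range (algebraMap k F)) (m2 : ∀ l, x (e (.inr l)) ∈ range (algebraMap k F))
    (m3 : ∀ a, f a ∈ range (algebraMap k F)) (m4 : ∀ c, algebraMap ℂ F c ∈ range (algebraMap k F))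
    (G : κ → MvPolynomial ι A) (hG : ∀ i, eval₂ f x (G i) = 0) {π : F}
    (hπ : π ∈ IntermediateField.adjoin ℂ (insert σ (range x))) (h0 : 0 < W.ord π) :
    π * (Matrix.of fun i l => eval₂ f x (pderiv (e (.inl l)) (G i))).det / σ ∈ W.ring := by
  have σ0 := Rm.ne_of_ord hσ.ne'
  obtain ⟨E, _, _, _, _, _, _⟩ := exists_gal k F
  let _ : Algebra ℂ E := ((algebraMap F E).comp (algebraMap ℂ F)).toAlgebra
  have : IsScalarTower ℂ F E := .of_algebraMap_eq fun _ => rfl
  have : FiniteDimensional F E := Module.Finite.of_restrictScalars_finite k F E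
  have : CharZero E := charZero_of_injective_algebraMap (algebraMap ℂ E).injective
  obtain ⟨P, hP⟩ := Pb.up_fin (K' := E) W
  have fk : ∀ (γ : E ≃ₐ[k] E), ∀ a ∈ range (algebraMap k F),
      γ • algebraMap F E a = algebraMap F E a := by
    rintro γ _ ⟨a, rfl⟩
    rw [← IsScalarTower.algebraMap_apply]
    exact γ.commutes a
  have := core (Γ := E ≃ₐ[k] E) (P := P.toPlace) (σ := algebraMap F E σ) (π := algebraMap F E π)
    (Rm.c0_of fun m => by simpa using P.con (m : ℂ)⁻¹) (fun a ha z => by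
      obtain ⟨a, rfl⟩ := (IsGalois.mem_range_algebraMap_iff_fixed a).2 ha
      rw [IsScalarTower.algebraMap_apply k F E, ← map_div₀, ← hP]
      rw [IsScalarTower.algebraMap_apply k F E] at z
      rcases z with z | z
      · rw [(map_eq_zero _).1 z, zero_div]
        exact zero_mem _
      · rw [hP.ord_pos_iff] at z
        have a0 := Rm.ne_of_ord z.ne'
        rw [← Pl.ord_nonneg_iff _ (div_ne_zero a0 σ0), Pl.ord_div _ a0 σ0, sub_nonneg]
        exact Int.le_of_dvd z (gs a))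
    (.inr ((hP.ord_pos_iff π).2 h0)) ((algebraMap F E).comp f) (fun a => (hP _).1 (hf a))
    (fun γ a => fk γ _ (m3 a)) (x := fun j => algebraMap F E (x j)) (fun j => (hP _).1 (hx j)) e
    (fun γ l => fk γ _ (m2 l)) (fun γ h => by
      clear h0
      induction hπ using IntermediateField.adjoin_induction with
      | mem a ha =>
        obtain rfl | ⟨j, rfl⟩ := ha
        exacts [fk γ _ m1, h j]
      | algebraMap c => exact fk γ _ (m4 c)
      | add _ _ _ _ h1 h2 => rw [map_add, smul_add, h1, h2]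
      | inv _ _ h1 => rw [map_inv₀, smul_inv'', h1]
      | mul _ _ _ _ h1 h2 => rw [map_mul, smul_mul', h1, h2]) G (fun i =>
      (eval₂_comp_left (algebraMap F E) f x (G i)).symm.trans (by rw [hG, map_zero]))
  rw [hP, map_div₀, map_mul, RingHom.map_det]
  convert this using 4
  ext i l
  exact eval₂_comp_left (algebraMap F E) f x _

/-- **the Noether different** -/
theorem dif0 (hF : FF F (n + 1)) (W : Pl F) (hσ : 0 < W.ord σ) {x : ι → F}
    (hx : ∀ j, x j ∈ W.ring) (e : κ ⊕ Fin n ≃ ι)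
    (hi : AlgebraicIndependent ℂ fun l => W.rd (x (e (.inr l)))) (f : A →+* F)
    (hf : ∀ a, f a ∈ W.ring) (hf' : ∀ a, f a ∈ IntermediateField.adjoin ℂ
      (range (Fin.cons σ fun l => x (e (.inr l)) : Fin (n + 1) → F)))
    (G : κ → MvPolynomial ι A) (hG : ∀ i, eval₂ f x (G i) = 0) {π : F}
    (hπ : π ∈ IntermediateField.adjoin ℂ (insert σ (range x))) (h0 : 0 < W.ord π) :
    π * (Matrix.of fun i l => eval₂ f x (pderiv (e (.inl l)) (G i))).det / σ ∈ W.ring := by
  have := hF.fin (Cb.ind_cons (fun l => hx _) hi (Rm.ne_of_ord hσ.ne') (Cb.mx_iff.2 (.inr hσ)))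
  set k := IntermediateField.adjoin ℂ
    (range (Fin.cons σ fun l => x (e (.inr l)) : Fin (n + 1) → F))
  have : CharZero k := charZero_of_injective_algebraMap (algebraMap ℂ k).injective
  have mk : ∀ i, (Fin.cons σ fun l => x (e (.inr l)) : Fin (n + 1) → F) i ∈ k :=
    fun i => IntermediateField.subset_adjoin _ _ ⟨i, rfl⟩
  exact difk k W hσ (fun a => gauss hσ (fun l => hx _) hi a.2) hx e f hf ⟨⟨_, mk 0⟩, rfl⟩
    (fun l => ⟨⟨_, mk l.succ⟩, rfl⟩) (fun a => ⟨⟨_, hf' a⟩, rfl⟩)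
    (fun c => ⟨⟨_, k.algebraMap_mem c⟩, rfl⟩) G hG hπ h0

/-- the value group of a subfield -/
theorem exists_rho (W : Pl F) (L : IntermediateField ℂ F) (hL : σ ∈ L) (hσ : 0 < W.ord σ) :
    ∃ π ∈ L, 0 < W.ord π ∧ ∀ a ∈ L, W.ord π ∣ W.ord a := by
  classical
  have ex : ∃ m : ℕ, ∃ π ∈ L, 0 < W.ord π ∧ W.ord π = m := ⟨(W.ord σ).toNat, σ, hL, hσ, by omega⟩
  obtain ⟨π, h1, h2, h3⟩ := Nat.find_spec ex
  refine ⟨π, h1, h2, fun a ha => ?_⟩
  by_cases a0 : a = 0
  · simp [a0]
  have p0 := Rm.ne_of_ord h2.ne'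
  have e : W.ord (a / π ^ (W.ord a / W.ord π)) = W.ord a % W.ord π := by
    rw [Pl.ord_div _ a0 (zpow_ne_zero _ p0), Pl.ord_zpow, Int.emod_def, mul_comm]
  have b1 := Int.emod_nonneg (W.ord a) h2.ne'
  have b2 := Int.emod_lt_of_pos (W.ord a) h2
  by_contra h
  rw [Int.dvd_iff_emod_eq_zero] at h
  have := Nat.find_min' ex ⟨_, div_mem ha (zpow_mem h1 _), by omega,
    e.trans (Int.toNat_of_nonneg b1).symm⟩
  omega

/-- **DIF**, any ring of coefficients -/
theorem dif1 (hF : FF F (n + 1)) (W : Pl F) (hσ : 0 < W.ord σ) {x : ι → F}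
    (hx : ∀ j, x j ∈ W.ring) (e : κ ⊕ Fin n ≃ ι)
    (hi : AlgebraicIndependent ℂ fun l => W.rd (x (e (.inr l)))) (f : A →+* F)
    (hf : ∀ a, f a ∈ Algebra.adjoin ℂ {σ}) (G : κ → MvPolynomial ι A)
    (hG : ∀ i, eval₂ f x (G i) = 0) : ∃ ρ : ℤ, 0 < ρ ∧
      (∀ a ∈ IntermediateField.adjoin ℂ (insert σ (range x)), ρ ∣ W.ord a) ∧
      ((Matrix.of fun i l => eval₂ f x (pderiv (e (.inl l)) (G i))).det ≠ 0 → W.ord σ - ρ ≤
        W.ord (Matrix.of fun i l => eval₂ f x (pderiv (e (.inl l)) (G i))).det) := by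
  obtain ⟨π, h1, h2, h3⟩ := exists_rho W (IntermediateField.adjoin ℂ (insert σ (range x)))
    (IntermediateField.subset_adjoin _ _ (mem_insert _ _)) hσ
  refine ⟨_, h2, h3, fun d0 => ?_⟩
  have σ0 := Rm.ne_of_ord hσ.ne'
  have p0 := Rm.ne_of_ord h2.ne'
  have := Pl.ord_nonneg_of_mem _ (dif0 hF W hσ hx e hi f (fun a => Cb.adj_mem
    (singleton_subset_iff.2 ((Pl.ord_nonneg_iff _ σ0).1 hσ.le)) (hf a)) (fun a =>
      IntermediateField.algebra_adjoin_le_adjoin _ _ (Algebra.adjoin_mono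
        (singleton_subset_iff.2 (mem_range.2 ⟨0, rfl⟩)) (hf a))) G hG h1 h2)
  rw [Pl.ord_div _ (mul_ne_zero p0 d0) σ0, Pl.ord_mul _ p0 d0] at this
  omega

/-- **DIF** -/
theorem dif2 (hF : FF F (n + 1)) (W : Pl F) (hσ : 0 < W.ord σ) {x : ι → F}
    (hx : ∀ j, x j ∈ W.ring) (e : κ ⊕ Fin n ≃ ι)
    (hi : AlgebraicIndependent ℂ fun l => W.rd (x (e (.inr l)))) (G : κ → MvPolynomial ι F)
    (hc : ∀ i m, (G i).coeff m ∈ Algebra.adjoin ℂ {σ}) (hG : ∀ i, eval x (G i) = 0) :
    ∃ ρ : ℤ, 0 < ρ ∧ (∀ a ∈ IntermediateField.adjoin ℂ (insert σ (range x)), ρ ∣ W.ord a) ∧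
      ((Matrix.of fun i l => eval x (pderiv (e (.inl l)) (G i))).det ≠ 0 → W.ord σ - ρ ≤
        W.ord (Matrix.of fun i l => eval x (pderiv (e (.inl l)) (G i))).det) := by
  let f := (Algebra.adjoin ℂ {σ}).val.toRingHom
  have : ∀ i, ∃ g, map f g = G i := fun i => by
    refine (mem_range_map_iff_coeffs_subset (f := f)).2 fun a ha => ?_
    obtain ⟨m, -, rfl⟩ := mem_coeffs_iff.1 ha
    exact ⟨⟨_, hc i m⟩, rfl⟩
  choose g hg using this
  have := dif1 hF W hσ hx e hi f (fun a => a.2) g fun i => by rw [eval₂_eq_eval_map, hg, hG]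
  simpa only [eval₂_eq_eval_map, ← pderiv_map, hg] using this

end Vale.Agent.P283R.Hz
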