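import Vale.Agent.P283R.Hz.St
import Vale.Agent.P283R.Hz.Dif0

/-!
# P283R, block HZ: the row DIF
-/

namespace Vale.Agent.P283R.Hz

theorem dif : DIF := fun _ _ _ _ _ _ W _ _ G e hE hσ hx hi hc hG h0 =>
  (dif2 hE W hσ hx e hi G hc hG).imp fun _ h => ⟨h.1, fun φ hφ _ => h.2.1 φ hφ, h.2.2 h0⟩

end Vale.Agent.P283R.Hz
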