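import Vale.Agent.P283R.Hz.St

/-!
# P283R, block HZ: a minimal presentation at the vertex
-/

open Set MvPolynomial

noncomputable section

namespace Vale.Agent.P283R.Hz

open Vale.Agent.P287D Vale.Agent.P283M Vale.Agent.P283R.Cx Vale.Agent.P283R.Cy

namespace Elm

variable {K : Type} [Field K] [Algebra ℂ K] {k N : ℕ}

theorem mem_sp (s : Fin N → K) (a : Fin N → Fin k → ℤ) {e : Fin k → ℤ}
    {B : MvPolynomial (Fin N) ℂ} (h : ∀ m ∈ B.support, dg a m = e) : aeval s B ∈ Sp s a e := by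
  rw [aeval_def, eval₂_eq']
  refine Submodule.sum_mem _ fun m hm => ?_
  rw [← Algebra.smul_def]
  exact Submodule.smul_mem _ _ (Submodule.subset_span ⟨m, h m hm, rfl⟩)

theorem od_lt {u : Fin N → ℕ} {j : Fin N} (h : u j = 0) :
    od (Function.update u j 1) 1 < od u 1 := by
  refine Finset.sum_lt_sum (fun i _ => ?_) ⟨j, Finset.mem_univ _, by simp [h]⟩
  by_cases e : i = j
  · subst e
    simp
  · rw [Function.update_of_ne e]

theorem dg_upd (a : Fin N → Fin k → ℤ) (j : Fin N) (m : Fin N → ℕ) :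
    dg a (Function.update m j 0) = dg (Function.update a j 0) m := by
  funext i
  refine Finset.sum_congr rfl fun l _ => ?_
  by_cases e : l = j
  · subst e
    simp
  · rw [Function.update_of_ne e, Function.update_of_ne e]

theorem ord_upd (Q : Pl K) {s : Fin N → K} (hs : ∀ i, s i ≠ 0) (j : Fin N) {c : K} (hc : c ≠ 0)
    (h0 : Q.ord c = 0) (m : Fin N → ℕ) : Q.ord (∏ i, s i ^ Function.update m j 0 i) =
      Q.ord (∏ i, Function.update s j c i ^ m i) := by
  have hs' : ∀ i, Function.update s j c i ≠ 0 := fun i => by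
    by_cases e : i = j
    · subst e
      simpa using hc
    · rw [Function.update_of_ne e]
      exact hs i
  rw [Q.ord_prod _ fun i _ => pow_ne_zero _ (hs i), Q.ord_prod _ fun i _ => pow_ne_zero _ (hs' i)]
  refine Finset.sum_congr rfl fun i _ => ?_
  by_cases e : i = j
  · subst e
    rw [Function.update_self, Function.update_self, pow_zero, Q.ord_pow, h0, mul_zero]
    exact Q.ord_one
  · rw [Function.update_of_ne e, Function.update_of_ne e]

end Elm

theorem elm_of (lin : LIN) (cxs : CXS) (lgs : LGS) (hgn : HGN) : ELM := by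
  intro K F _ _ _ _ _ _ d k N q ε y t T D s a u l h₀ g e₀ b Q hD c f hf
  obtain ⟨n, hn⟩ : ∃ n, od u 1 = n := ⟨_, rfl⟩
  induction n using Nat.strong_induction_on generalizing T s a u f with
  | _ n ih =>
    by_cases hM : Mn (zz t s a) u
    · obtain ⟨f', h'⟩ := hgn K F d k N q ε y t T D s a u l h₀ g e₀ b Q hD c f hf hM
      exact ⟨T, s, a, u, f', hD, h', fun m => ⟨m, rfl, rfl⟩⟩
    obtain ⟨j, B, P, hL⟩ := lin K F d k N q ε y t T D s a u l h₀ g e₀ b Q hD hM
    obtain ⟨f₁, h₁⟩ := lgs K F d k N q ε y t T D s a u l h₀ g e₀ b Q hD c f j B P hL hf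
    obtain ⟨T', s', a', u', f', hD', hP, hm⟩ := ih _ (hn ▸ Elm.od_lt hL.off) _ _ _ _
      (cxs K F d k N q ε y t T D s a u l h₀ g e₀ b Q hD j B P hL) f₁ h₁ rfl
    refine ⟨T', s', a', u', f', hD', hP, fun m' => ?_⟩
    obtain ⟨m, e1, e2⟩ := hm m'
    refine ⟨Function.update m j 0, (Elm.dg_upd a j m).trans e1, Eq.trans ?_ e2⟩
    refine Elm.ord_upd Q hD.cox.ne j (inv_ne_zero hL.ne) ?_ m
    rw [Q.ord_inv, hD.hq _ (Elm.mem_sp s a hL.hB) hL.ne, neg_zero]

end Vale.Agent.P283R.Hz
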