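import Vale.Agent.P283R.Hz.St

/-!
# P283R, block HZ: a transcendence basis among generators, counting of equations
-/

open Set MvPolynomial

namespace Vale.Agent.P283R.Hz

open Vale.Agent.P287D

theorem frm : FRM := fun N c n L _ _ x hL hN ha => by
  have := IntermediateField.isAlgebraic_adjoin_iff_top.1 ha
  obtain ⟨s, hs, hb⟩ := exists_isTranscendenceBasis_subset (R := ℂ) (range x)
  have e : Cardinal.mk (Fin n) = Cardinal.mk s := by
    rw [hb.cardinalMk_eq_trdeg, hL.trdeg, Cardinal.mk_fin]
  obtain ⟨g⟩ := Cardinal.eq.1 e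
  choose j hj using fun i => hs (g i).2
  have ij : Function.Injective j := fun a b h =>
    g.injective (Subtype.ext (by rw [← hj, ← hj, h]))
  let e0 : Fin c ⊕ Fin n ≃ Fin N := finSumFinEquiv.trans (finCongr hN.symm)
  obtain ⟨σ, hσ⟩ := Equiv.Perm.exists_extending_pair (f := fun i => e0 (.inr i)) (g := j)
    (hf := e0.injective.comp Sum.inr_injective) (hg := ij)
  refine ⟨e0.trans σ, ?_⟩
  have k := hb.1.comp g g.injective
  have : (fun i => x ((e0.trans σ) (.inr i))) = Subtype.val ∘ g :=
    funext fun i => by rw [Equiv.trans_apply, hσ, hj]; rfl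
  rw [this]
  exact k

theorem cnt : CNT := fun N c n F _ _ z u f e h => by
  classical
  rw [mnr, Matrix.det_apply'] at h
  obtain ⟨σ, -, h⟩ := Finset.exists_ne_zero_of_sum_ne_zero h
  have k : ∀ i, pderiv (e (.inl (σ.symm i))) (f i) ≠ 0 := fun i e0 =>
    Finset.prod_ne_zero_iff.1 (right_ne_zero_of_mul h) (σ.symm i) (Finset.mem_univ _)
      (by simp [e0])
  refine ⟨fun i e0 => k i (by simp [e0]), fun A hA => ?_⟩
  have h1 : A.card ≤ (Finset.univ.filter fun j => ¬ u j = 0).card := by
    refine Finset.card_le_card_of_injOn (fun i => e (.inl (σ.symm i))) (fun i hi => ?_)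
      fun a _ b _ h => σ.symm.injective (Sum.inl_injective (e.injective h))
    obtain ⟨m, hm, hj⟩ := (mem_vars_iff_mem_support _).1
      (not_not.1 fun h => k i (pderiv_eq_zero_of_notMem_vars h))
    have := Finset.sum_eq_zero_iff.1 (hA i hi m hm) (e (.inl (σ.symm i))) (Finset.mem_univ _)
    simp only [Finset.coe_filter, Finset.mem_univ, true_and, mem_ofPred_eq]
    intro h0
    rw [if_pos h0] at this
    exact Finsupp.mem_support_iff.1 hj this
  have h2 : od u 1 = (Finset.univ.filter fun j => u j = 0).card := by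
    rw [Finset.card_filter]; rfl
  have h3 := Finset.card_filter_add_card_filter_not (s := Finset.univ) fun j => u j = 0
  rw [Finset.card_univ, Fintype.card_fin] at h3
  omega

end Vale.Agent.P283R.Hz
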