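import Vale.Agent.P283R.Hz.St
import Vale.Agent.P283R.H.Gen
import Mathlib.RingTheory.MvPolynomial.EulerIdentity

/-!
# P283R, block HZ: homogeneous equations without linear terms
-/

open Set MvPolynomial

noncomputable section

namespace Vale.Agent.P283R.Hz

open Vale.Agent.P283R.Cx

namespace Hgn

theorem pick {R : Type} [CommRing R] {c : ℕ} (p : Ideal R) (hp : p.IsPrime) (E : Set R)
    (h0 : (0 : R) ∈ E) (f : Fin c → R) (h1 : ∀ i, f i ∈ Ideal.span E)
    (h2 : ∀ a ∈ Ideal.span E, ∃ s ∉ p, s * a ∈ Ideal.span (range f)) :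
    ∃ g : Fin c → R, (∀ i, g i ∈ E) ∧
      ∀ a ∈ Ideal.span E, ∃ s ∉ p, s * a ∈ Ideal.span (range g) := by
  have k : ∀ T : Finset (Fin c), ∃ g : Fin c → R, (∀ i, g i ∈ Ideal.span E) ∧ (∀ i ∈ T, g i ∈ E) ∧
      ∀ a ∈ Ideal.span E, ∃ s ∉ p, s * a ∈ Ideal.span (range g) := by
    intro T
    induction T using Finset.induction_on with
    | empty => exact ⟨f, h1, by simp, h2⟩
    | insert i T _ ih =>
      obtain ⟨g, g1, g2, g3⟩ := ih
      obtain ⟨e, he, k⟩ := H.Gn.step p hp E h0 g i (g1 i) g3
      refine ⟨_, fun j => ?_, fun j hj => ?_, k⟩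
      · by_cases m : j = i
        · rw [m, Function.update_self]
          exact Ideal.subset_span he
        · rw [Function.update_of_ne m]
          exact g1 j
      · by_cases m : j = i
        · rw [m, Function.update_self]
          exact he
        · rw [Function.update_of_ne m]
          exact g2 j ((Finset.mem_insert.1 hj).resolve_left m)
  obtain ⟨g, -, g2, g3⟩ := k Finset.univ
  exact ⟨g, fun i => g2 i (Finset.mem_univ i), g3⟩

variable {F : Type} [Field F] [Algebra ℂ F] {N k : ℕ}

/-- the weights which count the variables which vanish at the vertex -/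
def wo (u : Fin N → ℕ) (j : Fin N) : ℕ := if u j = 0 then 1 else 0

theorem wt_wo (u : Fin N → ℕ) (m : Fin N →₀ ℕ) : Finsupp.weight (wo u) m = od u m := by
  rw [Finsupp.weight_apply, Finsupp.sum_fintype _ _ (by simp), od]
  exact Finset.sum_congr rfl fun j _ => by simp [wo]

theorem wt_dg (a : Fin N → Fin k → ℤ) (m : Fin N →₀ ℕ) : Finsupp.weight a m = dg a m := by
  rw [Finsupp.weight_apply, Finsupp.sum_fintype _ _ (by simp)]
  funext i
  simp [dg, Finset.sum_apply]

theorem mem_cp {M : Type} [AddCommMonoid M] {w : Fin N → M} {n : M} {P : MvPolynomial (Fin N) ℂ}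
    {m : Fin N →₀ ℕ} (h : m ∈ (weightedHomogeneousComponent w n P).support) :
    m ∈ P.support ∧ Finsupp.weight w m = n := by
  classical
  rw [mem_support_iff, coeff_weightedHomogeneousComponent] at h
  split_ifs at h with c
  exacts [⟨mem_support_iff.2 h, c⟩, (h rfl).elim]

theorem aeval_kl (u : Fin N → ℕ) (z : Fin N → F) (P : MvPolynomial (Fin N) ℂ) :
    aeval (kl u z) P = aeval z (weightedHomogeneousComponent (wo u) 0 P) := by
  induction P using MvPolynomial.induction_on' with
  | add p q hp hq => simp only [map_add, hp, hq]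
  | monomial m c =>
    rw [weightedHomogeneousComponent_of_mem (isWeightedHomogeneous_monomial _ m c rfl), wt_wo]
    split_ifs with h
    · rw [aeval_monomial, aeval_monomial]
      refine congrArg _ (Finsupp.prod_congr fun j hj => ?_)
      have := Finset.sum_eq_zero_iff.1 h.symm j (Finset.mem_univ j)
      rw [kl, if_neg fun c => Finsupp.mem_support_iff.1 hj (by rwa [if_pos c] at this)]
    · obtain ⟨j, -, hj⟩ := Finset.exists_ne_zero_of_sum_ne_zero (Ne.symm h)
      have c : u j = 0 := by_contra fun c => hj (if_neg c)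
      rw [if_pos c] at hj
      rw [aeval_monomial, map_zero, Finsupp.prod, Finset.prod_eq_zero
        (Finsupp.mem_support_iff.2 hj) (by rw [kl, if_pos c, zero_pow hj]), mul_zero]

theorem pderiv_cp {u : Fin N → ℕ} {j : Fin N} (hj : u j = 0) (P : MvPolynomial (Fin N) ℂ) :
    pderiv j (weightedHomogeneousComponent (wo u) 1 P) =
      weightedHomogeneousComponent (wo u) 0 (pderiv j P) := by
  ext m
  rw [coeff_pderiv, coeff_weightedHomogeneousComponent, coeff_weightedHomogeneousComponent,
    coeff_pderiv, map_add, Finsupp.weight_single, wo, if_pos hj, one_smul, ite_mul, zero_mul]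
  simp

/-- the good relations -/
def gd (a : Fin N → Fin k → ℤ) (z : Fin N → F) (u : Fin N → ℕ) : Set (MvPolynomial (Fin N) ℂ) :=
  {P | aeval z P = 0 ∧ (∀ m ∈ P.support, ∀ m' ∈ P.support, dg a m = dg a m') ∧
    ((∀ m ∈ P.support, od u m = 0) ∨ ∀ m ∈ P.support, 2 ≤ od u m)}

theorem span_le (a : Fin N → Fin k → ℤ) (z : Fin N → F) (u : Fin N → ℕ)
    {P : MvPolynomial (Fin N) ℂ} (h : P ∈ Ideal.span (gd a z u)) : aeval z P = 0 :=
  (Ideal.span_le (I := RingHom.ker (aeval z : MvPolynomial (Fin N) ℂ →ₐ[ℂ] F))).2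
    (fun _ k => k.1) h

theorem hom_mem {a : Fin N → Fin k → ℤ} {z : Fin N → F} {u : Fin N → ℕ} (mn : Mn z u)
    {P : MvPolynomial (Fin N) ℂ} (h0 : aeval z P = 0) (h1 : aeval (kl u z) P = 0)
    (hh : ∀ m ∈ P.support, ∀ m' ∈ P.support, dg a m = dg a m') : P ∈ Ideal.span (gd a z u) := by
  classical
  have p0 : weightedHomogeneousComponent (wo u) 0 P ∈ Ideal.span (gd a z u) :=
    Ideal.subset_span ⟨aeval_kl u z P ▸ h1, fun m x m' y => hh m (mem_cp x).1 m' (mem_cp y).1,
      .inl fun m x => wt_wo u m ▸ (mem_cp x).2⟩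
  have p1 : weightedHomogeneousComponent (wo u) 1 P ∈ Ideal.span (gd a z u) := by
    have := (weightedHomogeneousComponent_isWeightedHomogeneous (w := wo u) 1
      P).sum_weight_X_mul_pderiv
    rw [one_smul] at this
    rw [← this]
    refine Ideal.sum_mem _ fun j _ => ?_
    by_cases c : u j = 0
    · have s : ∀ m ∈ (weightedHomogeneousComponent (wo u) 0 (pderiv j P)).support,
          m + Finsupp.single j 1 ∈ P.support := fun m x => by
        have := mem_support_iff.1 (mem_cp x).1
        rw [coeff_pderiv] at this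
        exact mem_support_iff.2 (left_ne_zero_of_mul this)
      rw [pderiv_cp c]
      refine nsmul_mem (Ideal.mul_mem_left _ _ (Ideal.subset_span (s := gd a z u) ?_)) _
      refine ⟨aeval_kl u z _ ▸ mn P h0 j c, fun m x m' y => ?_,
        .inl fun m x => wt_wo u m ▸ (mem_cp x).2⟩
      have := hh _ (s m x) _ (s m' y)
      rw [← wt_dg, ← wt_dg, map_add, map_add] at this
      rw [← wt_dg, ← wt_dg]
      exact add_right_cancel this
    · rw [wo, if_neg c, zero_smul]
      exact zero_mem _
  have s : ∀ m ∈ (P - weightedHomogeneousComponent (wo u) 0 P -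
      weightedHomogeneousComponent (wo u) 1 P).support, m ∈ P.support ∧ 2 ≤ od u m := fun m x => by
    rw [mem_support_iff, coeff_sub, coeff_sub, coeff_weightedHomogeneousComponent,
      coeff_weightedHomogeneousComponent, wt_wo] at x
    refine ⟨mem_support_iff.2 fun c => x (by simp [c]), by_contra fun c => x ?_⟩
    rcases (by omega : od u m = 0 ∨ od u m = 1) with c | c <;> simp [c]
  have p2 : P - weightedHomogeneousComponent (wo u) 0 P - weightedHomogeneousComponent (wo u) 1 P ∈
    Ideal.span (gd a z u) := Ideal.subset_span ⟨by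
      rw [map_sub, map_sub, h0, span_le a z u p0, span_le a z u p1, sub_zero, sub_zero],
    fun m x m' y => hh m (s m x).1 m' (s m' y).1, .inr fun m x => (s m x).2⟩
  simpa using add_mem (add_mem p2 p1) p0

end Hgn

open Hgn in
/-- **HGN** -/
theorem hgn_of (cpt : CPT) : HGN := by
  intro K F _ _ _ _ _ _ d k N q ε y t T D s a u l h₀ g e₀ b Q X c f lg mn
  have cp := cpt K F d k N q ε y t T D s a u l h₀ g e₀ b Q X
  have key : ∀ P : MvPolynomial (Fin N) ℂ, aeval (zz t s a) P = 0 →
      P ∈ Ideal.span (gd a (zz t s a) u) := fun P h => by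
    rw [← sum_weightedHomogeneousComponent a P,
      finsum_eq_sum _ (weightedHomogeneousComponent_finsupp P)]
    exact Ideal.sum_mem _ fun e _ => hom_mem mn ((cp P h).2 e) (cp _ ((cp P h).2 e)).1
      fun m x m' y => by rw [← wt_dg, ← wt_dg, (mem_cp x).2, (mem_cp y).2]
  obtain ⟨f', h1, h2⟩ := pick
    (RingHom.ker (aeval (kl u (zz t s a)) : MvPolynomial (Fin N) ℂ →ₐ[ℂ] F))
    (RingHom.ker_isPrime _) (gd a (zz t s a) u) ⟨map_zero _, by simp, .inl (by simp)⟩ f
    (fun i => key _ (lg.van i)) fun P h => lg.gen P (span_le _ _ _ h)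
  exact ⟨f', ⟨fun i => (h1 i).1, fun P h => h2 P (key P h)⟩, fun i => (h1 i).2.1,
    fun i => (h1 i).2.2⟩

end Vale.Agent.P283R.Hz
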