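import Vale.Agent.P283R.Hz.St
import Vale.Agent.P283R.Cx.Ext
import Vale.Agent.P283R.Cx.Bas

/-!
# P283R, block HZ: the geometry in terms of weights
-/

open Set MvPolynomial

noncomputable section

namespace Vale.Agent.P283R.Hz

open Vale.Agent.P287D Vale.Agent.P297Z Vale.Agent.P283M Vale.Agent.P283R.Cx Vale.Agent.P283R.Cy
open Vale.Agent.P283R.To (ord_prod)

theorem Hmr.pa_dg {N k : ℕ} (a : Fin N → Fin k → ℤ) (c : Fin N → ℕ) (ξ : Fin k → ℝ) :
    pa (dg a c) ξ = ∑ j, c j * pa (a j) ξ := by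
  simp only [pa, dg, Finset.mul_sum]
  push_cast
  simp only [Finset.sum_mul, mul_assoc]
  exact Finset.sum_comm

theorem Hmr.lt {N k D : ℕ} {η : ℝ} {a : Fin N → Fin k → ℤ} {u v : Fin N → ℕ} (h : Sv η a u D v)
    {m : Fin N → ℕ} (hm : η * od u m ≤ 1) : ∑ j, v j * m j < D := by
  have le : ∑ j, v j * m j ≤ (∑ j, v j) * od u m := by
    rw [od, Finset.mul_sum]
    refine Finset.sum_le_sum fun j _ => ?_
    split_ifs with c
    · exact Nat.mul_le_mul_right _ (Finset.single_le_sum (fun _ _ => Nat.zero_le _)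
        (Finset.mem_univ j))
    · simp [Nat.eq_zero_of_not_pos (mt (h.pos j).1 c)]
  rcases Nat.eq_zero_or_pos (od u m) with z | z
  · rw [z, mul_zero] at le
    exact le.trans_lt h.D0
  · refine le.trans_lt ((Nat.cast_lt (α := ℝ)).1 ?_)
    have := mul_lt_mul_of_pos_right h.lt (Nat.cast_pos.2 z)
    have := mul_le_mul_of_nonneg_right hm (Nat.cast_nonneg (α := ℝ) D)
    push_cast
    linarith

/-- **HMR** -/
theorem hmr_of (trv : TRV) (itg : ITG) (cmp : CMP) : HMR := by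
  intro K F _ _ _ _ _ _ d k N q ε y t T D s a u l h₀ g e₀ b Q A c f β γ κ η hN pv hβ hγ hκ hη hb
    D₀ v sv m N₀ H
  obtain ⟨E, _, _, _, _, τ, x⟩ := ext F (d + k) 1 A.ext.ff'
  rw [show τ = fun _ => τ 0 from funext fun i => congrArg τ (Subsingleton.elim _ _)] at x
  have t0 := A.ext.ind.ne_zero
  have τ0 : τ 0 ≠ 0 := x.ind.ne_zero 0
  have s0 := A.cox.ne
  have p0 : ∀ m : Fin N → ℕ, ∏ j, s j ^ m j ≠ 0 := fun m =>
    Finset.prod_ne_zero_iff.2 fun j _ => pow_ne_zero _ (s0 j)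
  have op : ∀ m : Fin N → ℕ, Q.ord (∏ j, s j ^ m j) = ∑ j, m j * Q.ord (s j) := fun m => by
    simp only [ord_prod Q fun j => pow_ne_zero _ (s0 j), Pl.ord_pow]
  have v0 : ∀ j, 0 < u j → v j = 0 := fun j h =>
    Nat.eq_zero_of_not_pos (mt (sv.pos j).1 h.ne')
  refine (cmp K F d k N q ε y t T D s a u l h₀ g e₀ b Q A E (τ 0) x v _
    (dg a m) N₀ (p0 m) v0 (itg K F d k N q ε y t T D s a u l h₀ g e₀ b Q A E (τ 0) x v _ N₀
      (mem_Rg t0 (mon_mem s a m)) v0 fun W w => ?_)).imp fun r h => h.imp fun m' h =>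
        ⟨h.1, h.2.1, h.2.2.1, by simpa only [op] using h.2.2.2⟩
  obtain ⟨ξ, k1, k2⟩ := trv K F d k N q ε y t T D s a u l h₀ g e₀ b Q A E (τ 0) x c D₀ f β v W hN pv
    hβ ⟨sv.D0, sv.pos, sv.dvd, sv.lt.trans_le (mul_le_mul_of_nonneg_right hη (Nat.cast_nonneg _))⟩
    (fun i => Hmr.lt sv (hb i)) w
  have w0 : (0 : ℝ) < W.ord (τ 0) := by exact_mod_cast w.pos
  have od : ∀ (φ : K) e (n : ℤ), φ ≠ 0 →
      (algebraMap F E (hm t φ e) / τ 0 ^ n ∈ W.ring ↔ (n : ℝ) ≤ pa e ξ) := fun φ e n φ0 => by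
    have n0 := (map_ne_zero (algebraMap F E)).2 (hm_ne t0 φ0 e)
    rw [← Pl.ord_nonneg_iff _ (div_ne_zero n0 (zpow_ne_zero _ τ0)),
      Pl.ord_div _ n0 (zpow_ne_zero _ τ0), Pl.ord_zpow, ← Int.cast_nonneg_iff (R := ℝ)]
    push_cast
    rw [k1 φ e φ0, mul_comm (n : ℝ), ← mul_sub, mul_nonneg_iff_of_pos_left w0, sub_nonneg]
  have lv : ∀ j, (v j : ℝ) ≤ pa (a j) ξ := fun j => by
    simpa using (od (s j) (a j) (v j) (s0 j)).1 (by rw [zpow_natCast]; exact w.mem j)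
  refine (od _ _ _ (p0 m)).2 (H ξ lv ?_)
  have e : pa ((q : ℤ) • e₀ + b) ξ = q * pa e₀ ξ + pa b ξ := by
    simp [pa, add_mul, Finset.sum_add_distrib, Finset.mul_sum, mul_assoc]
  have e' : ∑ j, κ j * v j = q * (∑ j, (v j : ℤ) - ∑ i, ∑ j, (v j : ℤ) * β i j) -
      ∑ j, (γ j : ℤ) * v j := by
    rw [Finset.sum_comm, ← Finset.sum_sub_distrib, Finset.mul_sum, ← Finset.sum_sub_distrib]
    refine Finset.sum_congr rfl fun j _ => ?_
    rcases Nat.eq_zero_or_pos (u j) with z | z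
    · rw [hκ j z, ← Finset.mul_sum]
      ring
    · simp [v0 j z]
  have : ∑ j, (γ j : ℝ) * v j ≤ pa b ξ := by
    rw [← hγ, Hmr.pa_dg]
    exact Finset.sum_le_sum fun j _ => mul_le_mul_of_nonneg_left (lv j) (Nat.cast_nonneg _)
  have := mul_le_mul_of_nonneg_left k2 (Nat.cast_nonneg (α := ℝ) q)
  rw [e, e']
  push_cast
  linarith

end Vale.Agent.P283R.Hz
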