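import Vale.Agent.P283R.Hz.St

/-!
# P283R, block HZ: the order of the minor
-/

open Set MvPolynomial
open Vale.Agent.P297Z.Pl

noncomputable section

namespace Vale.Agent.P283R.Hz

open Vale.Agent.P287D Vale.Agent.P283R.Cx

namespace Jc

variable {E : Type} [Field E] [Algebra ℂ E] {N : ℕ}

/-- the variables are scaled by `w` -/
def sc (w : Fin N → E) : MvPolynomial (Fin N) ℂ →ₐ[ℂ] MvPolynomial (Fin N) E :=
  aeval fun j => C (w j) * X j

theorem sc_mon (w : Fin N → E) (m : Fin N →₀ ℕ) (a : ℂ) :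
    sc w (monomial m a) = monomial m (algebraMap ℂ E a * ∏ j, w j ^ m j) := by
  rw [sc, aeval_monomial, monomial_eq, Finsupp.prod_fintype _ _ (by simp),
    Finsupp.prod_fintype _ _ (by simp)]
  simp only [mul_pow, Finset.prod_mul_distrib, map_mul, map_prod, map_pow, mul_assoc]
  rfl

theorem sc_coeff (w : Fin N → E) (P : MvPolynomial (Fin N) ℂ) (m : Fin N →₀ ℕ) :
    coeff m (sc w P) = algebraMap ℂ E (coeff m P) * ∏ j, w j ^ m j := by
  classical
  induction P using MvPolynomial.induction_on' with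
  | monomial u a =>
    rw [sc_mon, coeff_monomial, coeff_monomial]
    split_ifs with h
    · rw [h]
    · simp
  | add p q hp hq => simp only [map_add, coeff_add, hp, hq, add_mul]

theorem sc_eval (w x : Fin N → E) (P : MvPolynomial (Fin N) ℂ) :
    eval x (sc w P) = aeval (fun j => w j * x j) P := by
  induction P using MvPolynomial.induction_on with
  | C a => simp [sc]
  | add p q hp hq => simp only [map_add, hp, hq]
  | mul_X p j hp => simp only [map_mul, hp]; simp [sc]

theorem sc_der (w : Fin N → E) (l : Fin N) (P : MvPolynomial (Fin N) ℂ) :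
    pderiv l (sc w P) = C (w l) * sc w (pderiv l P) := by
  classical
  induction P using MvPolynomial.induction_on with
  | C a => simp [sc]
  | add p q hp hq => simp only [map_add, hp, hq, mul_add]
  | mul_X p j hp =>
    have hX : sc w (X j) = C (w j) * X j := by simp [sc]
    simp only [map_mul, Derivation.leibniz, smul_eq_mul, map_add, hp, hX, pderiv_X, pderiv_C]
    by_cases h : j = l
    · subst h; simp; ring
    · simp [h]; ring

end Jc

theorem jac_of (dif : DIF) : JAC := by
  intro n F _ _ E _ _ _ _ τ hx N c D z v f ν e W hD hτ hm hi hf hν h0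
  have τ0 : τ ≠ 0 := by rintro rfl; simp at hτ
  have ev (P : MvPolynomial (Fin N) ℂ) : eval (xs z τ v) (Jc.sc (fun j => τ ^ v j) P) =
      algebraMap F E (aeval z P) := by
    rw [Jc.sc_eval, ← IsScalarTower.coe_toAlgHom' ℂ F E, comp_aeval_apply]
    congr 2
    funext j
    simp [xs, mul_div_cancel₀, τ0]
  set G : Fin c → MvPolynomial (Fin N) E :=
    fun i => C (τ ^ ν i)⁻¹ * Jc.sc (fun j => τ ^ v j) (f i) with hG
  have hd : (Matrix.of fun i l => eval (xs z τ v) (pderiv (e (.inl l)) (G i))).det =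
      (∏ i, (τ ^ ν i)⁻¹) * ((∏ l, τ ^ v (e (.inl l))) * algebraMap F E (mnr z f e)) := by
    rw [mnr, RingHom.map_det, ← Matrix.det_mul_row, ← Matrix.det_mul_column]
    congr 1
    ext i l
    simp [hG, Jc.sc_der, ev]
  have m0 : algebraMap F E (mnr z f e) ≠ 0 := by simpa using h0
  have p1 : (∏ i, (τ ^ ν i)⁻¹) ≠ 0 := Finset.prod_ne_zero_iff.2 fun i _ => by simp [τ0]
  have p2 : (∏ l, τ ^ v (e (.inl l))) ≠ 0 := Finset.prod_ne_zero_iff.2 fun i _ => by simp [τ0]
  have hc (i) (m) : coeff m (G i) ∈ Algebra.adjoin ℂ {τ ^ D} := by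
    by_cases h : m ∈ (f i).support
    · obtain ⟨r, hr⟩ := hν i m h
      have : coeff m (G i) = algebraMap ℂ E (coeff m (f i)) * (τ ^ D) ^ r := by
        simp only [hG, coeff_C_mul, Jc.sc_coeff, ← pow_mul, Finset.prod_pow_eq_pow_sum, hr, pow_add]
        field_simp
      rw [this]
      exact mul_mem (Subalgebra.algebraMap_mem _ _)
        (pow_mem (Algebra.self_mem_adjoin_singleton _ _) _)
    · simp [hG, Jc.sc_coeff, notMem_support_iff.1 h]
  obtain ⟨ρ, r0, r1, r2⟩ := dif N c n E W (τ ^ D) (xs z τ v) G e hx.ff'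
    (by rw [ord_pow]; positivity) hm hi hc (fun i => by simp [hG, ev, hf])
    (by rw [hd]; exact mul_ne_zero p1 (mul_ne_zero p2 m0))
  refine ⟨ρ, r0, r1, ?_⟩
  rw [hd, ord_mul _ p1 (mul_ne_zero p2 m0), ord_mul _ p2 m0,
    Pl.ord_prod _ _ fun i _ => by simp [τ0], Pl.ord_prod _ _ fun i _ => by simp [τ0]] at r2
  simp only [ord_inv, ord_pow, Finset.sum_neg_distrib, ← Finset.sum_mul] at r2
  linarith

end Vale.Agent.P283R.Hz
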