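import Vale.Agent.P283R.Hz.St
import Vale.Agent.P283R.To.Gs2

/-!
# P283R, block HZ: the log discrepancy of a frame at a place of the Rees ring
-/

open Set

noncomputable section

namespace Vale.Agent.P283R.Hz

open Vale.Agent.P287D Vale.Agent.P283M Vale.Agent.P283R.Cx Vale.Agent.P297Z
open Vale.Agent.P283R.To (mon)

theorem kpw68 : KPW := by
  intro n F _ _ E _ _ _ _ τ x w v W h0 hm hi
  have t0 : τ ≠ 0 := fun h => by simp [h] at h0
  have e : (fun i => (finSuccEquiv n i).elim τ (xs w τ v)) =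
      (Fin.cons τ (xs w τ v) : Fin (n + 1) → E) :=
    funext fun i => Fin.cases (by simp) (fun i => by simp) i
  have ind : AlgebraicIndependent ℂ (Fin.cons τ (xs w τ v) : Fin (n + 1) → E) :=
    e ▸ (AlgebraicIndependent.option_iff.2 ⟨Cb.ind_of_rd hm hi,
      Cb.trans_of_mx hm hi t0 (Cb.mx_iff.2 (.inr h0))⟩).comp _ (finSuccEquiv n).injective
  have kr := To.kap_ram x.ff' (finSuccEquiv n) h0 hm hi
  rw [e] at kr
  let V : Fin n → Fin (n + 1) → ℤ := fun i => Fin.cons (v i) (Pi.single i 1)
  have hV : LinearIndependent ℤ V := Fintype.linearIndependent_iff.2 fun g h i => by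
    have := congrFun h i.succ
    simpa [V, Pi.single_apply] using this
  have hy : ∀ i, algebraMap F E (w i) = mon (Fin.cons τ (xs w τ v) : Fin (n + 1) → E) (V i) :=
    fun i => by
      rw [mon, Fin.prod_univ_succ, Finset.prod_eq_single i (fun j _ h => by simp [V, h]) (by simp)]
      simp [V, xs, mul_div_cancel₀ _ (pow_ne_zero _ t0)]
  have hc : ∀ c, algebraMap F E (algebraMap ℂ F c) = algebraMap ℂ E c :=
    fun c => (IsScalarTower.algebraMap_apply ℂ F E c).symm
  have wi := To.ind_y x.ff' hc ind hV hy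
  refine ⟨wi, fun R l => ?_⟩
  have d := To.down x.ff x.ff' hc ind hV hy l
  have o : ∀ i, (W.ord (algebraMap F E R.t) : ℝ) * R.ord (w i) =
      W.ord τ * v i + W.ord (xs w τ v i) := fun i => by
    have := l.ord (w i)
    rw [xs, Pl.ord_div _ ((map_ne_zero _).2 (wi.ne_zero i)) (pow_ne_zero _ t0), Pl.ord_pow, this]
    push_cast
    ring
  rw [To.la, To.la, mul_sub, Finset.mul_sum, Fin.sum_univ_succ, kr] at d
  simp only [o, Fin.cons_zero, Fin.cons_succ, Finset.sum_add_distrib, ← Finset.mul_sum] at d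
  linarith

end Vale.Agent.P283R.Hz
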