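import Vale.Agent.P283R.Hz.St
import Vale.Agent.P283R.Cx.Bas

/-!
# P283R, block HZ: the local equations of the new presentation
-/

open Set MvPolynomial

noncomputable section

namespace Vale.Agent.P283R.Hz

open Vale.Agent.P287D Vale.Agent.P283R.Cx

namespace Lgs

variable {N k : ℕ}

/-- the polynomial does not depend on the variable `j` -/
def Fr (j : Fin N) (Q : MvPolynomial (Fin N) ℂ) : Prop :=
  ∀ (R : Type) [CommRing R] [Algebra ℂ R] (x x' : Fin N → R), (∀ i, i ≠ j → x i = x' i) →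
    aeval x Q = aeval x' Q

theorem aev_sum {R : Type} [CommRing R] [Algebra ℂ R] (x : Fin N → R)
    (Q : MvPolynomial (Fin N) ℂ) :
    aeval x Q = ∑ m ∈ Q.support, coeff m Q • ∏ i, x i ^ m i := by
  rw [aeval_def, eval₂_eq']
  exact Finset.sum_congr rfl fun m _ => (Algebra.smul_def _ _).symm

theorem fr_of {j : Fin N} {Q : MvPolynomial (Fin N) ℂ} (h : ∀ m ∈ Q.support, m j = 0) :
    Fr j Q := fun R _ _ x x' hx => by
  rw [aev_sum, aev_sum]
  refine Finset.sum_congr rfl fun m hm => congrArg _ (Finset.prod_congr rfl fun i _ => ?_)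
  by_cases e : i = j
  · rw [e, h m hm, pow_zero, pow_zero]
  · rw [hx i e]

theorem pd_of {j : Fin N} {Q : MvPolynomial (Fin N) ℂ} (h : ∀ m ∈ Q.support, m j = 0) :
    pderiv j Q = 0 := pderiv_eq_zero_of_notMem_vars fun hj => by
  obtain ⟨m, hm, e⟩ := (mem_vars_iff_mem_support j).1 hj
  exact Finsupp.mem_support_iff.1 e (h m hm)

/-- elimination of the variable `j` -/
theorem elim {j : Fin N} {B : MvPolynomial (Fin N) ℂ} (hB : Fr j B) (Q : MvPolynomial (Fin N) ℂ) :
    ∃ (n : ℕ) (Q' c : MvPolynomial (Fin N) ℂ), Fr j Q' ∧ B ^ n * Q = Q' + c * (X j * B - 1) := by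
  induction Q using MvPolynomial.induction_on with
  | C a => exact ⟨0, C a, 0, fun R _ _ x x' _ => by simp, by simp⟩
  | add p q hp hq =>
    obtain ⟨n, p', c, h1, h2⟩ := hp
    obtain ⟨m, q', c', k1, k2⟩ := hq
    refine ⟨n + m, B ^ m * p' + B ^ n * q', B ^ m * c + B ^ n * c', fun R _ _ x x' hx => ?_, ?_⟩
    · simp only [map_add, map_mul, map_pow, hB R x x' hx, h1 R x x' hx, k1 R x x' hx]
    · linear_combination B ^ m * h2 + B ^ n * k2
  | mul_X p i hp =>
    obtain ⟨n, p', c, h1, h2⟩ := hp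
    by_cases e : i = j
    · subst e
      exact ⟨n + 1, p', c + B ^ n * p, h1, by linear_combination h2⟩
    · refine ⟨n, p' * X i, c * X i, fun R _ _ x x' hx => ?_, by linear_combination X i * h2⟩
      simp only [map_mul, aeval_X, h1 R x x' hx, hx i e]

theorem dot (a : Fin N → Fin k → ℤ) (l : Fin k → ℤ) (m : Fin N → ℕ) :
    dg a m ⬝ᵥ l = ∑ j, (m j : ℤ) * (a j ⬝ᵥ l) := by
  simp only [dotProduct, dg, Finset.sum_mul, Finset.mul_sum, mul_assoc]
  exact Finset.sum_comm

/-- monomials of degree zero involve only the units -/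
theorem deg0 {a : Fin N → Fin k → ℤ} {u : Fin N → ℕ} {l : Fin k → ℤ} (h : Gt a u l)
    {m : Fin N → ℕ} (hm : dg a m = 0) {i : Fin N} (hi : u i = 0) : m i = 0 := by
  have e := dot a l m
  rw [hm, zero_dotProduct, eq_comm, Finset.sum_eq_zero_iff_of_nonneg fun j _ =>
    mul_nonneg (Nat.cast_nonneg _) (h.pos j)] at e
  rcases mul_eq_zero.1 (e i (Finset.mem_univ _)) with e | e
  · exact_mod_cast e
  · exact absurd ((h.iff i).2 e) (by omega)

variable {K F : Type} [Field K] [Algebra ℂ K] [Field F] [Algebra ℂ F] [Algebra K F]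
  [IsScalarTower ℂ K F]

theorem aev_hm {t : Fin k → F} (ht : ∀ i, t i ≠ 0) (s : Fin N → K) (a : Fin N → Fin k → ℤ)
    {Q : MvPolynomial (Fin N) ℂ} {e : Fin k → ℤ} (h : ∀ m ∈ Q.support, dg a m = e) :
    aeval (zz t s a) Q = hm t (aeval s Q) e := by
  rw [aev_sum, aev_sum, hm, map_sum, Finset.sum_mul]
  refine Finset.sum_congr rfl fun m hm' => ?_
  have := hm_smul t (coeff m Q) (∏ i, s i ^ m i) e
  rw [← h m hm', hm_prod ht, h m hm'] at this
  exact this.symm

/-- the algebraic core -/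
theorem core {c : ℕ} {z z' p p' : Fin N → F} {j : Fin N} {B P : MvPolynomial (Fin N) ℂ}
    {f : Fin c → MvPolynomial (Fin N) ℂ} (hB : ∀ m ∈ B.support, m j = 0)
    (hP : ∀ m ∈ P.support, m j = 0) (hz : ∀ i, i ≠ j → z' i = z i) (hp : ∀ i, i ≠ j → p' i = p i)
    (e1 : z' j * aeval z B = 1) (e2 : aeval z B * z j = aeval z P) (pj : p j = 0)
    (pB : aeval p B ≠ 0) (cpt : ∀ Q : MvPolynomial (Fin N) ℂ, aeval z Q = 0 → aeval p Q = 0)
    (van : ∀ i, aeval z (f i) = 0)
    (gen : ∀ Q : MvPolynomial (Fin N) ℂ, aeval z Q = 0 →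
      ∃ S : MvPolynomial (Fin N) ℂ, aeval p S ≠ 0 ∧ S * Q ∈ Ideal.span (range f)) :
    ∃ f' : Fin c → MvPolynomial (Fin N) ℂ, (∀ i, aeval z' (f' i) = 0) ∧
      ∀ Q : MvPolynomial (Fin N) ℂ, aeval z' Q = 0 →
        ∃ S : MvPolynomial (Fin N) ℂ, aeval p' S ≠ 0 ∧ S * Q ∈ Ideal.span (range f') := by
  classical
  have fB := fr_of hB
  have fP := fr_of hP
  let φ : MvPolynomial (Fin N) ℂ →ₐ[ℂ] MvPolynomial (Fin N) ℂ :=
    aeval (Function.update X j (X j * P))
  have hφ : ∀ Q, Fr j Q → φ Q = Q := fun Q h => by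
    rw [show φ Q = aeval X Q from h _ _ _ fun i e => Function.update_of_ne e _ _, aeval_X_left_apply]
  have ev : ∀ (x x' : Fin N → F), (∀ i, i ≠ j → x' i = x i) → x' j * aeval x P = x j →
      ∀ Q, aeval x' (φ Q) = aeval x Q := fun x x' h e Q => by
    have : (aeval x').comp φ = aeval x := algHom_ext fun i => by
      by_cases hi : i = j
      · subst hi
        simp only [φ, AlgHom.comp_apply, aeval_X, Function.update_self, map_mul,
          fP F x' x h, e]
      · simp only [φ, AlgHom.comp_apply, aeval_X, Function.update_of_ne hi, h i hi]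
    exact DFunLike.congr_fun this Q
  have r0 : aeval z (B * X j - P) = 0 := by rw [map_sub, map_mul, aeval_X, e2, sub_self]
  have r1 := cpt _ r0
  have pP : aeval p P = 0 := by
    simpa only [map_sub, map_mul, aeval_X, pj, mul_zero, zero_sub, neg_eq_zero] using r1
  have ez := ev z z' hz (by rw [← e2, ← mul_assoc, e1, one_mul])
  have ep := ev p p' hp (by rw [pP, pj, mul_zero])
  obtain ⟨S, S0, hS⟩ := gen _ r0
  obtain ⟨w, hw⟩ := Ideal.mem_span_range_iff_exists_fun.1 hS
  obtain ⟨i₀, hi⟩ : ∃ i, aeval p (w i) ≠ 0 := by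
    by_contra! hc
    have := congrArg (fun Q => aeval p (pderiv j Q)) hw
    simp only [map_sum, Derivation.leibniz, smul_eq_mul, map_add, map_mul, map_sub, hc,
      cpt _ (van _), zero_mul, add_zero, Finset.sum_const_zero, pd_of hB, pd_of hP, pderiv_X_self,
      aeval_X, pj, pP, mul_zero, sub_zero, mul_one] at this
    exact mul_ne_zero S0 pB this.symm
  set f' := Function.update (fun i => φ (f i)) i₀ (X j * B - 1) with hf'
  have g0 : X j * B - 1 ∈ Ideal.span (range f') :=
    Ideal.subset_span ⟨i₀, Function.update_self _ _ _⟩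
  have g1 : ∀ i, i ≠ i₀ → φ (f i) ∈ Ideal.span (range f') := fun i e =>
    Ideal.subset_span ⟨i, Function.update_of_ne e _ _⟩
  have g2 : ∀ i, φ (w i₀) * φ (f i) ∈ Ideal.span (range f') := fun i => by
    by_cases e : i = i₀
    · subst e
      have h := congrArg φ hw
      rw [map_sum, ← Finset.add_sum_erase _ _ (Finset.mem_univ i), map_mul, map_mul, map_sub,
        map_mul, hφ B fB, hφ P fP] at h
      have e3 : φ (X j) = X j * P := by simp only [φ, aeval_X, Function.update_self]
      rw [eq_sub_of_add_eq h, e3, show φ S * (B * (X j * P) - P) = φ S * P * (X j * B - 1) by ring]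
      refine sub_mem (Ideal.mul_mem_left _ _ g0) (Ideal.sum_mem _ fun i' h' => ?_)
      rw [map_mul]
      exact Ideal.mul_mem_left _ _ (g1 i' (Finset.ne_of_mem_erase h'))
    · exact Ideal.mul_mem_left _ _ (g1 i e)
  have zB : aeval z' B = aeval z B := fB F z' z hz
  refine ⟨f', fun i => ?_, fun Q hQ => ?_⟩
  · by_cases e : i = i₀
    · rw [e, hf', Function.update_self, map_sub, map_mul, aeval_X, zB, e1, map_one, sub_self]
    · rw [hf', Function.update_of_ne e, ez, van]
  · obtain ⟨n, Q', c', h1, h2⟩ := elim fB Q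
    have q0 : aeval z Q' = 0 := by
      have := congrArg (aeval z') h2
      rw [map_mul, hQ, mul_zero, map_add, map_mul, map_sub, map_mul, aeval_X, zB, e1, map_one,
        sub_self, mul_zero, add_zero, h1 F z' z hz] at this
      exact this.symm
    obtain ⟨S₁, s0, hs⟩ := gen _ q0
    obtain ⟨w₁, hw₁⟩ := Ideal.mem_span_range_iff_exists_fun.1 hs
    refine ⟨φ (w i₀) * φ S₁ * B ^ n, ?_, ?_⟩
    · rw [map_mul, map_mul, ep, ep, map_pow, fB F p' p hp]
      exact mul_ne_zero (mul_ne_zero hi s0) (pow_ne_zero _ pB)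
    · have h := congrArg φ hw₁
      rw [map_sum, map_mul, hφ Q' h1] at h
      rw [mul_assoc, h2, mul_add, mul_assoc, ← h, Finset.mul_sum, ← mul_assoc]
      refine add_mem (Ideal.sum_mem _ fun i _ => ?_) (Ideal.mul_mem_left _ _ g0)
      rw [map_mul, mul_left_comm]
      exact Ideal.mul_mem_left _ _ (g2 i)

end Lgs

open Lgs in
theorem lgs_of (cpt : CPT) : LGS := fun K F _ _ _ _ _ _ d k N q ε y t T D s a u l h₀ g e₀ b Q H
    c f j B P h L => by
  have ht : ∀ i, t i ≠ 0 := fun i => H.ext.ind.ne_zero i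
  have b0 : ∀ m ∈ B.support, ∀ i, u i = 0 → m i = 0 := fun m hm i hi => deg0 H.gt (h.hB m hm) hi
  have eB : aeval (zz t s a) B = algebraMap K F (aeval s B) := by
    rw [aev_hm ht s a h.hB, hm_deg0]
  have pB : aeval (kl u (zz t s a)) B = aeval (zz t s a) B := by
    rw [aev_sum, aev_sum]
    refine Finset.sum_congr rfl fun m hm => congrArg _ (Finset.prod_congr rfl fun i _ => ?_)
    by_cases e : u i = 0
    · rw [b0 m hm i e, pow_zero, pow_zero]
    · rw [kl, if_neg e]
  have hz : ∀ i, i ≠ j → zz t (Function.update s j (aeval s B)⁻¹) (Function.update a j 0) i =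
      zz t s a i := fun i e => by rw [zz, zz, Function.update_of_ne e, Function.update_of_ne e]
  obtain ⟨f', h1, h2⟩ := core (z := zz t s a)
    (z' := zz t (Function.update s j (aeval s B)⁻¹) (Function.update a j 0))
    (p := kl u (zz t s a)) (p' := kl (Function.update u j 1)
      (zz t (Function.update s j (aeval s B)⁻¹) (Function.update a j 0))) (j := j) (B := B)
    (P := P) (f := f) (fun m hm => b0 m hm j h.off) (fun m hm => (h.hP m hm).2) hz
    (fun i e => by rw [kl, kl, Function.update_of_ne e, hz i e])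
    (by rw [zz, Function.update_self, Function.update_self, hm_deg0, eB, ← map_mul,
      inv_mul_cancel₀ h.ne, map_one])
    (by rw [aev_hm ht s a fun m hm => (h.hP m hm).1, eB, ← h.eq, zz, hm, hm, map_mul, mul_assoc])
    (by rw [kl, if_pos h.off]) (by rw [pB, eB]; exact (map_ne_zero _).2 h.ne)
    (fun R hR => (cpt K F d k N q ε y t T D s a u l h₀ g e₀ b Q H R hR).1) L.van L.gen
  exact ⟨f', h1, h2⟩

end Vale.Agent.P283R.Hz
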