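import Vale.Agent.P283R.Hz.Cpt
import Vale.Agent.P283R.Cx.Bas

/-!
# P283R, block HZ: a linear term gives a superfluous variable
-/

open Set MvPolynomial

noncomputable section

namespace Vale.Agent.P283R.Hz

open Vale.Agent.P287D Vale.Agent.P283R.Cx

namespace Lin

variable {K F : Type} [Field K] [Algebra ℂ K] [Field F] [Algebra ℂ F] [Algebra K F] {k N : ℕ}

theorem dg_eq (a : Fin N → Fin k → ℤ) (m : Fin N →₀ ℕ) : dg a m = Finsupp.weight a m := by
  funext i
  rw [Finsupp.weight_apply,
    Finsupp.sum_fintype _ (fun i (c : ℕ) => c • a i) fun _ => zero_smul _ _]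
  simp [dg, Finset.sum_apply]

/-- the value of a homogeneous polynomial -/
theorem aeval_zz [IsScalarTower ℂ K F] {t : Fin k → F} (ht : ∀ i, t i ≠ 0) (s : Fin N → K)
    (a : Fin N → Fin k → ℤ) {e : Fin k → ℤ} {G : MvPolynomial (Fin N) ℂ}
    (h : ∀ m ∈ G.support, dg a m = e) : aeval (zz t s a) G = hm t (aeval s G) e := by
  rw [aeval_def, eval₂_eq', aeval_def, eval₂_eq', hm, map_sum, Finset.sum_mul]
  refine Finset.sum_congr rfl fun m hm' => ?_
  rw [← h m hm', map_mul, mul_assoc, ← IsScalarTower.algebraMap_apply]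
  exact congrArg _ (hm_prod ht s a m).symm

end Lin

open Lin

theorem lin_of (cpt : CPT) : LIN := by
  intro K F _ _ _ _ _ _ d k N q ε y t T D s a u l h₀ g e₀ b Q Z hn
  classical
  have C := cpt K F d k N q ε y t T D s a u l h₀ g e₀ b Q Z
  have ht := Z.ext.ind.ne_zero
  simp only [Mn, not_forall] at hn
  obtain ⟨P, hP, j, uj, hj⟩ := hn
  obtain ⟨e, he⟩ : ∃ e, aeval (kl u (zz t s a))
      (pderiv j (weightedHomogeneousComponent a e P)) ≠ 0 := by
    by_contra! h
    rw [← sum_weightedHomogeneousComponent (w := a) P,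
      finsum_eq_sum _ (weightedHomogeneousComponent_finsupp (w := a) P), map_sum, map_sum] at hj
    exact hj (Finset.sum_eq_zero fun e _ => h e)
  have h0 := (C P hP).2 e
  have hh : ∀ m, coeff m (weightedHomogeneousComponent a e P) ≠ 0 → dg a m = e := fun m hm =>
    (dg_eq a m).trans (weightedHomogeneousComponent_isWeightedHomogeneous e P hm)
  set G := weightedHomogeneousComponent a e P
  have dv := divMonomial_add_modMonomial_single G j
  set B₀ := G.divMonomial (Finsupp.single j 1)
  set P₀ := G.modMonomial (Finsupp.single j 1)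
  have hP₀ : ∀ m, coeff m P₀ ≠ 0 → dg a m = e ∧ m j = 0 := fun m hm => by
    have n : ¬ Finsupp.single j 1 ≤ m := fun n => hm (coeff_modMonomial_of_le G n)
    rw [coeff_modMonomial_of_not_le G n] at hm
    exact ⟨hh m hm, by simpa using n⟩
  have hB₀ : ∀ m, coeff m B₀ ≠ 0 → a j + dg a m = e := fun m hm => by
    rw [← hh _ (coeff_divMonomial _ G m ▸ hm), Finsupp.coe_add, dg_add,
      Finsupp.single_eq_pi_single, dg_single]
  have b0 : aeval (kl u (zz t s a)) B₀ ≠ 0 := by
    have : pderiv j P₀ = 0 := pderiv_eq_zero_of_notMem_vars fun h => by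
      obtain ⟨m, hm, h⟩ := (mem_vars_iff_mem_support j).1 h
      exact Finsupp.mem_support_iff.1 h (hP₀ m (mem_support_iff.1 hm)).2
    rw [← dv, map_add, this, add_zero, Derivation.leibniz, pderiv_X_self] at he
    simpa [kl, uj] using he
  obtain ⟨m₁, m1, m2⟩ : ∃ m ∈ B₀.support, ∏ i, kl u (zz t s a) i ^ m i ≠ 0 := by
    by_contra! h
    rw [aeval_def, eval₂_eq'] at b0
    exact b0 (Finset.sum_eq_zero fun m hm => by rw [h m hm, mul_zero])
  have m3 : ∀ i, m₁ i ≤ (∑ i, m₁ i) * u i := fun i => by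
    rcases Nat.eq_zero_or_pos (u i) with h | h
    · by_contra n
      exact Finset.prod_ne_zero_iff.1 m2 i (Finset.mem_univ i)
        (by rw [kl, if_pos h, zero_pow (by omega)])
    · exact (Finset.single_le_sum (fun _ _ => Nat.zero_le _) (Finset.mem_univ i)).trans
        (Nat.le_mul_of_pos_right _ h)
  let w : Fin N →₀ ℕ := Finsupp.equivFunOnFinite.symm fun i => (∑ i, m₁ i) * u i - m₁ i
  have w0 : ∀ i, u i = 0 → w i = 0 := fun i h => by simp [w, h]
  have w1 : dg a w + e = a j := by
    have : dg a (w + m₁) = 0 := by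
      funext i
      have := congrArg (((∑ i, m₁ i : ℕ) : ℤ) * ·) (congrFun Z.gt.inv i)
      simp only [dg, Pi.zero_apply, mul_zero, Finset.mul_sum] at this ⊢
      refine Eq.trans (Finset.sum_congr rfl fun x _ => ?_) this
      rw [Pi.add_apply, show w x + m₁ x = (∑ i, m₁ i) * u x from Nat.sub_add_cancel (m3 x),
        Nat.cast_mul, mul_assoc]
    rw [← hB₀ m₁ (mem_support_iff.1 m1), add_left_comm, ← dg_add, this, add_zero]
  have sp : ∀ (H : MvPolynomial (Fin N) ℂ), ∀ m ∈ (monomial w (1 : ℂ) * H).support,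
      ∃ m', coeff m' H ≠ 0 ∧ m = w + m' := fun H m hm => by
    rw [mem_support_iff, coeff_monomial_mul'] at hm
    split_ifs at hm with h
    · exact ⟨m - w, right_ne_zero_of_mul hm, (add_tsub_cancel_of_le h).symm⟩
    · exact (hm rfl).elim
  have hB : ∀ m ∈ (monomial w (1 : ℂ) * B₀).support, dg a m = 0 := fun m hm => by
    obtain ⟨m', h, rfl⟩ := sp _ m hm
    rw [Finsupp.coe_add, dg_add]
    exact add_left_cancel (a := a j) (by rw [add_left_comm, hB₀ m' h, w1, add_zero])
  have hP' : ∀ m ∈ (monomial w (1 : ℂ) * -P₀).support, dg a m = a j ∧ m j = 0 := fun m hm => by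
    obtain ⟨m', h, rfl⟩ := sp _ m hm
    have := hP₀ m' (by simpa using h)
    exact ⟨by rw [Finsupp.coe_add, dg_add, this.1, w1], by simp [w0 j uj, this.2]⟩
  refine ⟨j, _, _, uj, fun z => ?_, hB, hP', ?_⟩
  · have := (C _ ((aeval_zz ht s a hB).trans (by rw [z, hm_zero]))).1
    rw [map_mul, aeval_monomial, map_one, one_mul] at this
    refine (mul_eq_zero.1 this).elim (Finset.prod_ne_zero_iff.2 fun i hi => pow_ne_zero _ ?_) b0
    rw [kl, if_neg fun h => Finsupp.mem_support_iff.1 hi (w0 i h)]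
    exact hm_ne ht (Z.cox.ne i) _
  · have : aeval s G = 0 := by
      by_contra n
      exact hm_ne ht n e ((aeval_zz ht s a fun m hm => hh m (mem_support_iff.1 hm)).symm.trans h0)
    rw [← dv, map_add, map_mul, aeval_X] at this
    rw [map_mul, map_mul, map_neg]
    linear_combination aeval s (monomial w (1 : ℂ)) * this

theorem lin : LIN := lin_of cpt

end Vale.Agent.P283R.Hz
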