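import Vale.Agent.P283R.Hz.St
import Vale.Agent.P283R.Cx.All
import Vale.Agent.P283R.Hy.Pt

/-!
# P283R, block HZ: the residue form at the vertex
-/

set_option linter.all false

open Set MvPolynomial
open Vale.Agent.P285N.Brep (jac Fr)

noncomputable section

namespace Vale.Agent.P283R.Hz

open Vale.Agent.P287D Vale.Agent.P283M Vale.Agent.P283R.Cx Vale.Agent.P283R.Cy Vale.Agent.P297Z
open Vale.Agent.P283R.Co (K0 z0)
open Vale.Agent.P283R.H Vale.Agent.P283R.H.Re Vale.Agent.P283R.Dr13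

namespace Un

variable {F : Type} [Field F] [Algebra ℂ F] {c n : ℕ}

/-- adjunction for local equations which are polynomials -/
theorem res_pol {L : Type} [Field L] [Algebra ℂ L] {z : Fin (c + n) → F}
    (aff : Aff n (Algebra.adjoin ℂ (range z))) (nor : IsIntegrallyClosed (Algebra.adjoin ℂ (range z)))
    (φ : MvPolynomial (Fin (c + n)) ℂ →ₐ[ℂ] L) (hφ : ∀ P, aeval z P = 0 → φ P = 0)
    {f : Fin c → MvPolynomial (Fin (c + n)) ℂ} (van : ∀ i, aeval z (f i) = 0)
    (gen : ∀ P, aeval z P = 0 → ∃ A, φ A ≠ 0 ∧ A * P ∈ Ideal.span (range f))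
    (e : Fin c ⊕ Fin n ≃ Fin (c + n)) {D' : Fin n → Derivation ℂ F F}
    (fr : Fr (fun i => z (e (.inr i))) D') {y : Fin n → F} (hy : Frm y) :
    ∃ p : Ideal (Algebra.adjoin ℂ (range z)), p.IsPrime ∧
      (∀ a, a ∉ p → ∃ A, φ A ≠ 0 ∧ aeval z A = a) ∧
      (∀ A (a : Algebra.adjoin ℂ (range z)), φ A ≠ 0 → aeval z A = (a : F) → a ∉ p) ∧ jac D' y * mnr z f e ≠ 0 ∧
      ∀ R, PDat _ p R → kap y R = R.ord (jac D' y * mnr z f e) := by
  classical
  let ι : MvPolynomial (Fin (c + n)) ℂ →ₐ[ℂ] K0 (c + n) := aeval (z0 _)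
  let g := AlgEquiv.ofInjective ι Ty.rat_z0.ind
  let q : MvPolynomial (Fin (c + n)) ℂ →ₐ[ℂ] Algebra.adjoin ℂ (range z) :=
    (aeval z).codRestrict _ fun p => by rw [Algebra.adjoin_range_eq_range_aeval]; exact ⟨p, rfl⟩
  have sq : Function.Surjective q := by
    rintro ⟨b, hb⟩
    rw [Algebra.adjoin_range_eq_range_aeval] at hb
    obtain ⟨p, rfl⟩ := hb
    exact ⟨p, rfl⟩
  have kq : RingHom.ker q ≤ RingHom.ker φ := fun P h => hφ P (congrArg Subtype.val h)
  have pr : (RingHom.ker φ).IsPrime := RingHom.ker_isPrime φ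
  have pp : (Ideal.map q (RingHom.ker φ)).IsPrime := Ideal.map_isPrime_of_surjective sq kq
  have mp : ∀ P, q P ∈ Ideal.map q (RingHom.ker φ) ↔ φ P = 0 := fun P => by
    rw [← Ideal.mem_comap, Ideal.comap_map_of_surjective _ sq, ← RingHom.ker_eq_comap_bot,
      sup_eq_left.2 kq, RingHom.mem_ker]
  generalize Ideal.map q (RingHom.ker φ) = p at pp mp
  let π : ι.range →ₐ[ℂ] Algebra.adjoin ℂ (range z) := q.comp g.symm.toAlgHom
  have πg : ∀ P, π (g P) = q P := fun P => congrArg q (g.symm_apply_apply P)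
  have pp' : (p.comap π).IsPrime := Ideal.comap_isPrime π p
  let σ : Fin (c + n) ≃ Fin (c + n) := finSumFinEquiv.symm.trans e
  obtain ⟨D, hD⟩ := Cb.fr_of Ty.rat_z0.ff (Ty.rat_z0.ind.comp σ σ.injective)
  have dP : ∀ l P, D l (g P : ι.range) = (g (pderiv (σ l) P) : ι.range) := fun l P => by
    change D l (aeval (z0 _) P) = aeval (z0 _) _
    rw [Hy.der_aeval, ← σ.sum_comp, Finset.sum_eq_single l (fun m _ h => by
      rw [show D l (z0 _ (σ m)) = _ from hD.dual l m, if_neg (Ne.symm h), mul_zero]) (by simp),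
      show D l (z0 _ (σ l)) = _ from hD.dual l l, if_pos rfl, mul_one]
  have : Algebra.Smooth ℂ (MvPolynomial (Fin (c + n)) ℂ) := ⟨inferInstance, inferInstance⟩
  have up : Up n π p (fun i => g (f i)) (z0 _ ∘ σ) D := by
    refine ⟨aff, nor, ⟨Ty.rat_z0.ff, ?_, fun x => ?_⟩, .of_equiv g, rfl, sq.comp g.symm.surjective,
      pp, fun i => by rw [πg]; exact Subtype.ext (van i), fun a h => ?_, hD,
      fun l => ⟨X (σ l), aeval_X _ _⟩, fun l a => der_lo pp' le_rfl fun s => ?_⟩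
    · rw [← Algebra.map_top]
      exact Subalgebra.FG.map _ Algebra.FiniteType.out
    · obtain ⟨a, b, -, rfl⟩ := IsFractionRing.div_surjective (A := MvPolynomial (Fin (c + n)) ℂ) x
      exact ⟨g a, g b, by rw [← Ty.aeval_z0, ← Ty.aeval_z0]; rfl⟩
    · obtain ⟨a, rfl⟩ := g.surjective a
      rw [πg] at h
      obtain ⟨A, A0, hA⟩ := gen a (congrArg Subtype.val h)
      refine ⟨g A, by rw [πg, mp]; exact A0, ?_⟩
      rw [show range (fun j => g (f j)) = g '' range f from range_comp g f, ← Ideal.map_span,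
        ← map_mul]
      exact Ideal.mem_map_of_mem _ hA
    · obtain ⟨s, rfl⟩ := g.surjective s
      rw [dP]
      exact coe_mem pp' _
  obtain ⟨j, j0, rs, kj⟩ := res _ _ _ _ π p n c _ _ _ D up y hy
  obtain ⟨u₀, D₀, fr₀, ej⟩ := (rs_iff up).1 rs
  have hI := ker_prime π
  have rg : ∀ P, rh π (g P : ι.range) = aeval z P := fun P => by rw [rh_coe, πg]; rfl
  have fr' : Fr (fun i => rh π (g (X (e (.inr i))) : ι.range)) D' := by
    simpa only [rg, aeval_X] using fr
  have ch := up.lc.chain (u := fun i => (g (X (e (.inr i))) : ι.range)) (w := fun i => u₀ i)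
    (fun i => coe_mem hI _) (fun i => coe_mem hI _) fr'
  have em : rh π (jac D (Fin.append (fun i => ((g (f i) : ι.range) : K0 (c + n)))
      fun i => (g (X (e (.inr i))) : ι.range))) = mnr z f e := by
    rw [Mi.Bn.rh_jac up.lc pp', ← Matrix.det_submatrix_equiv_self finSumFinEquiv,
      ← Matrix.fromBlocks_toBlocks (Matrix.submatrix _ _ _)]
    have b1 : ∀ l (m : Fin c ⊕ Fin n), rh π (D (finSumFinEquiv l) (Fin.append (fun i => g (f i))
        (fun i => g (X (e (.inr i)))) (finSumFinEquiv m) : ι.range)) =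
        aeval z (pderiv (e l) (m.elim f fun i => X (e (.inr i)))) := fun l m => by
      rcases m with m | m
      · rw [finSumFinEquiv_apply_left, Fin.append_left, dP, rg]
        simp [σ]
      · rw [finSumFinEquiv_apply_right, Fin.append_right, dP, rg]
        simp [σ]
    rw [show Matrix.toBlocks₁₂ _ = 0 from ?_, show Matrix.toBlocks₂₂ _ = 1 from ?_,
      Matrix.det_fromBlocks_zero₁₂, Matrix.det_one, mul_one, mnr, ← Matrix.det_transpose]
    · congr 1
      ext i l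
      exact b1 (.inl l) (.inl i)
    · ext l i
      refine (b1 (.inr l) (.inr i)).trans ?_
      simp [pderiv_X, Pi.single_apply, Matrix.one_apply, apply_ite, eq_comm]
    · ext l i
      refine (b1 (.inl l) (.inr i)).trans ?_
      simp [pderiv_X, Pi.single_apply]
  have ej' : j = jac D' y * mnr z f e := by
    rw [ej, ch, em, Cb.jac_chain fr₀ D' y]
    ring
  rw [ej'] at j0 kj
  refine ⟨p, pp, fun a ha => ?_, fun A a A0 h => ?_, j0, kj⟩
  · obtain ⟨A, rfl⟩ := sq a
    exact ⟨A, mt (mp A).2 ha, rfl⟩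
  · rw [← (Subtype.ext h : q A = a), mp]
    exact A0

end Un

open Un in
theorem unt_of (cpt : CPT) : UNT := by
  intro K F _ _ _ _ _ _ d k N q ε y t T D s a u l h₀ g e₀ b Q x c f e D' lg fr
  obtain rfl : N = c + (d + k) := by simpa using (Fintype.card_congr e).symm
  have t0 := x.ext.ind.ne_zero
  have hA : Aff (d + k) (Algebra.adjoin ℂ (range (zz t s a))) :=
    aff K F d k y t x.ext x.fr _ T D s a x.cox
  have hN : IsIntegrallyClosed (Algebra.adjoin ℂ (range (zz t s a))) :=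
    nor K F d k y t x.ext x.fr _ T D s a x.cox
  obtain ⟨p, pp, h1, -, j0, kj⟩ := res_pol (z := zz t s a) hA hN (aeval (kl u (zz t s a)))
    (fun P h => (cpt K F d k _ q ε y t T D s a u l h₀ g e₀ b Q x P h).1) lg.van lg.gen e fr
    (zt_frm x.ext x.fr)
  refine ⟨right_ne_zero_of_mul j0, ?_⟩
  have p0 : (∏ i, t i) ≠ 0 := Finset.prod_ne_zero_iff.2 fun i _ => t0 i
  have η0 := hm_ne t0 x.can.1 e₀
  have w0 := mul_ne_zero p0 η0
  have oR : ∀ R, PDat _ p R → R.ord (jac D' (zt y t) * mnr (zz t s a) f e /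
      ((∏ i, t i) * hm t h₀ e₀)) = 0 := fun R hR => by
    have pd : PD (Rg s a t) R := let ⟨r, _, k⟩ := hR; ⟨r, k⟩
    have k1 := kj R hR
    have k2 : lt y t R = 1 + R.ord (hm t h₀ e₀) := by
      obtain ⟨E, hE, gv⟩ | hz := pdv K F d k y t x.ext x.fr _ T D s a x.cox R pd
      · rw [gv.lt, gv.ord _ _ x.can.1, x.can.2 E hE, Int.cast_add]
      · rw [kah K F d k y t x.ext x.fr _ T D s a x.cox R pd hz, hz _ _ x.can.1]
        simp
    rw [lt, k1] at k2
    rw [Pl.ord_div _ j0 w0, Pl.ord_mul _ p0 η0, R.ord_prod _ fun i _ => t0 i,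
      ← Int.cast_eq_zero (α := ℝ)]
    push_cast
    linarith
  have H := (hrt _ F _ hA hN).2.2.1 p pp
  obtain ⟨s₁, t₁, h₁, e₁⟩ := H _ fun R hR => Cb.mem_ord (oR R hR).ge
  obtain ⟨s₂, t₂, h₂, e₂⟩ := H _ fun R hR => Cb.inv_mem_ord (oR R hR)
  have n₁ := ne_of pp h₁
  have n₂ := ne_of pp h₂
  have hs : s₁ ∉ p := fun h => mul_not pp h₁ h₂ (by
    have : t₁ * t₂ = s₁ * s₂ := Subtype.ext (by
      have := mul_inv_cancel₀ (div_ne_zero j0 w0)
      rw [e₂, e₁, div_mul_div_comm, div_eq_one_iff_eq (mul_ne_zero n₁ n₂)] at this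
      exact this.symm)
    rw [this]
    exact p.mul_mem_right _ h)
  obtain ⟨A, A0, eA⟩ := h1 s₁ hs
  obtain ⟨B, B0, eB⟩ := h1 t₁ h₁
  refine ⟨A, B, A0, B0, ?_⟩
  rw [eA, eB]
  exact (div_eq_div_iff w0 n₁).1 e₁ |>.trans (mul_comm _ _)

end Vale.Agent.P283R.Hz
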