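import Vale.Agent.P283R.Hz.Gl
import Vale.Agent.P283R.Hz.Cm68
import Vale.Agent.P283R.Hz.Bnd
import Vale.Agent.P283R.Hz.Can
import Vale.Agent.P283R.Hz.Cmp
import Vale.Agent.P283R.Hz.Cpt
import Vale.Agent.P283R.Hz.Cxs
import Vale.Agent.P283R.Hz.Deg
import Vale.Agent.P283R.Hz.Dif
import Vale.Agent.P283R.Hz.Dsc
import Vale.Agent.P283R.Hz.Elm
import Vale.Agent.P283R.Hz.Frm
import Vale.Agent.P283R.Hz.Hgn
import Vale.Agent.P283R.Hz.Hmr
import Vale.Agent.P283R.Hz.Itg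
import Vale.Agent.P283R.Hz.Jac
import Vale.Agent.P283R.Hz.Kp68
import Vale.Agent.P283R.Hz.Lgs
import Vale.Agent.P283R.Hz.Lin
import Vale.Agent.P283R.Hz.Trv
import Vale.Agent.P283R.Hz.Unt
import Vale.Agent.P283R.Cx.Z1
import Vale.Agent.P283R.Cx.Adz

/-!
# P283R, block HZ: the end
-/

namespace Vale.Agent.P283R

namespace Hz

theorem unt : UNT := unt_of cpt

theorem can : CAN := can_of unt

theorem dsc : DSC := dsc_of frm kpw68 (jac_of dif) can off

/-- the horizontal places -/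
theorem hze : HZE :=
  hze_of cmb (elm_of lin cxs (lgs_of cpt) (hgn_of cpt)) (deg_of unt frm)
    (bnd_of frm can cnt dsc itg cmp) (hmr_of (trv_of dsc) itg cmp)

theorem hzu : Cx.HZU := hze.hzu

theorem hzd : Cy.HZD := hze.hzd

theorem qyU (n : ℕ) : Cx.QyU n := Cx.qyU_of Cx.corp Cx.mdp hzu Cx.tpy n

/-- all contractions -/
theorem qy : Cox.QY := Cx.qy_of hzu

end Hz

namespace Sl

open Var

/-- all contractions whose ring of sections is a complete intersection -/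
theorem on_ci {q : ℕ} (hq : 1 ≤ q) (l : ℕ) :
    On fun _ _ _ f ω B z => FanoType f ω ∧ NefOver f (-logCan ω B) ∧
      ∃ k c, min k c ≤ l ∧ CoxCIc k c q f ω B z :=
  on_minY Cx.ext Cx.aff Cx.big Hz.qyU (Cy.qyc Hz.hzd Cx.tpy hq) hq l

theorem on_ciY (k : ℕ) {q : ℕ} (hq : 1 ≤ q) :
    On fun _ _ _ f ω B z => FanoType f ω ∧ NefOver f (-logCan ω B) ∧ CoxCI k q f ω B z :=
  on_coxY Hz.qy k hq

end Sl

end Vale.Agent.P283R
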