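import Vale.Agent.P283R.Hz.St
import Vale.Agent.P283R.Hz.Lat43
import Vale.Agent.P283R.Cx.Lif
import Vale.Agent.P283R.Cx.Tpy

/-!
# P283R, block HZ: the combinatorial end
-/

open Finset

noncomputable section

namespace Vale.Agent.P283R.Hz

open Vale.Agent.P283R.Cx Vale.Agent.P283R.Cy Vale.Agent.P283R.Cy.Tpb Vale.Agent.P283R.Hz.Lat
open Vale.Agent.P283R.Cx.Tpy (pa_smul)

namespace Cmb

variable {N k i : ℕ} {a : Fin N → Fin k → ℤ} {u : Fin N → ℕ} {l : Fin k → ℤ}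

theorem dg_eq (a : Fin N → Fin k → ℤ) (c : Fin N → ℕ) : dg a c = ∑ j, (c j : ℤ) • a j := by
  funext i
  simp [dg, Finset.sum_apply]

theorem dot (x : Fin N → ℤ) (h : ∑ j, x j • a j = 0) (l : Fin k → ℤ) :
    ∑ j, x j * (a j ⬝ᵥ l) = 0 := by
  have := congrArg (· ⬝ᵥ l) h
  simpa only [sum_dotProduct, smul_dotProduct, smul_eq_mul, zero_dotProduct] using this

/-- a relation which is nonnegative off the units vanishes off the units -/
theorem van (G : Gt a u l) (x : Fin N → ℤ) (h : ∑ j, x j • a j = 0) (hx : ∀ j, u j = 0 → 0 ≤ x j)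
    (j : Fin N) (hj : u j = 0) : x j = 0 := by
  have h1 := (sum_eq_zero_iff_of_nonneg fun j _ => ?_).1 (dot x h l) j (mem_univ j)
  · exact (mul_eq_zero.1 h1).resolve_right fun h2 => by
      have := (G.iff j).2 h2
      omega
  · by_cases h2 : u j = 0
    · exact mul_nonneg (hx j h2) (G.pos j)
    · rw [(G.iff j).1 (Nat.pos_of_ne_zero h2), mul_zero]

/-- the repair -/
theorem rep (G : Gt a u l) (x : Fin N → ℤ) (hx : ∀ j, u j = 0 → 0 ≤ x j) :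
    ∃ (c : Fin N → ℕ) (L : ℕ), dg a c = ∑ j, x j • a j ∧ ∀ j, (c j : ℤ) = x j + L * u j := by
  have h1 : ∀ j, 0 ≤ x j + (∑ j, (x j).natAbs : ℕ) * (u j : ℤ) := fun j => by
    by_cases h : u j = 0
    · simpa [h] using hx j h
    · have h2 : (x j).natAbs ≤ ∑ j, (x j).natAbs :=
        single_le_sum (f := fun j => (x j).natAbs) (fun _ _ => Nat.zero_le _) (mem_univ j)
      have h3 : ∑ j, (x j).natAbs ≤ (∑ j, (x j).natAbs) * u j :=
        Nat.le_mul_of_pos_right _ (Nat.pos_of_ne_zero h)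
      have h4 : ((x j).natAbs : ℤ) ≤ ((∑ j, (x j).natAbs : ℕ) : ℤ) * u j := by
        exact_mod_cast h2.trans h3
      omega
  refine ⟨fun j => (x j + (∑ j, (x j).natAbs : ℕ) * (u j : ℤ)).toNat, ∑ j, (x j).natAbs, ?_,
    fun j => Int.toNat_of_nonneg (h1 j)⟩
  have h2 := G.inv
  rw [dg_eq] at h2 ⊢
  simp only [Int.toNat_of_nonneg (h1 _), add_smul, mul_smul, sum_add_distrib, ← smul_sum, h2,
    smul_zero, add_zero]

/-- nonnegative weights which vanish on the units -/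
theorem wts (G : Gt a u l) {p : Fin N → ℤ} (hp : ∀ m, dg a m = 0 → ∑ j, m j * p j = 0) :
    ∃ ξ : Fin k → ℝ, ∀ j, 0 ≤ (p j : ℝ) + pa (a j) ξ ∧ (u j ≠ 0 → (p j : ℝ) + pa (a j) ξ = 0) := by
  obtain ⟨ξ, hξ⟩ := Lif.fac (fun j => if u j = 0 then 0 else a j)
    (fun j => if u j = 0 then 0 else p j) fun x hx => by
      obtain ⟨c, L, c1, c2⟩ := rep G (fun j => if u j = 0 then 0 else x j) fun j h => by simp [h]
      have h1 := hp c (c1.trans (funext fun i => by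
        rw [Finset.sum_apply]
        refine Eq.trans (sum_congr rfl fun j _ => ?_) (hx i)
        split_ifs <;> simp))
      simp only [c2, add_mul, sum_add_distrib, mul_assoc, ← mul_sum, hp u G.inv, mul_zero,
        add_zero] at h1
      refine Eq.trans (sum_congr rfl fun j _ => ?_) h1
      split_ifs <;> simp
  let g : Fin N → ℝ := fun j => p j - pa (a j) fun i => (ξ i : ℝ)
  have e : ∀ j, (p j : ℝ) + pa (a j) (fun i => (∑ j, |g j|) * l i - (ξ i : ℝ)) =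
      g j + (∑ j, |g j|) * (a j ⬝ᵥ l : ℤ) := fun j => by
    simp only [g, pa, dotProduct, mul_sub, sum_sub_distrib]
    push_cast
    rw [mul_sum (s := univ) (f := fun i => (a j i : ℝ) * l i)]
    simp only [mul_left_comm (a j _ : ℝ)]
    ring
  have z : ∀ j, u j ≠ 0 → g j + (∑ j, |g j|) * (a j ⬝ᵥ l : ℤ) = 0 := fun j h => by
    have h1 := hξ j
    simp only [h, if_false] at h1
    have h2 : (p j : ℝ) = ∑ i, (a j i : ℝ) * ξ i := by exact_mod_cast h1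
    rw [(G.iff j).1 (Nat.pos_of_ne_zero h)]
    simp [g, pa, h2]
  refine ⟨fun i => (∑ j, |g j|) * l i - (ξ i : ℝ), fun j => ⟨?_, fun h => (e j).trans (z j h)⟩⟩
  rw [e]
  by_cases h : u j = 0
  · have h1 : a j ⬝ᵥ l ≠ 0 := fun h2 => by
      have := (G.iff j).2 h2
      omega
    have h2 : (1 : ℝ) ≤ (a j ⬝ᵥ l : ℤ) := by
      have := G.pos j
      exact_mod_cast (show 1 ≤ a j ⬝ᵥ l by omega)
    have h3 : |g j| ≤ ∑ j, |g j| :=
      single_le_sum (f := fun j => |g j|) (fun _ _ => abs_nonneg _) (mem_univ j)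
    nlinarith [neg_abs_le (g j), abs_nonneg (g j)]
  · exact (z j h).ge

/-- the lattice of the relations modulo the units -/
def lat (a : Fin N → Fin k → ℤ) (e : Fin i → Fin N) : AddSubgroup (Fin i → ℤ) where
  carrier := {x | ∃ x' : Fin N → ℤ, (∀ j, x' (e j) = x j) ∧ ∑ j, x' j • a j = 0}
  zero_mem' := ⟨0, fun _ => rfl, by simp⟩
  add_mem' := by
    rintro _ _ ⟨x, x1, x2⟩ ⟨y, y1, y2⟩
    exact ⟨x + y, fun j => by simp [x1, y1], by
      simp only [Pi.add_apply, add_smul, sum_add_distrib, x2, y2, add_zero]⟩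
  neg_mem' := by
    rintro _ ⟨x, x1, x2⟩
    exact ⟨-x, fun j => by simp [x1], by
      simp only [Pi.neg_apply, neg_smul, sum_neg_distrib, x2, neg_zero]⟩

theorem sum_e {M : Type} [AddCommMonoid M] {e : Fin i → Fin N} (he : Function.Injective e)
    (hr : ∀ j, u j = 0 ↔ j ∈ Set.range e) (f : Fin N → M) (h : ∀ j, u j ≠ 0 → f j = 0) :
    ∑ j, f j = ∑ j, f (e j) :=
  (Fintype.sum_of_injective e he _ f (fun j hj => h j fun h' => hj ((hr j).1 h')) fun _ => rfl).symm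

/-- the integral form of a small vector -/
theorem sv {η : ℝ} {e : Fin i → Fin N} (he : Function.Injective e)
    (hr : ∀ j, u j = 0 ↔ j ∈ Set.range e) {ζ : Fin i → ℝ} (h : Sm η (lat a e) ζ) :
    ∃ D v, Sv η a u D v ∧ ∀ x : Fin N → ℝ, ∑ j, (v j : ℝ) * x j = D * ∑ j, ζ j * x (e j) := by
  obtain ⟨h1, h2, h3, r, b, hr0, hb⟩ := h
  have r0 : (0 : ℝ) < r := by exact_mod_cast hr0
  have v0 : ∀ j, u j ≠ 0 → Function.extend e b 0 j = 0 := fun j hj =>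
    Function.extend_apply' _ _ _ fun h' => hj ((hr j).2 h')
  have key : ∀ x : Fin N → ℝ, ∑ j, ((Function.extend e b 0 j : ℕ) : ℝ) * x j =
      r * ∑ j, ζ j * x (e j) := fun x => by
    rw [sum_e he hr _ fun j hj => by rw [v0 j hj]; simp, mul_sum]
    refine sum_congr rfl fun j _ => ?_
    rw [he.extend_apply, hb j]
    field_simp
  refine ⟨r, Function.extend e b 0, ⟨hr0, fun j => ⟨fun h => ?_, fun h => ?_⟩, fun m hm => ?_, ?_⟩,
    key⟩
  · by_contra h'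
    exact h.ne' (v0 j h')
  · obtain ⟨j, rfl⟩ := (hr j).1 h
    rw [he.extend_apply]
    have h4 := h1 j
    rw [hb j] at h4
    exact_mod_cast (div_pos_iff_of_pos_right r0).1 h4
  · obtain ⟨z, hz⟩ := h2 (fun j => m (e j)) ⟨m, fun _ => rfl, hm⟩
    refine ⟨z, ?_⟩
    have h4 := key fun j => m j
    rw [hz] at h4
    exact_mod_cast h4
  · have h4 := key fun _ => 1
    simp only [mul_one] at h4
    rw [h4, mul_comm]
    exact mul_lt_mul_of_pos_right h3 r0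

/-- the real vectors allowed by the geometry -/
theorem ex (G : Gt a u l) {η : ℝ} {p κ : Fin N → ℤ} {δ : Fin k → ℤ} (H : Hm η a u p δ κ) {D : ℕ}
    {v : Fin N → ℕ} (S : Sv η a u D v) : ∃ ξ : Fin k → ℝ, (∀ j, (v j : ℝ) ≤ pa (a j) ξ) ∧
      -pa δ ξ ≤ ∑ j, (v j : ℝ) * κ j := by
  by_contra h
  obtain ⟨r, m, r0, m1, m2, -⟩ := H D v S 0 1 fun ξ h1 h2 => (h ⟨ξ, h1, by
    push_cast at h2
    simpa only [mul_comm] using h2⟩).elim
  rw [dg_zero, smul_zero, dg_eq] at m1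
  rw [sum_eq_zero fun j _ => ?_] at m2
  · omega
  · by_cases hj : u j = 0
    · rw [van G _ m1 (fun j _ => Int.natCast_nonneg _) j hj, mul_zero]
    · have : v j = 0 := Nat.eq_zero_of_not_pos fun h => hj ((S.pos j).1 h)
      simp [this]

theorem le_pa {v : Fin N → ℕ} {ξ : Fin k → ℝ} (h : ∀ j, (v j : ℝ) ≤ pa (a j) ξ) {δ : Fin k → ℤ}
    {c : Fin N → ℕ} {ρ : ℕ} (hc : dg a c = -((ρ : ℤ) • δ)) :
    ∑ j, (v j : ℝ) * c j ≤ ρ * -pa δ ξ := by
  have h1 := pa_dg a c ξ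
  rw [hc, ← neg_smul, pa_smul] at h1
  push_cast at h1
  calc ∑ j, (v j : ℝ) * c j ≤ ∑ j, (c j : ℝ) * pa (a j) ξ := sum_le_sum fun j _ => by
        rw [mul_comm]
        exact mul_le_mul_of_nonneg_left (h j) (Nat.cast_nonneg _)
    _ = _ := by rw [← h1]; ring

theorem core {η : ℝ} {C m₀ : ℕ} (m0 : 0 < m₀)
    (Z2 : ∀ (M : AddSubgroup (Fin i → ℤ)) (κ : Fin i → ℤ), (∀ u ∈ M, (∀ j, 0 ≤ u j) → u = 0) →
      (∀ j, |κ j| ≤ C) →
      (∃ ζ, Sm η M ζ ∧ ∑ j, ζ j * κ j < 0) ∨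
      ∃ (Z : Option (Fin i) → Fin i → ℝ) (V : Finset (Fin i → ℕ)), (∀ t, Sm η M (Z t)) ∧
        Sm η M (fun j => ∑ t, Z t j) ∧ V.Nonempty ∧
        (∀ c ∈ V, (fun j => (c j : ℤ) - m₀ * κ j) ∈ M ∧
          ∀ t, ∑ j, Z t j * c j = m₀ * ∑ j, Z t j * κ j) ∧
        ∀ (w : Fin i → ℝ) (s : ℝ), (∀ j, 0 ≤ w j) → (∀ c ∈ V, m₀ * s ≤ ∑ j, c j * w j) →
          ∃ ξ : Fin i → ℝ, (∀ x : Fin i → ℝ, (∀ t, ∑ j, Z t j * x j = 0) → ∑ j, ξ j * x j = 0) ∧
            (∀ j, 0 ≤ w j + ξ j) ∧ s ≤ -∑ j, ξ j * κ j)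
    {e : Fin i → Fin N} (he : Function.Injective e) (hr : ∀ j, u j = 0 ↔ j ∈ Set.range e)
    {p κ : Fin N → ℤ} {δ : Fin k → ℤ} {B : ℝ} {r : ℕ} {m : Fin N → ℕ} (G : Gt a u l)
    (hC : ∀ j, u j = 0 → |κ j| ≤ C) (hκ : ∑ j, κ j • a j = -δ)
    (hp : ∀ m, dg a m = 0 → ∑ j, m j * p j = 0)
    (lw : ∀ ξ : Fin k → ℝ, (∀ j, 0 ≤ pa (a j) ξ) → pa δ ξ ≤ 0) (r0 : 0 < r)
    (hm : dg a m = -((r : ℤ) • δ)) (hB : ((∑ j, m j * p j : ℤ) : ℝ) < r * B)
    (H : Hm η a u p δ κ) :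
    ∃ m' : Fin N → ℕ, dg a m' = -((m₀ : ℤ) • δ) ∧ ((∑ j, m' j * p j : ℤ) : ℝ) < m₀ * B := by
  classical
  have ue : ∀ j, u (e j) = 0 := fun j => (hr _).2 ⟨j, rfl⟩
  have m0' : (0 : ℝ) < m₀ := by exact_mod_cast m0
  rcases Z2 (lat a e) (fun j => κ (e j)) (fun x ⟨x', x1, x2⟩ hx => funext fun j =>
    (x1 j).symm.trans (van G x' x2 (fun j hj => by
      obtain ⟨j, rfl⟩ := (hr j).1 hj
      exact x1 j ▸ hx j) _ (ue j))) (fun j => hC _ (ue j)) with ⟨ζ, z1, z2⟩ | ⟨Z, V, z1, z2, ne, hV, LP⟩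
  · obtain ⟨D, v, S, hv⟩ := sv he hr z1
    obtain ⟨ξ, x1, x2⟩ := ex G H S
    have h1 := lw ξ fun j => (Nat.cast_nonneg _).trans (x1 j)
    have h2 := mul_neg_of_pos_of_neg (show (0 : ℝ) < D by exact_mod_cast S.D0) z2
    rw [hv fun j => κ j] at x2
    linarith
  have lift : ∀ c ∈ V, ∃ c' : Fin N → ℕ, dg a c' = -((m₀ : ℤ) • δ) ∧ ∀ j, c' (e j) = c j := by
    intro c hc
    obtain ⟨x, x1, x2⟩ := (hV c hc).1
    obtain ⟨c', L, c1, c2⟩ := rep G (fun j => x j + m₀ * κ j) fun j hj => by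
      obtain ⟨j, rfl⟩ := (hr j).1 hj
      rw [x1]
      simp
    refine ⟨c', ?_, fun j => ?_⟩
    · simp only [c1, add_smul, mul_smul, sum_add_distrib, ← smul_sum, x2, hκ, zero_add, smul_neg]
    · have h1 := c2 (e j)
      rw [x1, ue] at h1
      simp only [Nat.cast_zero, mul_zero, add_zero, sub_add_cancel] at h1
      exact_mod_cast h1
  obtain ⟨c₀, hc₀⟩ := ne
  obtain ⟨c₁, d1, d2⟩ := lift c₀ hc₀
  have eq : ∀ (ζ : Fin i → ℝ) (D : ℕ) (v : Fin N → ℕ), ∑ j, ζ j * c₀ j = m₀ * ∑ j, ζ j * κ (e j) →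
      (∀ x : Fin N → ℝ, ∑ j, (v j : ℝ) * x j = D * ∑ j, ζ j * x (e j)) → ∀ ξ : Fin k → ℝ,
      (∀ j, (v j : ℝ) ≤ pa (a j) ξ) → ∑ j, (v j : ℝ) * κ j ≤ -pa δ ξ := fun ζ D v h1 hv ξ x1 => by
    have h2 := le_pa x1 d1
    rw [hv fun j => c₁ j] at h2
    simp only [d2] at h2
    rw [h1, mul_left_comm, ← hv fun j => κ j] at h2
    exact le_of_mul_le_mul_left h2 m0'
  have sw : ∀ x : Fin i → ℝ, ∑ j, (∑ t, Z t j) * x j = ∑ t, ∑ j, Z t j * x j := fun x => by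
    simp only [sum_mul]
    exact sum_comm
  obtain ⟨D, v, S, hv⟩ := sv he hr z2
  have D0 : (0 : ℝ) < D := by exact_mod_cast S.D0
  obtain ⟨r', m', r1, n1, n2, n3⟩ := H D v S m (r * ∑ j, κ j * v j) fun ξ x1 _ => by
    have h1 := eq _ D v (by
      rw [sw, sw, mul_sum]
      exact sum_congr rfl fun t _ => (hV c₀ hc₀).2 t) hv ξ x1
    rw [hm, ← neg_smul, pa_smul]
    push_cast
    have h2 := mul_le_mul_of_nonneg_left h1 (Nat.cast_nonneg r : (0 : ℝ) ≤ r)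
    simp only [mul_comm (κ _ : ℝ)]
    linarith
  have n4 : dg a m' = -(((r' * r : ℕ) : ℤ) • δ) := by
    rw [n1, hm, smul_neg, smul_smul, Nat.cast_mul]
  let x : Fin i → ℝ := fun j => m' (e j) - (r' * r : ℕ) * κ (e j)
  have ex' : ∀ y : Fin i → ℝ, ∑ j, y j * x j =
      ∑ j, y j * m' (e j) - (r' * r : ℕ) * ∑ j, y j * κ (e j) := fun y => by
    rw [mul_sum, ← sum_sub_distrib]
    exact sum_congr rfl fun j _ => by simp only [x]; ring
  have c1 : ∀ t, ∑ j, Z t j * x j ≤ 0 := fun t => by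
    obtain ⟨D', v', S', hv'⟩ := sv he hr (z1 t)
    obtain ⟨ξ, x1, x2⟩ := ex G H S'
    have h1 := (le_pa x1 n4).trans (mul_le_mul_of_nonneg_left x2 (Nat.cast_nonneg _))
    rw [hv' fun j => m' j, hv' fun j => κ j, mul_left_comm] at h1
    rw [ex', sub_nonpos]
    exact le_of_mul_le_mul_left h1 (by exact_mod_cast S'.D0)
  have c2 : 0 ≤ ∑ t, ∑ j, Z t j * x j := by
    have h1 : ((r' * r : ℕ) : ℝ) * ∑ j, (v j : ℝ) * κ j ≤ ∑ j, (v j : ℝ) * m' j := by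
      have h2 : ((r' * (r * ∑ j, κ j * v j) : ℤ) : ℝ) ≤ ((∑ j, (v j : ℤ) * m' j : ℤ) : ℝ) := by
        exact_mod_cast n2
      push_cast at h2 ⊢
      simp only [mul_comm (κ _ : ℝ)] at h2
      linarith
    rw [hv fun j => m' j, hv fun j => κ j, mul_left_comm] at h1
    rw [← sw, ex', sub_nonneg]
    exact le_of_mul_le_mul_left h1 D0
  have c3 : ∀ t, ∑ j, Z t j * x j = 0 := fun t =>
    (sum_eq_zero_iff_of_nonpos fun t _ => c1 t).1
      (le_antisymm (sum_nonpos fun t _ => c1 t) c2) t (mem_univ t)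
  obtain ⟨ξ₀, w0⟩ := wts G hp
  let w : Fin i → ℝ := fun j => p (e j) + pa (a (e j)) ξ₀
  have cw : ∀ (c : Fin N → ℕ) (ρ : ℕ), dg a c = -((ρ : ℤ) • δ) →
      ((∑ j, c j * p j : ℤ) : ℝ) = ∑ j, c (e j) * w j + ρ * pa δ ξ₀ := fun c ρ hc => by
    have h1 := pa_dg a c ξ₀
    rw [hc, ← neg_smul, pa_smul] at h1
    rw [← sum_e he hr (fun j => (c j : ℝ) * (p j + pa (a j) ξ₀)) fun j hj => by
      rw [(w0 j).2 hj, mul_zero]]
    push_cast at h1 ⊢
    simp only [mul_add, sum_add_distrib, ← h1]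
    ring
  obtain ⟨c, hc, cm⟩ := V.exists_min_image (fun c => ∑ j, (c j : ℝ) * w j) ⟨c₀, hc₀⟩
  obtain ⟨ξ, y1, y2, y3⟩ := LP w ((∑ j, (c j : ℝ) * w j) / m₀) (fun j => (w0 _).1) fun c' hc' => by
    rw [mul_div_cancel₀ _ m0'.ne']
    exact cm c' hc'
  obtain ⟨c', e1, e2⟩ := lift c hc
  refine ⟨c', e1, ?_⟩
  rw [cw c' m₀ e1]
  simp only [e2]
  have f1 := y1 x c3
  rw [ex'] at f1
  have f2 : 0 ≤ ∑ j, (m' (e j) : ℝ) * w j + ∑ j, ξ j * m' (e j) := by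
    rw [← sum_add_distrib]
    exact sum_nonneg fun j _ => by
      rw [mul_comm (ξ j), ← mul_add]
      exact mul_nonneg (Nat.cast_nonneg _) (y2 j)
  have f3 := cw m' _ n4
  have f4 : ((∑ j, m' j * p j : ℤ) : ℝ) ≤ r' * ((∑ j, m j * p j : ℤ) : ℝ) := by exact_mod_cast n3
  have f5 := mul_lt_mul_of_pos_left hB (show (0 : ℝ) < r' by exact_mod_cast r1)
  have f6 : (0 : ℝ) < (r' * r : ℕ) := by exact_mod_cast Nat.mul_pos r1 r0
  have f7 := mul_le_mul_of_nonneg_left y3 f6.le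
  have f8 : ((r' * r : ℕ) : ℝ) * ((∑ j, (c j : ℝ) * w j) / m₀) <
      ((r' * r : ℕ) : ℝ) * (B - pa δ ξ₀) := by
    have f9 : ((r' * r : ℕ) : ℝ) * B = r' * (r * B) := by push_cast; ring
    linarith
  have f9 := (div_lt_iff₀ m0').1 (lt_of_mul_lt_mul_left f8 f6.le)
  linarith

end Cmb

/-- **CMB** -/
theorem cmb43 : CMB := by
  classical
  intro n C η hη
  choose m m0 Z2 using fun i => hz2 (Fin i) C hη
  refine ⟨∏ i ∈ range (n + 1), m i, prod_pos fun i _ => m0 i, ?_⟩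
  intro N k a u l p δ κ B r c G hn hC hκ hp lw r0 hc hB H
  let A : Finset (Fin N) := univ.filter fun j => u j = 0
  have hA : A.card ≤ n := by
    refine le_trans (le_of_eq ?_) hn
    rw [od, card_filter]
    rfl
  obtain ⟨c', c1, c2⟩ := Cmb.core (m0 A.card) (Z2 A.card) (A.orderEmbOfFin rfl).injective
    (fun j => by rw [range_orderEmbOfFin]; simp [A]) G hC hκ hp lw r0 hc hB H
  obtain ⟨g, hg⟩ := dvd_prod_of_mem m (mem_range.2 (Nat.lt_succ_of_le hA))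
  have g0 : 0 < g := Nat.pos_of_ne_zero fun h =>
    (prod_pos fun i _ => m0 i).ne' (hg.trans (by rw [h, mul_zero]))
  refine ⟨fun j => g * c' j, ?_, ?_⟩
  · rw [Cmb.dg_eq] at c1 ⊢
    push_cast
    simp only [mul_smul, ← smul_sum, c1]
    rw [← Nat.cast_prod, hg, smul_neg, smul_smul, mul_comm, Nat.cast_mul]
  · have h1 := mul_lt_mul_of_pos_left c2 (show (0 : ℝ) < g by exact_mod_cast g0)
    rw [hg]
    push_cast at h1 ⊢
    simp only [mul_assoc, ← mul_sum]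
    linarith

end Vale.Agent.P283R.Hz
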