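import Vale.Agent.P283R.Hz.St
import Vale.Agent.P283R.Cx.Lif

/-!
# P283R, block HZ: the data of Goldman and Tucker
-/

open Finset

namespace Vale.Agent.P283R.Hz

open Vale.Agent.P283R.Cx Vale.Agent.P283R.Cy

variable {N k : ℕ}

theorem gtq (a : Fin N → Fin k → ℤ) (p : Fin N → ℤ)
    (h : ∀ m : Fin N → ℕ, dg a m = 0 → 0 ≤ ∑ j, m j * p j) :
    ∃ (D : ℕ) (ξ : Fin k → ℚ) (w u : Fin N → ℕ), 0 < D ∧ dg a u = 0 ∧ (∀ j, 0 < u j ↔ w j = 0) ∧
      ∀ j, (w j : ℚ) - D * p j = ∑ i, a j i * ξ i := by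
  classical
  let L : AddSubgroup (Fin N → ℤ) :=
    { carrier := {u | ∀ i, ∑ j, u j * a j i = 0}
      add_mem' := fun {u v} hu hv i => by
        simp only [Pi.add_apply, add_mul, sum_add_distrib, hu i, hv i, add_zero]
      zero_mem' := fun i => by simp
      neg_mem' := fun {u} hu i => by
        simp only [Pi.neg_apply, neg_mul, sum_neg_distrib, hu i, neg_zero] }
  let φ : L →+ ℤ :=
    { toFun := fun u => ∑ j, u.1 j * p j
      map_zero' := by simp
      map_add' := fun u v => by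
        simp only [AddSubgroup.coe_add, Pi.add_apply, add_mul, sum_add_distrib] }
  obtain ⟨D, w, u₀, hD, hw, hu, hz⟩ := To.gt L φ fun u hu => by
    have e : ∀ j, ((u.1 j).toNat : ℤ) = u.1 j := fun j => Int.toNat_of_nonneg (hu j)
    have := h (fun j => (u.1 j).toNat) (funext fun i => by
      simp only [dg, e]
      exact u.2 i)
    simp only [e] at this
    exact this
  obtain ⟨ξ, hξ⟩ := Lif.fac a (fun j => w j - D * p j) fun u hu => by
    have := hw ⟨u, hu⟩
    change ∑ j, u j * w j = D * ∑ j, u j * p j at this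
    simp only [mul_sub, sum_sub_distrib, this, mul_sum]
    exact sub_eq_zero.2 (sum_congr rfl fun _ _ => by ring)
  exact ⟨D, ξ, w, u₀, hD, funext fun i => hu i, hz, fun j => by exact_mod_cast hξ j⟩

/-- admissible weights exist -/
theorem feas (a : Fin N → Fin k → ℤ) (p : Fin N → ℤ)
    (h : ∀ m : Fin N → ℕ, dg a m = 0 → 0 ≤ ∑ j, m j * p j) :
    ∃ ξ : Fin k → ℝ, ∀ j, 0 ≤ (p j : ℝ) + pa (a j) ξ := by
  obtain ⟨D, ξ, w, -, hD, -, -, e⟩ := gtq a p h
  have D0 : (0 : ℝ) < D := Nat.cast_pos.2 hD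
  refine ⟨fun i => (ξ i : ℝ) / D, fun j => ?_⟩
  have k : (w j : ℝ) - D * p j = ∑ i, (a j i : ℝ) * ξ i := by exact_mod_cast e j
  have : pa (a j) (fun i => (ξ i : ℝ) / D) = (w j - D * p j) / D := by
    rw [k, pa, sum_div]
    exact sum_congr rfl fun _ _ => (mul_div_assoc _ _ _).symm
  rw [this, sub_div, mul_div_cancel_left₀ _ D0.ne', add_sub_cancel]
  positivity

theorem exists_gt (a : Fin N → Fin k → ℤ) : ∃ u l, Gt a u l := by
  obtain ⟨D, ξ, w, u, -, h, z, e⟩ := gtq a 0 fun _ _ => by simp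
  obtain ⟨r, hr⟩ := IsLocalization.exist_integer_multiples_of_finite (Submonoid.pos ℤ) ξ
  choose l hl using hr
  have r0 : (0 : ℤ) < r := r.2
  have k : ∀ j, a j ⬝ᵥ l = r * w j := fun j => by
    have := e j
    simp only [Pi.zero_apply, Int.cast_zero, mul_zero, sub_zero] at this
    rw [← Int.cast_inj (α := ℚ), Int.cast_mul, Int.cast_natCast, this, mul_sum, dotProduct,
      Int.cast_sum]
    refine sum_congr rfl fun i _ => ?_
    have := hl i
    simp only [eq_intCast, zsmul_eq_mul] at this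
    rw [Int.cast_mul, this]
    ring
  refine ⟨u, l, h, fun j => ?_, fun j => ?_⟩
  · rw [k]; positivity
  · rw [k, z, mul_eq_zero, Int.natCast_eq_zero, or_iff_right r0.ne']

/-- invariant monomials involve only the units -/
theorem Gt.sup {a : Fin N → Fin k → ℤ} {u : Fin N → ℕ} {l : Fin k → ℤ} (h : Gt a u l)
    {m : Fin N → ℕ} (hm : dg a m ⬝ᵥ l = 0) {j : Fin N} (hj : u j = 0) : m j = 0 := by
  have e : dg a m ⬝ᵥ l = ∑ j, m j * (a j ⬝ᵥ l) := by
    simp only [dotProduct, dg, sum_mul, mul_sum, mul_assoc]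
    exact sum_comm
  have := (sum_eq_zero_iff_of_nonneg fun j _ =>
    mul_nonneg (Int.natCast_nonneg (m j)) (h.pos j)).1 (e ▸ hm) j (mem_univ _)
  have k := mt (h.iff j).2 (by omega)
  exact_mod_cast (mul_eq_zero.1 this).resolve_right k

theorem Gt.sup0 {a : Fin N → Fin k → ℤ} {u : Fin N → ℕ} {l : Fin k → ℤ} (h : Gt a u l)
    {m : Fin N → ℕ} (hm : dg a m = 0) {j : Fin N} (hj : u j = 0) : m j = 0 :=
  h.sup (by rw [hm, zero_dotProduct]) hj

theorem le_od {u : Fin N → ℕ} (m : Fin N → ℕ) {j : Fin N} (hj : u j = 0) : m j ≤ od u m := by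
  have := single_le_sum (f := fun j => if u j = 0 then m j else 0) (fun _ _ => Nat.zero_le _)
    (mem_univ j)
  simp only [hj, if_true] at this
  exact this

end Vale.Agent.P283R.Hz
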