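import Vale.Agent.P283R.Cx.Bas
import Vale.Agent.P283R.Cy.Tpb

/-!
# P283R, block HZ: homogeneous elements which are integral over the ring of the sections
-/

open Set

noncomputable section

namespace Vale.Agent.P283R.Hz.Int

open Vale.Agent.P287D Vale.Agent.P297Z Vale.Agent.P283R.Cx

variable {K F : Type} [Field K] [Algebra ℂ K] [Field F] [Algebra ℂ F] [Algebra K F]
  [IsScalarTower ℂ K F] {k N : ℕ} {t : Fin k → F} {s : Fin N → K} {a : Fin N → Fin k → ℤ}

/-- the homogeneous component of an integral equation -/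
theorem eqn (ht : AlgebraicIndependent K t) {φ : K} {α : Fin k → ℤ}
    (h : IsIntegral (Rg s a t) (hm t φ α)) : ∃ (n : ℕ) (ψ : ℕ → K),
      (∀ i < n, ψ i ∈ Sp s a (((n - i : ℕ) : ℤ) • α)) ∧
      φ ^ n + ∑ i ∈ Finset.range n, ψ i * φ ^ i = 0 := by
  classical
  have t0 := ht.ne_zero
  obtain ⟨p, pm, pe⟩ := h
  choose ψ ψ1 ψ2 using fun i => (mem_Rg_iff t0).1 (p.coeff i).2
  choose χ χ1 χ2 using fun i => lv_shift t0 (ψ i) (φ ^ i) ((i : ℤ) • α)
  have sum : ∀ u : Finset ℕ, lv t (∑ i ∈ u, χ i) = ∑ i ∈ u, lv t (χ i) := fun u => by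
    induction u using Finset.induction_on with
    | empty => simp [lv_zero]
    | insert i u hi ih => rw [Finset.sum_insert hi, Finset.sum_insert hi, lv_add, ih]
  have z : Finsupp.single ((p.natDegree : ℤ) • α) (φ ^ p.natDegree) +
      ∑ i ∈ Finset.range p.natDegree, χ i = 0 := by
    refine lv_inj ht ?_
    rw [lv_add, lv_single, sum, hm_pow t0, ← pe, pm.as_sum, Polynomial.eval₂_add,
      Polynomial.eval₂_X_pow, Polynomial.eval₂_finsetSum, ← pm.as_sum]
    congr 1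
    refine Finset.sum_congr rfl fun i _ => ?_
    rw [χ2, ψ2, hm_pow t0, Polynomial.eval₂_mul, Polynomial.eval₂_C, Polynomial.eval₂_X_pow]
    rfl
  refine ⟨p.natDegree, fun i => ψ i (((p.natDegree - i : ℕ) : ℤ) • α), fun i _ => ψ1 i _, ?_⟩
  have z' := DFunLike.congr_fun z ((p.natDegree : ℤ) • α)
  rw [Finsupp.add_apply, Finsupp.single_eq_same, Finsupp.finsetSum_apply, Finsupp.zero_apply] at z'
  refine Eq.trans ?_ z'
  congr 1
  refine Finset.sum_congr rfl fun i hi => ?_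
  rw [← χ1, ← add_smul, ← Nat.cast_add, Nat.sub_add_cancel (Finset.mem_range.1 hi).le]

/-- a bound for the monomials of the degrees `m α` bounds the integral elements of degree `α` -/
theorem bound (ht : AlgebraicIndependent K t) {φ : K} (φ0 : φ ≠ 0)
    {α : Fin k → ℤ} (h : IsIntegral (Rg s a t) (hm t φ α)) (P : Pl K) (l : ℝ)
    (H : ∀ m : ℕ, 0 < m → ∀ c, dg a c = (m : ℤ) • α → m * l ≤ P.ord (∏ j, s j ^ c j)) :
    l ≤ P.ord φ := by
  obtain ⟨n, ψ, ψ1, ψ2⟩ := eqn ht h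
  by_contra hl
  rw [not_le] at hl
  have k1 : ∀ i < n, ψ i = 0 ∨ 0 ≤ (P.ord (ψ i) : ℝ) + -(((n - i : ℕ) : ℝ) * l) := fun i hi =>
    P.mem_sub.1 (Submodule.span_le.2 (by
      rintro _ ⟨c, hc, rfl⟩
      exact Or.inr (sub_nonneg.2 (H _ (by omega) c hc))) (ψ1 i hi))
  have k2 : ∑ i ∈ Finset.range n, ψ i * φ ^ i ∈ P.sub (-(n * (P.ord φ : ℝ) + (l - P.ord φ))) :=
    Submodule.sum_mem _ fun i hi => by
      have hi' := Finset.mem_range.1 hi
      by_cases z : ψ i = 0
      · rw [z, zero_mul]; exact Submodule.zero_mem _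
      refine P.mem_sub.2 (Or.inr ?_)
      have k3 := (k1 i hi').resolve_left z
      rw [Pl.ord_mul _ z (pow_ne_zero _ φ0), Pl.ord_pow]
      rw [Nat.cast_sub hi'.le] at k3
      push_cast
      have k4 : (i : ℝ) + 1 ≤ n := by exact_mod_cast hi'
      nlinarith
  rw [← neg_eq_of_add_eq_zero_right ψ2] at k2
  have k5 := (P.mem_sub.1 k2).resolve_left (neg_ne_zero.2 (pow_ne_zero _ φ0))
  rw [Pl.ord_neg, Pl.ord_pow] at k5
  push_cast at k5
  linarith

end Vale.Agent.P283R.Hz.Int
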