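import Vale.Agent.P283R.Hz.St
import Vale.Agent.P283R.Cx.Aff
import Vale.Agent.P287D.On.Val

/-!
# P283R, block HZ: the valuative criterion for the Rees ring (row `ITG`)
-/

set_option linter.all false

open Set

noncomputable section

namespace Vale.Agent.P283R.Hz

open Vale.Agent.P287D Vale.Agent.P297Z Vale.Agent.P283R.Cx

namespace It

variable {F E : Type} [Field F] [Algebra ℂ F] [Field E] [Algebra ℂ E] [Algebra F E]
  [IsScalarTower ℂ F E] {N : ℕ} {u v : Fin N → ℕ} {z : Fin N → F} {τ : E}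

theorem tau_mem : τ ∈ Rv u z τ v := Algebra.subset_adjoin (mem_insert _ _)

theorem xs_mem (j : Fin N) : xs z τ v j ∈ Rv u z τ v :=
  Algebra.subset_adjoin (mem_insert_of_mem _ ⟨j, rfl⟩)

theorem rg_mem (t0 : τ ≠ 0) {x : F} (hx : x ∈ Algebra.adjoin ℂ (range z)) :
    algebraMap F E x ∈ Rv u z τ v := by
  induction hx using Algebra.adjoin_induction with
  | mem x hx =>
    obtain ⟨j, rfl⟩ := hx
    rw [← div_mul_cancel₀ (algebraMap F E (z j)) (pow_ne_zero (v j) t0)]
    exact mul_mem (xs_mem j) (pow_mem tau_mem _)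
  | algebraMap c =>
    rw [← IsScalarTower.algebraMap_apply]
    exact (Rv u z τ v).algebraMap_mem ⟨_, (kJ E u z).algebraMap_mem c⟩
  | add x y _ _ a b => rw [map_add]; exact add_mem a b
  | mul x y _ _ a b => rw [map_mul]; exact mul_mem a b

theorem alg (t0 : τ ≠ 0) (fr : ∀ a : F, ∃ s t : Algebra.adjoin ℂ (range z), a = s / t)
    (gen : IntermediateField.adjoin F (range fun _ : Fin 1 => τ) = ⊤) :
    Algebra.IsAlgebraic (Rv u z τ v) E := by
  have k : ∀ a : E, a ∈ Subfield.closure (Rv u z τ v : Set E) := fun a => by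
    have : a ∈ IntermediateField.adjoin F (range fun _ : Fin 1 => τ) := gen ▸ trivial
    induction this using IntermediateField.adjoin_induction with
    | mem x hx =>
      obtain ⟨_, rfl⟩ := hx
      exact Subfield.subset_closure tau_mem
    | algebraMap x =>
      obtain ⟨s, t, rfl⟩ := fr x
      rw [map_div₀]
      exact div_mem (Subfield.subset_closure (rg_mem t0 s.2))
        (Subfield.subset_closure (rg_mem t0 t.2))
    | add x y _ _ a b => exact add_mem a b
    | inv x _ a => exact inv_mem a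
    | mul x y _ _ a b => exact mul_mem a b
  have le : Subring.closure (Rv u z τ v : Set E) ≤ (Rv u z τ v).toSubring :=
    Subring.closure_le.2 subset_rfl
  have : IsFractionRing (Rv u z τ v) E := IsFractionRing.of_field _ _ fun a =>
    let ⟨s, hs, t, ht, e⟩ := Subfield.mem_closure_iff.1 (k a)
    ⟨⟨s, le hs⟩, ⟨t, le ht⟩, e.symm⟩
  exact IsLocalization.isAlgebraic E (nonZeroDivisors (Rv u z τ v))

theorem img_le {W : Pl E} (hv : ∀ j, 0 < u j → v j = 0) (h : ∀ a ∈ Rv u z τ v, a ∈ W.ring)
    (p : 0 < W.ord τ) : On.img W (Rv u z τ v) ≤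
      IntermediateField.adjoin ℂ (range fun j => W.rd (xs z τ v j)) := by
  have m : ∀ a ∈ kJ E u z, a ∈ W.ring := fun a ha => h a ((Rv u z τ v).algebraMap_mem ⟨a, ha⟩)
  have gx : ∀ j, W.rd (xs z τ v j) ∈ IntermediateField.adjoin ℂ (range fun j =>
    W.rd (xs z τ v j)) := fun j => IntermediateField.subset_adjoin _ _ ⟨j, rfl⟩
  have k : ∀ a ∈ kJ E u z, W.rd a ∈ IntermediateField.adjoin ℂ (range fun j =>
      W.rd (xs z τ v j)) := fun a ha => by
    induction ha using IntermediateField.adjoin_induction with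
    | mem x hx =>
      obtain ⟨j, rfl⟩ := hx
      by_cases c : u j = 0
      · simp only [kl, c, if_true, map_zero]
        rw [(Bm.rd_zero_iff W (zero_mem _)).2 (.inl rfl)]
        exact zero_mem _
      · have := gx j
        rw [xs, hv j (Nat.pos_of_ne_zero c), pow_zero, div_one] at this
        simpa only [kl, c, if_false] using this
    | algebraMap c =>
      rw [Bm.rd_const]
      exact IntermediateField.algebraMap_mem _ c
    | add x y hx hy a b =>
      rw [Bm.rd_add W (m x hx) (m y hy)]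
      exact add_mem a b
    | inv x hx a =>
      by_cases c : x = 0
      · rwa [c, inv_zero, ← c]
      rw [Bm.rd_inv W (m x hx) (m _ (inv_mem hx)) c]
      exact inv_mem a
    | mul x y hx hy a b =>
      rw [Bm.rd_mul W (m x hx) (m y hy)]
      exact mul_mem a b
  refine IntermediateField.adjoin_le_iff.2 ?_
  rintro _ ⟨a, ha, rfl⟩
  change a ∈ Rv u z τ v at ha
  induction ha using Algebra.adjoin_induction with
  | mem x hx =>
    rcases hx with rfl | ⟨j, rfl⟩
    · rw [(Bm.rd_zero_iff W (h _ tau_mem)).2 (.inr p)]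
      exact zero_mem _
    · exact gx j
  | algebraMap r => exact k r r.2
  | add x y hx hy a b =>
    rw [Bm.rd_add W (h x hx) (h y hy)]
    exact add_mem a b
  | mul x y hx hy a b =>
    rw [Bm.rd_mul W (h x hx) (h y hy)]
    exact mul_mem a b

end It

open It in
theorem itg : ITG := by
  classical
  intro K F _ _ _ _ _ _ d k N q ε y t T D s a u l h₀ g e₀ b Q h E _ _ _ _ τ hτ v x N₀ hx hv H
  have t0 : τ ≠ 0 := hτ.ind.ne_zero 0
  by_contra c
  obtain ⟨W, w1, w2, w3⟩ := On.val_alg hτ.ff' (B := Rv u (zz t s a) τ v)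
    (Subalgebra.fg_def.2 ⟨_, (finite_range _).insert _, rfl⟩)
    (alg t0 (aff K F d k y t h.ext h.fr N T D s a h.cox).fr hτ.gen) c
  refine w2 ?_
  rcases (Pl.ord_nonneg_of_mem W.toPlace (w1 _ tau_mem)).eq_or_lt with e | e
  · have i := (Pl.ord_eq_zero_iff W.toPlace (zpow_ne_zero N₀ t0)).1 (by
      rw [Pl.ord_zpow, ← e, mul_zero])
    rw [div_eq_mul_inv]
    exact mul_mem (w1 _ (rg_mem t0 hx)) i.2
  · have le := img_le hv w1 e
    exact H W ⟨fun j => w1 _ (xs_mem j), e,
      fun o ho => w1 o ((Rv u (zz t s a) τ v).algebraMap_mem ⟨o, ho⟩),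
      ⟨fun b => On.alg_mono Subtype.val_injective Subtype.val_injective
        (fun r => ⟨⟨r, le r.2⟩, rfl⟩) (w3.1 b)⟩⟩

end Vale.Agent.P283R.Hz
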