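import Vale.Agent.P283R.Hz.St
import Vale.Agent.P283R.H.Adk
import Vale.Agent.P283R.H.Mch
import Vale.Agent.P287D.Hd.Ln

/-!
# P283R, block HZ: the log discrepancy of a frame
-/

open Set

noncomputable section

namespace Vale.Agent.P283R.Hz

open Vale.Agent.P297Z Vale.Agent.P287D Vale.Agent.P287D.Cb Vale.Agent.P283R.H

/-- **KPW** -/
theorem kpw : KPW := by
  intro n F _ _ E _ _ _ _ τ h w v W hτ m hi
  have hE : FF E (n + 1) := h.ff'
  obtain ⟨⟨D, h1⟩, -, h3, -⟩ := adf0 hE W (φ := τ) (y := xs w τ v) hτ.ne' m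
    (fr_of (Bm.ff_κ hE W) hi)
  have τ0 : τ ≠ 0 := fun e => by simp [e] at hτ
  have o : ∀ i, W.ord (xs w τ v i) = 0 := fun i => Adk.ord0 (m i) (hi.ne_zero i)
  have x0 : ∀ i, xs w τ v i ≠ 0 := fun i => (ind_of_fr h1).ne_zero i.succ
  have w0 : ∀ i, algebraMap F E (w i) ≠ 0 := fun i => (div_ne_zero_iff.1 (x0 i)).1
  have ow : ∀ i, W.ord (algebraMap F E (w i)) = v i * W.ord τ := fun i => by
    have := o i
    rw [xs, Pl.ord_div _ (w0 i) (pow_ne_zero _ τ0), Pl.ord_pow] at this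
    exact sub_eq_zero.1 this
  have z0 : ∀ i, Hd.Ln.cw w τ i ≠ 0 := fun i => Fin.cases τ0 w0 i
  have d0 : Dlg (Hd.Ln.cw w τ) τ := Dlg.self (z := Hd.Ln.cw w τ) 0 τ0
  have d1 : ∀ i, Dlg (Hd.Ln.cw w τ) (algebraMap F E (w i)) := fun i =>
    Dlg.self (z := Hd.Ln.cw w τ) i.succ (w0 i)
  have d2 : ∀ j, Dlg (Hd.Ln.cw w τ) ((Fin.cons τ (xs w τ v) : Fin (n + 1) → E) j) := fun j => by
    refine Fin.cases d0 (fun i => ?_) j
    exact (d1 i).div (d0.pow _)
  obtain ⟨k1, k2⟩ := kp_log hE (Equiv.refl _) z0 d2 (ind_of_fr h1)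
  have k0 : AlgebraicIndependent ℂ (IsScalarTower.toAlgHom ℂ F E ∘ w) := by
    have := k1.comp Fin.succ (Fin.succ_injective n)
    convert this using 1
    funext i
    simp
  refine ⟨.of_comp _ k0, fun R l => ?_⟩
  have k3 := Hd.Ln.k4 (y := w) (s := τ) h.ff hE l k1
  have k4 := congrFun k2 W
  rw [kp_eq hE _ (Equiv.refl _), kp_eq hE _ (Equiv.refl _)] at k4
  simp only [dsc, Pi.sub_apply, Pi.add_apply, Finset.sum_apply, dv_apply, Fin.sum_univ_succ,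
    Fin.cons_zero, Fin.cons_succ, o, ow, Equiv.coe_refl, Function.comp_id, Int.cast_zero,
    Finset.sum_const_zero, Int.cast_mul, Int.cast_natCast, ← Finset.sum_mul] at h3 k4
  rw [Hd.ei] at k3
  linarith

end Vale.Agent.P283R.Hz
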