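import Vale.Agent.P283R.Hz.Gk
import Vale.Agent.P283R.Cy.Lpd

/-!
# P283R, block HZ: duality
-/

open Finset

namespace Vale.Agent.P283R.Hz

open Vale.Agent.P283R.Cx Vale.Agent.P283R.Cy

theorem lpd : LPD := by
  intro N k a p δ B ε hε h0 h1
  obtain ⟨ξ₀, hξ⟩ := feas a p h0
  refine lp_dual a p δ (by linarith) h1 fun ξ h => ?_
  have e : ∀ (c : ℝ) (b : Fin k → ℤ), (pa b fun i => ξ₀ i + c * ξ i) = pa b ξ₀ + c * pa b ξ :=
    fun c b => by
      simp only [pa, mul_sum, ← sum_add_distrib]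
      exact sum_congr rfl fun i _ => by ring
  by_contra hn
  have h2 : 0 < pa δ ξ := lt_of_not_ge hn
  have h3 := h1 (fun i => ξ₀ i + (|B - ε - pa δ ξ₀| + 1) / pa δ ξ * ξ i) fun j => by
    rw [e, ← add_assoc]
    exact add_nonneg (hξ j) (mul_nonneg (by positivity) (h j))
  rw [e, div_mul_cancel₀ _ h2.ne'] at h3
  linarith [le_abs_self (B - ε - pa δ ξ₀)]

end Vale.Agent.P283R.Hz
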