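import Vale.Agent.P283R.Cy.Sz

/-!
# P283R, block HZ: the places which are trivial on the base (statements)

`z j = s j * t ^ a j` generate the ring of the sections.  The variables with `0 < u j` are units at
the vertex of the generic fibre, the variables with `u j = 0` vanish there.
-/

open Set MvPolynomial
open Vale.Agent.P285N.Brep (jac Fr)

noncomputable section

namespace Vale.Agent.P283R.Hz

open Vale.Agent.P287D Vale.Agent.P283M Vale.Agent.P283R.Cx Vale.Agent.P283R.Cy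

section defs

variable {K F E : Type} [Field K] [Algebra ℂ K] [Field F] [Algebra ℂ F] [Algebra K F] [Field E]
  [Algebra ℂ E] [Algebra F E] {d k N c n : ℕ}

/-- the generators -/
def zz (t : Fin k → F) (s : Fin N → K) (a : Fin N → Fin k → ℤ) (j : Fin N) : F :=
  hm t (s j) (a j)

/-- the vertex -/
def kl (u : Fin N → ℕ) (z : Fin N → F) (j : Fin N) : F := if u j = 0 then 0 else z j

/-- the degree in the variables which vanish at the vertex -/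
def od (u m : Fin N → ℕ) : ℕ := ∑ j, if u j = 0 then m j else 0

/-- the data of Goldman and Tucker -/
structure Gt (a : Fin N → Fin k → ℤ) (u : Fin N → ℕ) (l : Fin k → ℤ) : Prop where
  inv : dg a u = 0
  pos : ∀ j, 0 ≤ a j ⬝ᵥ l
  iff : ∀ j, 0 < u j ↔ a j ⬝ᵥ l = 0

/-- the data; `Q` is trivial on the base -/
structure Dz (q : ℕ) (ε : ℝ) (y : Fin d → K) (t : Fin k → F) (T : Set (Pl K))
    (D : Pl K → Fin k → ℤ) (s : Fin N → K) (a : Fin N → Fin k → ℤ) (u : Fin N → ℕ)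
    (l : Fin k → ℤ) (h₀ g : K) (e₀ b : Fin k → ℤ) (Q : Pl K) : Prop where
  q0 : 0 < q
  ε0 : 0 < ε
  ext : Ext K d t
  fr : Frm y
  cox : Cox T D s a
  can : Eqv T D (kap y) h₀ e₀
  g0 : g ≠ 0
  gs : g ∈ Sp s a b
  hw : HW q ε y s a (h₀ ^ q * g) ((q : ℤ) • e₀ + b)
  lw : LW a ((q : ℤ) • e₀ + b) b
  gt : Gt a u l
  hq : ∀ x ∈ Sp s a 0, x ≠ 0 → Q.ord x = 0

/-- `f` generate the relations near the vertex -/
structure Lg (z : Fin N → F) (u : Fin N → ℕ) (f : Fin c → MvPolynomial (Fin N) ℂ) : Prop where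
  van : ∀ i, aeval z (f i) = 0
  gen : ∀ P : MvPolynomial (Fin N) ℂ, aeval z P = 0 →
    ∃ S : MvPolynomial (Fin N) ℂ, aeval (kl u z) S ≠ 0 ∧ S * P ∈ Ideal.span (range f)

/-- no relation has a linear term -/
def Mn (z : Fin N → F) (u : Fin N → ℕ) : Prop := ∀ P : MvPolynomial (Fin N) ℂ, aeval z P = 0 →
  ∀ j, u j = 0 → aeval (kl u z) (pderiv j P) = 0

/-- homogeneous local equations without linear terms -/
structure Pv (a : Fin N → Fin k → ℤ) (z : Fin N → F) (u : Fin N → ℕ)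
    (f : Fin c → MvPolynomial (Fin N) ℂ) : Prop where
  lg : Lg z u f
  hom : ∀ i, ∀ m ∈ (f i).support, ∀ m' ∈ (f i).support, dg a m = dg a m'
  min : ∀ i, (∀ m ∈ (f i).support, od u m = 0) ∨ ∀ m ∈ (f i).support, 2 ≤ od u m

/-- the variable `j` is superfluous: `B(s) s j = P(s)` -/
structure Ln (s : Fin N → K) (a : Fin N → Fin k → ℤ) (u : Fin N → ℕ) (j : Fin N)
    (B P : MvPolynomial (Fin N) ℂ) : Prop where
  off : u j = 0
  ne : aeval s B ≠ 0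
  hB : ∀ m ∈ B.support, dg a m = 0
  hP : ∀ m ∈ P.support, dg a m = a j ∧ m j = 0
  eq : aeval s B * s j = aeval s P

/-- the minor of the Jacobian matrix -/
def mnr (z : Fin N → F) (f : Fin c → MvPolynomial (Fin N) ℂ) (e : Fin c ⊕ Fin n ≃ Fin N) : F :=
  (Matrix.of fun i l => aeval z (pderiv (e (.inl l)) (f i))).det

/-- the centre of `R` passes through the vertex -/
def Th (u : Fin N → ℕ) (z : Fin N → F) (R : Pl F) : Prop := (∀ j, z j ∈ R.ring) ∧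
  ∀ S : MvPolynomial (Fin N) ℂ, aeval (kl u z) S ≠ 0 → R.rd (aeval z S) ≠ 0

/-- the generators of the Rees ring -/
def xs (z : Fin N → F) (τ : E) (v : Fin N → ℕ) (j : Fin N) : E := algebraMap F E (z j) / τ ^ v j

/-- the field of the vertex -/
def kJ (E : Type) [Field E] [Algebra ℂ E] [Algebra F E] (u : Fin N → ℕ) (z : Fin N → F) :
    IntermediateField ℂ E :=
  IntermediateField.adjoin ℂ (range fun j => algebraMap F E (kl u z j))

/-- the Rees ring over the field of the vertex -/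
def Rv (u : Fin N → ℕ) (z : Fin N → F) (τ : E) (v : Fin N → ℕ) : Subalgebra (kJ E u z) E :=
  Algebra.adjoin _ (insert τ (range (xs z τ v)))

/-- `W` is a prime divisor of the normalised Rees ring inside `τ = 0` -/
structure Wp (u : Fin N → ℕ) (z : Fin N → F) (τ : E) (v : Fin N → ℕ) (W : Pl E) : Prop where
  mem : ∀ j, xs z τ v j ∈ W.ring
  pos : 0 < W.ord τ
  trv : ∀ x ∈ kJ E u z, x ∈ W.ring
  alg : Algebra.IsAlgebraic (IntermediateField.adjoin ℂ (range fun j => W.rd (xs z τ v j))) W.κ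

/-- `v / D` is a small dual vector -/
structure Sv (η : ℝ) (a : Fin N → Fin k → ℤ) (u : Fin N → ℕ) (D : ℕ) (v : Fin N → ℕ) : Prop where
  D0 : 0 < D
  pos : ∀ j, 0 < v j ↔ u j = 0
  dvd : ∀ m : Fin N → ℤ, ∑ j, m j • a j = 0 → (D : ℤ) ∣ ∑ j, v j * m j
  lt : ∑ j, (v j : ℝ) < η * D

/-- what the geometry gives, in terms of weights -/
def Hm (η : ℝ) (a : Fin N → Fin k → ℤ) (u : Fin N → ℕ) (p : Fin N → ℤ) (δ : Fin k → ℤ)
    (κ : Fin N → ℤ) : Prop := ∀ D v, Sv η a u D v → ∀ (m : Fin N → ℕ) (N₀ : ℤ),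
  (∀ ξ : Fin k → ℝ, (∀ j, (v j : ℝ) ≤ pa (a j) ξ) → -pa δ ξ ≤ (∑ j, κ j * v j : ℤ) →
    (N₀ : ℝ) ≤ pa (dg a m) ξ) →
  ∃ (r : ℕ) (m' : Fin N → ℕ), 0 < r ∧ dg a m' = (r : ℤ) • dg a m ∧
    r * N₀ ≤ ∑ j, (v j : ℤ) * m' j ∧ ∑ j, m' j * p j ≤ r * ∑ j, m j * p j

end defs

/-- a property of the data -/
def ForD (p : ∀ (K F : Type) [Field K] [Algebra ℂ K] [Field F] [Algebra ℂ F] [Algebra K F]
    (d k N _q : ℕ), ℝ → (Fin d → K) → (Fin k → F) → Set (Pl K) → (Pl K → Fin k → ℤ) →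
      (Fin N → K) → (Fin N → Fin k → ℤ) → (Fin N → ℕ) → (Fin k → ℤ) → K → K → (Fin k → ℤ) →
      (Fin k → ℤ) → Pl K → Prop) : Prop :=
  ∀ (K F : Type) [Field K] [Algebra ℂ K] [Field F] [Algebra ℂ F] [Algebra K F]
    [IsScalarTower ℂ K F] (d k N q : ℕ) (ε : ℝ) (y : Fin d → K) (t : Fin k → F) (T : Set (Pl K))
    (D : Pl K → Fin k → ℤ) (s : Fin N → K) (a : Fin N → Fin k → ℤ) (u : Fin N → ℕ)
    (l : Fin k → ℤ) (h₀ g : K) (e₀ b : Fin k → ℤ) (Q : Pl K),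
    Dz q ε y t T D s a u l h₀ g e₀ b Q → p K F d k N q ε y t T D s a u l h₀ g e₀ b Q

/-- a property of `E = F(τ)` -/
def ForE (F : Type) [Field F] [Algebra ℂ F] (n : ℕ)
    (p : ∀ (E : Type) [Field E] [Algebra ℂ E] [Algebra F E], E → Prop) : Prop :=
  ∀ (E : Type) [Field E] [Algebra ℂ E] [Algebra F E] [IsScalarTower ℂ F E] (τ : E),
    Ext F n (fun _ : Fin 1 => τ) → p E τ

/-! ### lattices -/

/-- **LPD**: duality -/
def LPD : Prop := ∀ (N k : ℕ) (a : Fin N → Fin k → ℤ) (p : Fin N → ℤ) (δ : Fin k → ℤ) (B ε : ℝ),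
  0 < ε → (∀ m, dg a m = 0 → 0 ≤ ∑ j, m j * p j) →
    (∀ ξ : Fin k → ℝ, (∀ j, 0 ≤ (p j : ℝ) + pa (a j) ξ) → pa δ ξ ≤ B - ε) →
    ∃ (r : ℕ) (m : Fin N → ℕ), 0 < r ∧ dg a m = -((r : ℤ) • δ) ∧
      ((∑ j, m j * p j : ℤ) : ℝ) < r * B

/-- **CMB**: the combinatorial end -/
def CMB : Prop := ∀ (n C : ℕ) (η : ℝ), 0 < η → ∃ M : ℕ, 0 < M ∧
  ∀ (N k : ℕ) (a : Fin N → Fin k → ℤ) (u : Fin N → ℕ) (l : Fin k → ℤ) (p : Fin N → ℤ)
    (δ : Fin k → ℤ) (κ : Fin N → ℤ) (B : ℝ) (r : ℕ) (m : Fin N → ℕ), Gt a u l → od u 1 ≤ n →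
    (∀ j, u j = 0 → |κ j| ≤ C) → ∑ j, κ j • a j = -δ → (∀ m, dg a m = 0 → ∑ j, m j * p j = 0) →
    (∀ ξ : Fin k → ℝ, (∀ j, 0 ≤ pa (a j) ξ) → pa δ ξ ≤ 0) → 0 < r →
    dg a m = -((r : ℤ) • δ) → ((∑ j, m j * p j : ℤ) : ℝ) < r * B → Hm η a u p δ κ →
    ∃ m' : Fin N → ℕ, dg a m' = -((M : ℤ) • δ) ∧ ((∑ j, m' j * p j : ℤ) : ℝ) < M * B

/-! ### the presentation at the vertex -/

/-- **CPT**: the relations are homogeneous and vanish at the vertex -/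
def CPT : Prop := ForD fun _ _ _ _ _ _ _ _ _ N _ _ _ t _ _ s a u _ _ _ _ _ _ =>
  ∀ P : MvPolynomial (Fin N) ℂ, aeval (zz t s a) P = 0 → aeval (kl u (zz t s a)) P = 0 ∧
    ∀ e, aeval (zz t s a) (weightedHomogeneousComponent a e P) = 0

/-- **OFF**: the fibre has positive dimension -/
def OFF : Prop := ForD fun _ _ _ _ _ _ _ _ _ _ _ _ _ _ _ _ _ _ u _ _ _ _ _ _ => ∃ j, u j = 0

/-- **LIN**: a linear term gives a superfluous variable -/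
def LIN : Prop := ForD fun _ _ _ _ _ _ _ _ _ _ _ _ _ t _ _ s a u _ _ _ _ _ _ =>
  ¬ Mn (zz t s a) u → ∃ j B P, Ln s a u j B P

/-- **CXS**: the superfluous variable is replaced by `1 / B` -/
def CXS : Prop := ForD fun _ _ _ _ _ _ _ _ _ _ q ε y t T D s a u l h₀ g e₀ b Q =>
  ∀ j B P, Ln s a u j B P → Dz q ε y t {R | R ∈ T ∧ R.ord (aeval s B) = 0} D
    (Function.update s j (aeval s B)⁻¹) (Function.update a j 0) (Function.update u j 1) l h₀ g e₀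
    b Q

/-- **LGS**: the local equations of the new presentation -/
def LGS : Prop := ForD fun _ _ _ _ _ _ _ _ _ N _ _ _ t _ _ s a u _ _ _ _ _ _ =>
  ∀ (c : ℕ) (f : Fin c → MvPolynomial (Fin N) ℂ) j B P, Ln s a u j B P → Lg (zz t s a) u f →
    ∃ f' : Fin c → MvPolynomial (Fin N) ℂ, Lg (zz t (Function.update s j (aeval s B)⁻¹)
      (Function.update a j 0)) (Function.update u j 1) f'

/-- **HGN**: homogeneous equations -/
def HGN : Prop := ForD fun _ _ _ _ _ _ _ _ _ N _ _ _ t _ _ s a u _ _ _ _ _ _ =>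
  ∀ (c : ℕ) (f : Fin c → MvPolynomial (Fin N) ℂ), Lg (zz t s a) u f → Mn (zz t s a) u →
    ∃ f' : Fin c → MvPolynomial (Fin N) ℂ, Pv a (zz t s a) u f'

/-! ### the canonical class -/

/-- **FRM**: a transcendence basis among generators -/
def FRM : Prop := ∀ (N c n : ℕ) (L : Type) [Field L] [Algebra ℂ L] (x : Fin N → L), FF L n →
  N = c + n → Algebra.IsAlgebraic (IntermediateField.adjoin ℂ (range x)) L →
    ∃ e : Fin c ⊕ Fin n ≃ Fin N, AlgebraicIndependent ℂ fun i => x (e (.inr i))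

/-- **UNT**: the residue form and the form `dy ∧ dlog t / η₀` differ by a unit at the vertex -/
def UNT : Prop := ForD fun _ F _ _ _ _ _ d k N _ _ y t _ _ s a u _ h₀ _ e₀ _ _ =>
  ∀ (c : ℕ) (f : Fin c → MvPolynomial (Fin N) ℂ) (e : Fin c ⊕ Fin (d + k) ≃ Fin N)
    (D' : Fin (d + k) → Derivation ℂ F F), Lg (zz t s a) u f →
    Fr (fun i => zz t s a (e (.inr i))) D' → mnr (zz t s a) f e ≠ 0 ∧
      ∃ A B : MvPolynomial (Fin N) ℂ, aeval (kl u (zz t s a)) A ≠ 0 ∧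
        aeval (kl u (zz t s a)) B ≠ 0 ∧
        jac D' (zt y t) * mnr (zz t s a) f e * aeval (zz t s a) B =
          (∏ i, t i) * hm t h₀ e₀ * aeval (zz t s a) A

/-- **CAN**: adjunction -/
def CAN : Prop := ForD fun _ _ _ _ _ _ _ d k N _ _ y t _ _ s a u _ h₀ _ e₀ _ _ =>
  ∀ (c : ℕ) (f : Fin c → MvPolynomial (Fin N) ℂ) (e : Fin c ⊕ Fin (d + k) ≃ Fin N),
    Lg (zz t s a) u f → (AlgebraicIndependent ℂ fun i => zz t s a (e (.inr i))) →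
    mnr (zz t s a) f e ≠ 0 ∧ ∀ R, Th u (zz t s a) R → lt y t R - R.ord (hm t h₀ e₀) =
      1 + kap (fun i => zz t s a (e (.inr i))) R - R.ord (mnr (zz t s a) f e)

/-- **DEG**: the canonical class -/
def DEG : Prop := ForD fun _ _ _ _ _ _ _ d k N _ _ _ t _ _ s a u _ _ _ e₀ _ _ =>
  ∀ (c : ℕ) (f : Fin c → MvPolynomial (Fin N) ℂ) (β : Fin c → Fin N →₀ ℕ), N = c + (d + k) →
    Pv a (zz t s a) u f → (∀ i, β i ∈ (f i).support) →
    ∃ κ : Fin N → ℤ, (∀ j, u j = 0 → κ j = 1 - ∑ i, (β i j : ℤ)) ∧ ∑ j, κ j • a j = -e₀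

/-- **CNT**: few equations involve only the units -/
def CNT : Prop := ∀ (N c n : ℕ) (F : Type) [Field F] [Algebra ℂ F] (z : Fin N → F)
  (u : Fin N → ℕ) (f : Fin c → MvPolynomial (Fin N) ℂ) (e : Fin c ⊕ Fin n ≃ Fin N),
    mnr z f e ≠ 0 → (∀ i, f i ≠ 0) ∧ ∀ A : Finset (Fin c),
      (∀ i ∈ A, ∀ m ∈ (f i).support, od u m = 0) → A.card + od u 1 ≤ N

/-! ### the places of the Rees ring -/

/-- **DIF**: the different -/
def DIF : Prop := ∀ (N c n : ℕ) (E : Type) [Field E] [Algebra ℂ E] (W : Pl E) (σ : E)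
  (x : Fin N → E) (G : Fin c → MvPolynomial (Fin N) E) (e : Fin c ⊕ Fin n ≃ Fin N),
    FF E (n + 1) → 0 < W.ord σ → (∀ j, x j ∈ W.ring) →
    (AlgebraicIndependent ℂ fun i => W.rd (x (e (.inr i)))) →
    (∀ i m, coeff m (G i) ∈ Algebra.adjoin ℂ {σ}) → (∀ i, eval x (G i) = 0) →
    (Matrix.of fun i l => eval x (pderiv (e (.inl l)) (G i))).det ≠ 0 →
    ∃ ρ : ℤ, 0 < ρ ∧
      (∀ φ ∈ IntermediateField.adjoin ℂ (insert σ (range x)), φ ≠ 0 → ρ ∣ W.ord φ) ∧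
      W.ord σ - ρ ≤ W.ord (Matrix.of fun i l => eval x (pderiv (e (.inl l)) (G i))).det

/-- **KPW**: the log discrepancy of a frame -/
def KPW : Prop := ∀ (n : ℕ) (F : Type) [Field F] [Algebra ℂ F], ForE F n fun E _ _ _ τ =>
  ∀ (w : Fin n → F) (v : Fin n → ℕ) (W : Pl E), 0 < W.ord τ → (∀ i, xs w τ v i ∈ W.ring) →
    (AlgebraicIndependent ℂ fun i => W.rd (xs w τ v i)) → AlgebraicIndependent ℂ w ∧
      ∀ R, Lies (algebraMap F E) W R →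
        W.ord (algebraMap F E R.t) * (1 + kap w R) ≤ W.ord τ * ∑ i, (v i : ℝ)

/-- **JAC**: the order of the minor -/
def JAC : Prop := ∀ (n : ℕ) (F : Type) [Field F] [Algebra ℂ F], ForE F n fun E _ _ _ τ =>
  ∀ (N c D : ℕ) (z : Fin N → F) (v : Fin N → ℕ) (f : Fin c → MvPolynomial (Fin N) ℂ)
    (ν : Fin c → ℕ) (e : Fin c ⊕ Fin n ≃ Fin N) (W : Pl E), 0 < D → 0 < W.ord τ →
    (∀ j, xs z τ v j ∈ W.ring) → (AlgebraicIndependent ℂ fun i => W.rd (xs z τ v (e (.inr i)))) →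
    (∀ i, aeval z (f i) = 0) → (∀ i, ∀ m ∈ (f i).support, ∃ r, ∑ j, v j * m j = ν i + D * r) →
    mnr z f e ≠ 0 → ∃ ρ : ℤ, 0 < ρ ∧ (∀ φ ∈ IntermediateField.adjoin ℂ
      (insert (τ ^ D) (range (xs z τ v))), φ ≠ 0 → ρ ∣ W.ord φ) ∧
      W.ord τ * (∑ i, (ν i : ℤ) - ∑ i, (v (e (.inl i)) : ℤ) + D) - ρ ≤
        W.ord (algebraMap F E (mnr z f e))

/-- **DSC**: the log discrepancy of the places of the Rees ring -/
def DSC : Prop := ForD fun _ F _ _ _ _ _ d k N _ _ y t _ _ s a u _ h₀ _ e₀ _ _ =>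
  ForE F (d + k) fun E _ _ _ τ => ∀ (c D : ℕ) (f : Fin c → MvPolynomial (Fin N) ℂ)
    (v : Fin N → ℕ) (ν : Fin c → ℕ) (W : Pl E), N = c + (d + k) → Lg (zz t s a) u f → 0 < D →
    (∀ j, 0 < v j ↔ u j = 0) → (∀ i, ∀ m ∈ (f i).support, ∃ r, ∑ j, v j * m j = ν i + D * r) →
    Wp u (zz t s a) τ v W → ∃ (R : Pl F) (ρ : ℤ), Lies (algebraMap F E) W R ∧ 0 < ρ ∧
      (∀ φ ∈ IntermediateField.adjoin ℂ (insert (τ ^ D) (range (xs (zz t s a) τ v))), φ ≠ 0 →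
        ρ ∣ W.ord φ) ∧ W.ord (algebraMap F E R.t) * (lt y t R - R.ord (hm t h₀ e₀)) ≤
          W.ord τ * (∑ j, (v j : ℝ) - ∑ i, (ν i : ℝ) - D) + ρ

/-- **TRV**: for a small vector all places are trivial on `K` -/
def TRV : Prop := ForD fun K F _ _ _ _ _ d k N _ ε _ t _ _ s a u _ _ _ e₀ _ _ =>
  ForE F (d + k) fun E _ _ _ τ => ∀ (c D : ℕ) (f : Fin c → MvPolynomial (Fin N) ℂ)
    (β : Fin c → Fin N →₀ ℕ) (v : Fin N → ℕ) (W : Pl E), N = c + (d + k) → Pv a (zz t s a) u f →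
    (∀ i, β i ∈ (f i).support) → Sv (min ε 1) a u D v → (∀ i, ∑ j, v j * β i j < D) →
    Wp u (zz t s a) τ v W → ∃ ξ : Fin k → ℝ, (∀ (φ : K) e, φ ≠ 0 →
      (W.ord (algebraMap F E (hm t φ e)) : ℝ) = W.ord τ * pa e ξ) ∧
      -pa e₀ ξ ≤ ∑ j, (v j : ℝ) - ∑ i, ∑ j, (v j : ℝ) * β i j

/-- **ITG**: the valuative criterion -/
def ITG : Prop := ForD fun _ F _ _ _ _ _ d k N _ _ _ t _ _ s a u _ _ _ _ _ _ =>
  ForE F (d + k) fun E _ _ _ τ => ∀ (v : Fin N → ℕ) (x : F) (N₀ : ℤ), x ∈ Rg s a t →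
    (∀ j, 0 < u j → v j = 0) → (∀ W, Wp u (zz t s a) τ v W → algebraMap F E x / τ ^ N₀ ∈ W.ring) →
    IsIntegral (Rv u (zz t s a) τ v) (algebraMap F E x / τ ^ N₀)

/-- **CMP**: the homogeneous component of the integral equation -/
def CMP : Prop := ForD fun K F _ _ _ _ _ d k N _ _ _ t _ _ s a u _ _ _ _ _ Q =>
  ForE F (d + k) fun E _ _ _ τ => ∀ (v : Fin N → ℕ) (φ : K) (e : Fin k → ℤ) (N₀ : ℤ), φ ≠ 0 →
    (∀ j, 0 < u j → v j = 0) →
    IsIntegral (Rv u (zz t s a) τ v) (algebraMap F E (hm t φ e) / τ ^ N₀) →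
    ∃ (r : ℕ) (m : Fin N → ℕ), 0 < r ∧ dg a m = (r : ℤ) • e ∧ r * N₀ ≤ ∑ j, (v j : ℤ) * m j ∧
      Q.ord (∏ j, s j ^ m j) ≤ r * Q.ord φ

/-- **BND**: the bounds -/
def BND : Prop := ForD fun _ _ _ _ _ _ _ d k N q _ _ t _ _ s a u _ _ _ _ b _ =>
  ∀ (c : ℕ) (f : Fin c → MvPolynomial (Fin N) ℂ), N = c + (d + k) → Pv a (zz t s a) u f →
    od u 1 ≤ 2 * (d + k) ∧ ∃ (β : Fin c → Fin N →₀ ℕ) (γ : Fin N → ℕ),
      (∀ i, β i ∈ (f i).support) ∧ dg a γ = b ∧ q * ∑ i, od u (β i) + od u γ ≤ q * od u 1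

/-- **HMR**: the geometry in terms of weights -/
def HMR : Prop := ForD fun _ _ _ _ _ _ _ d k N q ε _ t _ _ s a u _ _ _ e₀ b Q =>
  ∀ (c : ℕ) (f : Fin c → MvPolynomial (Fin N) ℂ) (β : Fin c → Fin N →₀ ℕ) (γ : Fin N → ℕ)
    (κ : Fin N → ℤ) (η : ℝ), N = c + (d + k) → Pv a (zz t s a) u f → (∀ i, β i ∈ (f i).support) →
    dg a γ = b → (∀ j, u j = 0 → κ j = q * (1 - ∑ i, (β i j : ℤ)) - γ j) → η ≤ min ε 1 →
    (∀ i, η * od u (β i) ≤ 1) → Hm η a u (fun j => Q.ord (s j)) ((q : ℤ) • e₀ + b) κ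

/-- **ELM**: a minimal presentation -/
def ELM : Prop := ForD fun K _ _ _ _ _ _ _ k N q ε y t _ D s a u l h₀ g e₀ b Q =>
  ∀ (c : ℕ) (f : Fin c → MvPolynomial (Fin N) ℂ), Lg (zz t s a) u f →
    ∃ (T' : Set (Pl K)) (s' : Fin N → K) (a' : Fin N → Fin k → ℤ) (u' : Fin N → ℕ)
      (f' : Fin c → MvPolynomial (Fin N) ℂ), Dz q ε y t T' D s' a' u' l h₀ g e₀ b Q ∧
      Pv a' (zz t s' a') u' f' ∧
      ∀ m', ∃ m, dg a m = dg a' m' ∧ Q.ord (∏ j, s j ^ m j) = Q.ord (∏ j, s' j ^ m' j)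

/-- **the target**: uniform in the codimension -/
def HZE : Prop := ∀ (d k q : ℕ) (ε : ℝ), 0 < q → 0 < ε → ∃ m : ℕ, 1 ≤ m ∧ ∀ c, HzD c d k q ε m

theorem HZE.hzu (h : HZE) : HZU := fun k n q ε hq hε =>
  (h (n + 1) k q ε hq hε).imp fun _ H => ⟨H.1, fun c => (H.2 c).hzB⟩

theorem HZE.hzd (h : HZE) : HZD := fun c d k q ε hq hε =>
  (h d k q ε hq hε).imp fun _ H => ⟨H.1, H.2 c⟩

end Vale.Agent.P283R.Hz
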